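import Vale.Agent.P167.H562.MAJ3

/-!
# P167, SLE_6: the moment input of the bridge
-/

namespace Vale.Agent.P167.H562.MAJ

open Finset MeasureTheory Vale.Agent.P167.BR Vale.Agent.P167.H562.SML Vale.Agent.P167.H45 Relation
open Vale.Agent.P167.H562 (Em Em_mono)
open Vale.Agent.P167.H167 (Fd tot wl_zero ws_zero)

variable {ω : Cfg} {D : Finset (ℤ × ℤ)} {p b : ℤ × ℤ} {A : Finset Ed} {K : ℝ} {r : ℤ}
  {f : ℤ × ℤ → ℝ}

/-- The normalisation. -/
noncomputable def Nm (K : ℝ) (r : ℤ) : ℝ := Real.exp (√3 * (Real.pi / 3) * Nb (dl K r))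

theorem wl_eq_wf (t : ℝ) : wl t = wf t := by
  unfold wl wf
  rw [Real.cos_pi_div_three]
  ring

/-! ### lower bounds of the weights -/

theorem one_le_wl {t : ℝ} (h0 : 0 ≤ t) (h1 : t ≤ Real.pi / 3) : 1 ≤ wl (-t) := by
  have hp := Real.pi_pos
  unfold wl
  rw [le_div_iff₀ (by rw [Real.cos_pi_div_three]; norm_num), one_mul]
  exact Real.cos_le_cos_of_nonneg_of_le_pi (by linarith) (by linarith) (by linarith)

theorem one_le_ws {t : ℝ} (h0 : 0 ≤ t) (h1 : t ≤ Real.pi / 3) : 1 ≤ ws (-t) := by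
  have hp := Real.pi_pos
  have hc : 0 < Real.cos (Real.pi / 6) :=
    Real.cos_pos_of_mem_Ioo ⟨by linarith, by linarith⟩
  unfold ws
  rw [le_div_iff₀ hc, one_mul, ← Real.cos_abs (Real.pi / 6 + -t)]
  refine Real.cos_le_cos_of_nonneg_of_le_pi (abs_nonneg _) (by linarith) ?_
  rw [abs_le]
  constructor <;> linarith

theorem mass_bounds (hf : ∀ z, 0 ≤ f z) (hfin : (Function.support f).Finite) :
    0 ≤ mass D p f A ∧ mass D p f A ≤ ∑ᶠ z, f z := by
  classical
  unfold mass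
  constructor
  · exact sum_nonneg fun z _ => by split_ifs <;> simp [hf z]
  · rw [finsum_eq_sum_of_support_subset (s := sites D ∪ hfin.toFinset) f
      (fun z hz => by simp only [coe_union, Set.mem_union]; exact Or.inr (by simpa using hz))]
    calc ∑ z ∈ sites D, (if Sep D A z p then f z else 0) ≤ ∑ z ∈ sites D, f z :=
          sum_le_sum fun z _ => by split_ifs <;> simp [hf z]
      _ ≤ _ := sum_le_sum_of_subset_of_nonneg subset_union_left fun z _ _ => hf z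

theorem mass_neg (f : ℤ × ℤ → ℝ) : mass D p (-f) A = - mass D p f A := by
  classical
  unfold mass
  rw [← sum_neg_distrib]
  exact sum_congr rfl fun z _ => by split_ifs <;> simp

theorem bmp_fin (h : Sc K r) (hf : Bmp K b r f) : (Function.support f).Finite := by
  refine (sites (core K b r)).finite_toSet.subset fun z hz => ?_
  exact Finset.mem_coe.2 (h.bmp_supp hf hz)

theorem one_le_wp (h : Sc K r) (hf : Bmp K b r f) : 1 ≤ wp D A (mass D p (-f) A) := by
  obtain ⟨h1, h2⟩ := mass_bounds (D := D) (p := p) (A := A) hf.nonneg (bmp_fin h hf)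
  rw [hf.sum] at h2
  rw [mass_neg]
  unfold wp
  split_ifs
  · exact one_le_wl h1 h2
  · exact one_le_ws h1 h2

/-- The sum of the squares of the masses of the small loops. -/
noncomputable def Qm (K : ℝ) (b : ℤ × ℤ) (r : ℤ) (f : ℤ × ℤ → ℝ) (ω : Cfg) : ℝ :=
  ∑ ℓ ∈ smf (nb1 (fun _ : Unit => core K b r) (fun _ => dl K r) ()) (dl K r) ω, (G f ℓ) ^ 2

theorem sum_core {g : ℤ × ℤ → ℝ} (hs : ∀ z, g z ≠ 0 → z ∈ sites (core K b r)) (ω : Cfg) :
    ∑ ℓ ∈ smf (nb1 (fun _ : Unit => core K b r) (fun _ => dl K r) ()) (dl K r) ω,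
      G g ℓ = Sm g (dl K r) ω := by
  refine sum_G (F := sites (core K b r)) hs ?_ ω
  intro s hs' v hv
  obtain ⟨w, hw, h4⟩ := near_site (hs s hs')
  refine mem_fat hw ?_
  have h5 : (nm (v - w) : ℝ) ≤ nm (v - s) + nm (s - w) := by exact_mod_cast nm_tri v s w
  have h6 : (nm (s - w) : ℝ) ≤ 1 := by exact_mod_cast h4
  linarith

theorem G_neg (hA : IsLoop ω A) (f : ℤ × ℤ → ℝ) : G (-f) A = - G f A := by
  classical
  have hfin := ins_fin s_out hA
  unfold G
  rw [finsum_mem_eq_finite_toFinset_sum _ hfin, finsum_mem_eq_finite_toFinset_sum _ hfin,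
    ← sum_neg_distrib]
  rfl

/-- **Pointwise lower bound.** -/
theorem Sc.lower_pt (h : Sc K r) (hf : Bmp K b r f) (hF : Flt D b (2 * r))
    (hO : OutC D b (2 * r) p) (ω : Cfg) :
    Real.exp (√3 * Sm f (dl K r) ω - 9 * Qm K b r f ω) ≤ XD D p (-f) ω := by
  classical
  have hs : ∀ z, f z ≠ 0 → z ∈ sites (core K b r) := fun z hz => h.bmp_supp hf hz
  set T0 := (smf (nb1 (fun _ : Unit => core K b r) (fun _ => dl K r) ()) (dl K r) ω).filter
    (fun ℓ => G f ℓ ≠ 0) with hT0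
  have hmem : ∀ A ∈ T0, A ∈ pcs ω D ∧ IsLp D A ∧ Qb b r A ∧ Small (dl K r) A := by
    intro A hA
    rw [hT0, mem_filter, mem_smf] at hA
    obtain ⟨z, hz, hfz⟩ := exists_ins_of_G hA.2
    have := h.loop_near hF hA.1.1 hA.1.2.2 ⟨z, hs z hfz, hz⟩
    exact ⟨this.1, this.2.1, this.2.2, hA.1.2.2⟩
  have hsub : T0 ⊆ pcs ω D := fun A hA => (hmem A hA).1
  have hwp : ∀ A ∈ T0, Real.exp (√3 * G f A - 9 * (G f A) ^ 2) ≤ wp D A (mass D p (-f) A) := by
    intro A hA
    obtain ⟨h1, h2, h3, h4⟩ := hmem A hA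
    have hL := BR.IsLp.isLoop h1 h2
    have h0 : W A p = 0 := by
      have h5 := pot_ecx (potD_W (D := D) hL) h3.2 hO
      rw [← h5]
      exact W_above hL (y := b.2 + 2 * r)
        (fun e he => (mem_hbox.1 (inn_head hF h3.2 h2 he)).2.2.2) le_rfl
    have h5 : mass D p f A = G f A := by
      refine mass_loop hL h0 fun z hz => ?_
      have hr1 : 1 ≤ 2 * r := by have := h.r8; omega
      have h6 : z ∈ sites (hbox b (2 * r)) :=
        sites_mono (h.core_sub.trans (hbox_mono (by have := h.r8; omega))) (hs z hz)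
      have h7 : top b (2 * r) ∈ sites (hbox b (2 * r)) := by
        rw [mem_sites_hbox hr1]
        simp only [top]
        omega
      exact ⟨sites_mono (hbox_sub hF) h6,
        (ec_mono (hbox_sub hF) (econ_hbox hr1 z h6 _ h7)).trans (outC_ec hO)⟩
    rw [mass_neg, h5]
    unfold wp
    rw [if_pos h2, wl_eq_wf]
    have h6 : |G f A| ≤ 1 / 16 := h.small (bmp_abs hf) hL h4
    have h7 := log_wf (t := -(G f A)) (by rw [abs_neg]; linarith)
    have h8 := wf_pos_near (t := -(G f A)) (by rw [abs_neg]; linarith)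
    have hpos : 0 < wf (-(G f A)) := by linarith
    rw [← Real.exp_log hpos]
    refine Real.exp_le_exp.2 ?_
    have h9 := (abs_le.1 h7).1
    rw [neg_sq] at h9
    linarith
  -- the two sums
  have e1 : Sm f (dl K r) ω = ∑ A ∈ T0, G f A := by
    rw [← sum_core hs ω, hT0, sum_filter_ne_zero]
  have e2 : Qm K b r f ω = ∑ A ∈ T0, (G f A) ^ 2 := by
    unfold Qm
    rw [hT0, sum_filter]
    refine sum_congr rfl fun A _ => ?_
    by_cases h0 : G f A = 0 <;> simp [h0]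
  have e3 : √3 * Sm f (dl K r) ω - 9 * Qm K b r f ω =
      ∑ A ∈ T0, (√3 * G f A - 9 * (G f A) ^ 2) := by
    rw [e1, e2, mul_sum, mul_sum, ← sum_sub_distrib]
  rw [e3, Real.exp_sum]
  unfold XD
  rw [← prod_sdiff hsub]
  have h1 : 1 ≤ ∏ A ∈ pcs ω D \ T0, wp D A (mass D p (-f) A) :=
    one_le_prodR fun A _ => one_le_wp h hf
  have h2 : ∏ A ∈ T0, Real.exp (√3 * G f A - 9 * (G f A) ^ 2) ≤
      ∏ A ∈ T0, wp D A (mass D p (-f) A) :=
    prod_le_prod (fun _ _ => (Real.exp_pos _).le) hwp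
  have h3 : 0 ≤ ∏ A ∈ T0, wp D A (mass D p (-f) A) :=
    (prod_nonneg fun _ _ => (Real.exp_pos _).le).trans h2
  exact h2.trans (le_mul_of_one_le_left h3 h1)

theorem Qm_fd (K : ℝ) (b : ℤ × ℤ) (r : ℤ) (f : ℤ × ℤ → ℝ) : Fd (Qm K b r f) :=
  ⟨fat (nb1 (fun _ : Unit => core K b r) (fun _ => dl K r) ()) (dl K r), fun ω ω' hw => by
    unfold Qm
    rw [smf_loc' _ _ fun v hv => hw v (Finset.mem_coe.2 hv)]⟩

theorem Qm_nonneg (K : ℝ) (b : ℤ × ℤ) (r : ℤ) (f : ℤ × ℤ → ℝ) (ω : Cfg) : 0 ≤ Qm K b r f ω :=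
  sum_nonneg fun _ _ => sq_nonneg _

/-- Squares of the fattened set. -/
theorem mem_fat_iff {Z : Finset (ℤ × ℤ)} {d : ℝ} {u : ℤ × ℤ} (h : u ∈ fat Z d) :
    ∃ v ∈ Z, (nm (u - v) : ℝ) ≤ d := by
  unfold fat at h
  rw [mem_biUnion] at h
  obtain ⟨v, hv, h⟩ := h
  exact ⟨v, hv, Int.le_floor.1 (((box_fin v ⌊d⌋).choose_spec u).1 h)⟩

/-- The mean of the quadratic statistic. -/
theorem Qm_mean (K : ℝ) (hK : 0 < K) : ∃ C : ℝ, 0 ≤ C ∧ ∀ (b : ℤ × ℤ) (r : ℤ)
    (f : ℤ × ℤ → ℝ), Sc K r → (∀ z, |f z| ≤ K / (r : ℝ) ^ 2) → ∫ ω, Qm K b r f ω ∂μ ≤ C := by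
  obtain ⟨C, hC0, hC⟩ := sml_quad (R := 2) (κ := 1 / (4 * K)) (K ^ 2) (by norm_num)
    (by positivity)
  refine ⟨Real.exp (C * K ^ 2), (Real.exp_pos _).le, fun b r f h hf => ?_⟩
  have h8 : (8 : ℝ) ≤ r := by exact_mod_cast h.r8
  have h1 := hC r (by linarith) b (nb1 (fun _ : Unit => core K b r) (fun _ => dl K r) ()) ?_
    (fun ℓ => G f ℓ) K hK.le (bd_G (by linarith) hK.le hf) 1 zero_le_one (by rw [one_mul])
  · rw [one_mul] at h1
    have h2 : Em μ (Qm K b r f) ≤ ENNReal.ofReal (Real.exp (C * K ^ 2)) := by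
      refine le_trans (le_of_eq ?_) h1
      unfold Em Qm
      refine lintegral_congr fun ω => ?_
      simp only [one_mul]
      rfl
    have h3 : ∫ ω, Qm K b r f ω ∂μ ≤ ∫ ω, Real.exp (Qm K b r f ω) ∂μ := by
      refine integral_mono (Qm_fd K b r f).int ((Qm_fd K b r f).comp Real.exp).int fun ω => ?_
      have := Real.add_one_le_exp (Qm K b r f ω)
      simp only
      linarith
    refine h3.trans ?_
    rw [integral_eq_lintegral_of_nonneg_ae (Filter.Eventually.of_forall fun ω =>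
      (Real.exp_pos _).le) ((Qm_fd K b r f).comp Real.exp).int.aestronglyMeasurable]
    refine (ENNReal.toReal_mono ENNReal.ofReal_ne_top h2).trans ?_
    rw [ENNReal.toReal_ofReal (Real.exp_pos _).le]
  · intro v hv
    obtain ⟨w, hw, h2⟩ := mem_fat_iff hv
    have h3 : w ∈ hbox b r := h.core_sub hw
    rw [mem_hbox] at h3
    have h4 : nm (w - b) ≤ r := by
      simp only [nm, Prod.fst_sub, Prod.snd_sub, max_le_iff, abs_le]
      omega
    have h5 : (nm (v - b) : ℝ) ≤ nm (v - w) + nm (w - b) := by exact_mod_cast nm_tri v w b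
    have h6 : (nm (w - b) : ℝ) ≤ r := by exact_mod_cast h4
    have h7 := h.dl_le
    linarith

/-- Jensen's inequality. -/
theorem jensen {X : Cfg → ℝ} (hX : Fd X) : Real.exp (∫ ω, X ω ∂μ) ≤ ∫ ω, Real.exp (X ω) ∂μ := by
  set a := ∫ ω, X ω ∂μ with ha
  have h1 : ∫ ω, (Real.exp a * (1 - a) + Real.exp a * X ω) ∂μ ≤ ∫ ω, Real.exp (X ω) ∂μ := by
    refine integral_mono ((integrable_const _).add (hX.int.const_mul _))
      (hX.comp Real.exp).int fun ω => ?_
    have h2 := Real.add_one_le_exp (X ω - a)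
    have h3 : Real.exp (X ω) = Real.exp a * Real.exp (X ω - a) := by
      rw [← Real.exp_add]; ring_nf
    simp only
    rw [h3]
    have h4 := Real.exp_pos a
    nlinarith
  rw [integral_add (integrable_const _) (hX.int.const_mul _), integral_const, integral_const_mul,
    ← ha] at h1
  simp only [probReal_univ, one_smul] at h1
  linarith

/-- **Lower bound of the one-point functional.** -/
theorem lower (K : ℝ) (hK : 0 < K) : ∃ c : ℝ, 0 < c ∧ ∀ (b : ℤ × ℤ) (r : ℤ) (f : ℤ × ℤ → ℝ),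
    Sc K r → Bmp K b r f → ∀ (D : Finset (ℤ × ℤ)) (p : ℤ × ℤ), Flt D b (2 * r) →
    OutC D b (2 * r) p → c * Nm K r ≤ VD D p (-f) := by
  obtain ⟨C, hC0, hC⟩ := Qm_mean K hK
  refine ⟨Real.exp (-(9 * C)), Real.exp_pos _, fun b r f h hf D p hF hO => ?_⟩
  have hs : ∀ z, f z ≠ 0 → z ∈ sites (core K b r) := fun z hz => h.bmp_supp hf hz
  have hX : Fd (fun ω => √3 * Sm f (dl K r) ω - 9 * Qm K b r f ω) :=
    (Sm_fd hs (dl K r)).comp₂ (Qm_fd K b r f) (fun x y => √3 * x - 9 * y)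
  have h1 := jensen hX
  rw [integral_sub ((Sm_fd hs (dl K r)).int.const_mul _) ((Qm_fd K b r f).int.const_mul _),
    integral_const_mul, integral_const_mul, mean_Sm hs, hf.sum] at h1
  have h2 := hC b r f h (bmp_abs hf)
  have hXD : Fd (XD D p (-f)) := ⟨D, fun ω ω' hw => XD_congr (fun v hv =>
    hw v (Finset.mem_coe.2 hv)) p (-f)⟩
  have h3 : ∫ ω, Real.exp (√3 * Sm f (dl K r) ω - 9 * Qm K b r f ω) ∂μ ≤ VD D p (-f) :=
    integral_mono (hX.comp Real.exp).int hXD.int fun ω => h.lower_pt hf hF hO ω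
  refine le_trans ?_ (h1.trans h3)
  unfold Nm
  rw [← Real.exp_add]
  exact Real.exp_le_exp.2 (by linarith)

theorem tot_eq (h : Sc K r) (hf : Bmp K b r f) (hF : Flt D b (2 * r)) :
    tot D f = Real.pi / 3 := by
  unfold tot
  rw [← hf.sum, fsum_eq (F := sites D)]
  intro z hz
  exact sites_mono (h.core_sub.trans ((hbox_mono (by have := h.r8; omega)).trans (hbox_sub hF)))
    (h.bmp_supp hf hz)

theorem tot_neg (f : ℤ × ℤ → ℝ) : tot D (-f) = - tot D f := by
  unfold tot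
  rw [← sum_neg_distrib]
  rfl

/-- All weights of the strands separating whole bumps. -/
theorem ws_third (n : ℤ) : |ws (n * (Real.pi / 3))| ≤ 1 := by
  have hp := Real.pi_pos
  have hc : 0 < Real.cos (Real.pi / 6) :=
    Real.cos_pos_of_mem_Ioo ⟨by linarith, by linarith⟩
  unfold ws
  rw [abs_div, abs_of_pos hc, div_le_one hc]
  -- `|cos (π/6 + n π/3)| ≤ cos (π/6)`
  have h1 : ∀ x : ℝ, |Real.cos x| ≤ Real.cos (Real.pi / 6) ↔ Real.cos (2 * x) ≤ 1 / 2 := by
    intro x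
    have h2 : Real.cos (Real.pi / 6) ^ 2 = 3 / 4 := by
      rw [Real.cos_pi_div_six, div_pow, Real.sq_sqrt (by norm_num)]; norm_num
    rw [Real.cos_two_mul]
    constructor
    · intro h
      have := pow_le_pow_left₀ (abs_nonneg _) h 2
      rw [sq_abs, h2] at this
      linarith
    · intro h
      refine abs_le_of_sq_le_sq ?_ hc.le
      rw [h2]
      linarith
  rw [h1]
  have h3 : 2 * (Real.pi / 6 + n * (Real.pi / 3)) = (2 * n + 1 : ℤ) * (Real.pi / 3) := by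
    push_cast; ring
  rw [h3]
  -- the residue of `2 n + 1` modulo `6`
  obtain ⟨k, hk⟩ : ∃ k : ℤ, 2 * n + 1 = 6 * k + 1 ∨ 2 * n + 1 = 6 * k + 3 ∨
      2 * n + 1 = 6 * k + 5 := ⟨(2 * n + 1) / 6, by omega⟩
  rcases hk with hk | hk | hk
  · rw [hk, show ((6 * k + 1 : ℤ) : ℝ) * (Real.pi / 3) = Real.pi / 3 + k * (2 * Real.pi) by
      push_cast; ring, Real.cos_add_int_mul_two_pi, Real.cos_pi_div_three]
  · rw [hk, show ((6 * k + 3 : ℤ) : ℝ) * (Real.pi / 3) = Real.pi + k * (2 * Real.pi) by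
      push_cast; ring, Real.cos_add_int_mul_two_pi, Real.cos_pi]
    norm_num
  · rw [hk, show ((6 * k + 5 : ℤ) : ℝ) * (Real.pi / 3) =
      -(Real.pi / 3) + ((k + 1 : ℤ) : ℝ) * (2 * Real.pi) by
      push_cast; ring, Real.cos_add_int_mul_two_pi, Real.cos_neg, Real.cos_pi_div_three]

theorem ws_one : |ws (Real.pi / 3)| ≤ 1 := by simpa using ws_third 1

theorem ws_mone : |ws (-(Real.pi / 3))| ≤ 1 := by simpa using ws_third (-1)

/-- **The moment input of the bridge.** -/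
theorem s_maj : S_maj := by
  intro K hK
  obtain ⟨ε, C1, ρ0, -, hC1, hρ0, h1⟩ := YN_mom (1 / (4 * K)) 2 K 12 0 (by positivity)
    (by norm_num) hK.le (by norm_num)
  obtain ⟨c, hc, hlow⟩ := lower K hK
  set C : ℝ := max C1 1 with hC
  have hC1' : C1 ≤ C ^ 12 := by
    refine (le_max_left C1 1).trans ?_
    exact le_self_pow₀ (le_max_right _ _) (by norm_num)
  refine ⟨Nm K, C, c, max ⌈max (8 * K) ρ0⌉ 1, by positivity, hc, fun r => Real.exp_pos _,
    fun b r f hr hf => ?_⟩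
  have hr' : max (8 * K) ρ0 ≤ (r : ℝ) := Int.ceil_le.1 ((le_max_left _ _).trans hr)
  have hr0 : 0 < r := lt_of_lt_of_le one_pos ((le_max_right _ _).trans hr)
  have h : Sc K r := ⟨bmp_one_le hK hr0 hf, (le_max_left _ _).trans hr'⟩
  have h8 : (8 : ℝ) ≤ r := by exact_mod_cast h.r8
  obtain ⟨N, -, hN2, hN3⟩ := h1 r ((le_max_right _ _).trans hr') b (fun i => i.elim0)
  have hsf : ∀ z, f z ≠ 0 → z ∈ sites (core K b r) := fun z hz => h.bmp_supp hf hz
  have hsf' : ∀ z, (-f) z ≠ 0 → z ∈ sites (core K b r) := fun z hz =>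
    h.bmp_supp hf (by simpa using hz)
  have hnf : ∀ z, f z ≠ 0 → (nm (z - b) : ℝ) ≤ 2 * r := fun z hz => by
    have : (nm (z - b) : ℝ) ≤ r := by exact_mod_cast h.bmp_nm hf hz
    linarith
  have habs' : ∀ z, |(-f) z| ≤ K / (r : ℝ) ^ 2 := fun z => by
    rw [Pi.neg_apply, abs_neg]; exact bmp_abs hf z
  obtain ⟨hY1, hY2⟩ := hN3 f (bmp_abs hf) hnf
  obtain ⟨hY1', hY2'⟩ := hN3 (-f) habs' (fun z hz => hnf z (by simpa using hz))
  have hpow : ∀ (g : ℤ × ℤ → ℝ) (ω : Cfg), YN N g (dl K r) ω ^ (12 : ℕ) =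
      YN N g (1 / (4 * K) * r) ω ^ (12 : ℝ) := by
    intro g ω
    rw [show (12 : ℝ) = ((12 : ℕ) : ℝ) by norm_num, Real.rpow_natCast]
    rfl
  have hsum' : ∑ᶠ z, (-f) z = -(Real.pi / 3) := by
    rw [← hf.sum, ← finsum_neg_distrib]
    rfl
  refine ⟨⟨YN N f (dl K r), fun ω => (YN_pos _ _ _ _).le, (hY1.pow 12).int, ?_,
    fun ω D p hF hO => ?_⟩, ⟨YN N (-f) (dl K r), fun ω => (YN_pos _ _ _ _).le, (hY1'.pow 12).int,
    ?_, fun ω D p hF hO => ?_⟩, fun D p hF hO => hlow b r f h hf D p hF hO⟩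
  · have := hY2 12 (by norm_num) le_rfl
    rw [hf.sum] at this
    simp only [hpow]
    refine this.trans ?_
    rw [div_pow, div_eq_mul_inv]
    refine mul_le_mul hC1' (le_of_eq ?_) (Real.exp_pos _).le (by positivity)
    unfold Nm
    rw [← Real.exp_nat_mul, ← Real.exp_neg]
    congr 1
    push_cast
    unfold dl
    ring
  · have := h.dom (ω := ω) hF hO (bmp_abs hf) hsf (by rw [tot_eq h hf hF]; exact ws_one)
      (hN2 ω)
    exact this
  · have := hY2' 12 (by norm_num) le_rfl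
    rw [hsum'] at this
    simp only [hpow]
    refine this.trans ?_
    rw [mul_pow]
    refine mul_le_mul hC1' (le_of_eq ?_) (Real.exp_pos _).le (by positivity)
    unfold Nm
    rw [← Real.exp_nat_mul]
    congr 1
    push_cast
    unfold dl
    ring
  · have := h.dom (ω := ω) hF hO habs' hsf'
      (by rw [tot_neg, tot_eq h hf hF]; exact ws_mone) (hN2 ω)
    exact this

end Vale.Agent.P167.H562.MAJ
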