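import Vale.Agent.P167.H562.MAJ6

/-!
# P167, SLE_6: the moments of LOC2
-/

namespace Vale.Agent.P167.H562.MAJ

open Finset MeasureTheory Vale.Agent.P167.BR Vale.Agent.P167.H562.SML Vale.Agent.P167.H45 Relation
open Vale.Agent.P167.E6 (IsPolygon Encloses dir face)
open Vale.Agent.P167.H562 (Em Em_mono)
open Vale.Agent.P167.H167 (Fd tot wl_zero ws_zero fd_pcs)
open Vale.Agent.P167.LOC (XL ZO m6)

variable {ω : Cfg} {D : Finset (ℤ × ℤ)} {p b : ℤ × ℤ} {A : Finset Ed} {K : ℝ} {r R : ℤ}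
  {f : ℤ × ℤ → ℝ} {n : ℕ} {q : ZMod n → ℤ × ℤ}

theorem exp_pow_neg (k : ℕ) (x : ℝ) : Real.exp (-((k : ℝ) * √3 * (Real.pi / 3) * x)) =
    ((Real.exp (√3 * (Real.pi / 3) * x))⁻¹) ^ k := by
  rw [← Real.exp_neg, ← Real.exp_nat_mul]
  congr 1
  ring

theorem exp_pow_pos (k : ℕ) (x : ℝ) : Real.exp (-((k : ℝ) * √3 * (-(Real.pi / 3)) * x)) =
    (Real.exp (√3 * (Real.pi / 3) * x)) ^ k := by
  rw [← Real.exp_nat_mul]
  congr 1
  ring

/-- Natural powers. -/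
theorem mom_nat {N : Cfg → ℕ} {g : ℤ × ℤ → ℝ} {d C s : ℝ}
    (h : ∀ t : ℝ, 0 ≤ t → t ≤ 12 → ∫ ω, YN N g d ω ^ t ∂μ ≤ C * Real.exp (-(t * √3 * s * Nb d)))
    (k : ℕ) (hk : k ≤ 12) :
    ∫ ω, YN N g d ω ^ k ∂μ ≤ C * Real.exp (-((k : ℝ) * √3 * s * Nb d)) := by
  have := h k (Nat.cast_nonneg k) (by exact_mod_cast hk)
  simpa only [Real.rpow_natCast] using this

theorem one_le_wp' {g : ℤ × ℤ → ℝ} (h0 : ∀ z, 0 ≤ g z) (hfin : (Function.support g).Finite)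
    (hs : ∑ᶠ z, g z = Real.pi / 3) : 1 ≤ wp D A (mass D p (-g) A) := by
  obtain ⟨h1, h2⟩ := mass_bounds (D := D) (p := p) (A := A) h0 hfin
  rw [hs] at h2
  rw [mass_neg]
  unfold wp
  split_ifs
  · exact one_le_wl h1 h2
  · exact one_le_ws h1 h2

theorem fd_XD (D : Finset (ℤ × ℤ)) (p : ℤ × ℤ) (g : ℤ × ℤ → ℝ) : Fd (XD D p g) :=
  ⟨D, fun _ _ hw => XD_congr (fun v hv => hw v (Finset.mem_coe.2 hv)) p g⟩

theorem fd_ZO (D : Finset (ℤ × ℤ)) (b : ℤ × ℤ) (R : ℤ) (g : ℤ × ℤ → ℝ) : Fd (ZO D b R g) := by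
  classical
  exact fd_pcs D fun s => ∏ A ∈ s.filter (fun A => ¬ Vz (hbox b R) A), wp D A (mass D b (-g) A)

theorem fd_XL (b : ℤ × ℤ) (r R : ℤ) (g : ℤ × ℤ → ℝ) : Fd (XL b r R g) :=
  ⟨hbox b R, fun ω ω' hw => by
    have h := pcs_congr (D := hbox b R) (ω := ω) (ω' := ω') fun v hv => hw v (Finset.mem_coe.2 hv)
    have hI : Iso b r R ω ↔ Iso b r R ω' := by unfold Iso; rw [h]
    unfold XL
    by_cases h1 : Iso b r R ω
    · rw [if_pos h1, if_pos (hI.1 h1)]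
      unfold XZ
      rw [h]
    · rw [if_neg h1, if_neg (fun h' => h1 (hI.2 h'))]⟩

theorem abs_ZO_le {g : ℤ × ℤ → ℝ} (h0 : ∀ z, 0 ≤ g z) (hfin : (Function.support g).Finite)
    (hs : ∑ᶠ z, g z = Real.pi / 3) : |ZO D b R g ω| ≤ |XD D b (-g) ω| := by
  classical
  have h1 : ∀ A, 1 ≤ wp D A (mass D b (-g) A) := fun A => one_le_wp' h0 hfin hs
  have h2 : 0 ≤ ZO D b R g ω := prod_nonneg fun A _ => by linarith [h1 A]
  have h3 : 0 ≤ XD D b (-g) ω := prod_nonneg fun A _ => by linarith [h1 A]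
  rw [abs_of_nonneg h2, abs_of_nonneg h3]
  unfold ZO XD
  rw [← prod_filter_mul_prod_filter_not (pcs ω D) (Vz (hbox b R))]
  refine le_mul_of_one_le_left h2 (one_le_prodR fun A _ => h1 A)

theorem m6_mono {X Y : Cfg → ℝ} (hX : Fd X) (hY : Fd Y) (h : ∀ ω, |X ω| ≤ |Y ω|) :
    m6 X ≤ m6 Y := by
  unfold m6
  exact integral_mono ((hX.abs).pow 6).int ((hY.abs).pow 6).int fun ω =>
    pow_le_pow_left₀ (abs_nonneg _) (h ω) 6

theorem m6_nonneg (X : Cfg → ℝ) : 0 ≤ m6 X := integral_nonneg fun ω => by positivity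

/-- Multiples of the totals. -/
theorem tot_int {g : ℤ × ℤ → ℝ} (hs : ∑ᶠ z, g z = Real.pi / 3)
    (hD : ∀ z, g z ≠ 0 → z ∈ sites D) : tot D g = Real.pi / 3 := by
  unfold tot
  rw [← hs, fsum_eq hD]

/-- **(LOC2).** -/
theorem loc2 (K : ℝ) (hK : 0 < K) : ∃ (C : ℝ) (r₀ : ℤ), 0 < r₀ ∧
    ∀ (n : ℕ) (q : ZMod n → ℤ × ℤ) (D : Finset (ℤ × ℤ)), IsPolygon q → Encloses q D →
    ∀ (r R N : ℤ) (f g : ℤ × ℤ → ℝ) (Z : Finset (ℤ × ℤ)), r₀ ≤ r → 2 * r ≤ R → K * R ≤ N →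
      Flt D (q 0) ⌊N / K⌋ → (∀ v ∈ D, (nm (v - q 0) : ℝ) ≤ K * N) →
      Bmp K (q 0) r f → MacZ K N D Z g →
      m6 (XD D (q 0) (g - f)) * m6 (XD D (q 0) (f - g)) ≤ C ∧
      m6 (XD D (q 0) (g - f)) * m6 (XL (q 0) r R f) * m6 (XD D (q 0) (-g)) ≤ C ∧
      m6 (XD D (q 0) (g - f)) * m6 (XL (q 0) r R f) * m6 (ZO D (q 0) R g) ≤ C := by
  classical
  obtain ⟨ε1, C1, ρ1, -, hC1, hρ1, h1⟩ := YN_mom (1 / (4 * K)) 2 K 12 0 (by positivity)
    (by norm_num) hK.le (by norm_num)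
  obtain ⟨ε2, C2, ρ2, -, hC2, hρ2, h2⟩ := YN_mom (1 / (8 * K)) (K + 1) K 12 0 (by positivity)
    (by linarith) hK.le (by norm_num)
  set C : ℝ := max (max C1 C2) 1 with hC
  have hC1' : C1 ≤ C := (le_max_left _ _).trans (le_max_left _ _)
  have hC2' : C2 ≤ C := (le_max_right _ _).trans (le_max_left _ _)
  have hCone : 1 ≤ C := le_max_right _ _
  refine ⟨16 ^ 6 * C ^ 4, max ⌈max (8 * K) (max ρ1 ρ2)⌉ 1, by positivity, ?_⟩
  intro n q D hq hD r R N f g Z hr hR hKR hF hDN hf hg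
  have hr' : max (8 * K) (max ρ1 ρ2) ≤ (r : ℝ) := Int.ceil_le.1 ((le_max_left _ _).trans hr)
  have hr0 : 0 < r := lt_of_lt_of_le one_pos ((le_max_right _ _).trans hr)
  have h : Sc K r := ⟨bmp_one_le hK hr0 hf, (le_max_left _ _).trans hr'⟩
  have hK1 := h.one_le
  have h8 : (8 : ℝ) ≤ r := by exact_mod_cast h.r8
  have hrK : 8 * K ≤ (r : ℝ) := h.le
  have hRr : (2 : ℝ) * r ≤ R := by exact_mod_cast hR
  have hNr : (2 : ℝ) * r ≤ (N : ℝ) / K := by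
    rw [le_div_iff₀ hK]
    nlinarith
  have hN16 : 16 * K ≤ (N : ℝ) := by
    rw [le_div_iff₀ hK] at hNr
    nlinarith
  have hNr' : (r : ℝ) ≤ N := by
    rw [le_div_iff₀ hK] at hNr
    nlinarith
  have hF2 : Flt D (q 0) (2 * r) := by
    refine Flt.mono hF ?_
    rw [Int.le_floor]
    push_cast
    exact hNr
  obtain ⟨N1, -, hM1, hY1⟩ := h1 r ((le_max_left _ _).trans ((le_max_right _ _).trans hr'))
    (q 0) (fun i => i.elim0)
  obtain ⟨N2, -, hM2, hY2⟩ := h2 N (((le_max_right _ _).trans ((le_max_right _ _).trans hr')).trans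
    hNr') (q 0) (fun i => i.elim0)
  -- supports
  have hcD : ∀ z ∈ sites (core K (q 0) r), z ∈ sites D := fun z hz => sites_mono
    (h.core_sub.trans ((hbox_mono (by have := h.r8; omega)).trans (hbox_sub hF2))) hz
  have hZD : Z ⊆ D := fun v hv => hg.nbhd v hv v (by
    rw [sub_self]
    have : ((nm (0 : ℤ × ℤ) : ℤ) : ℝ) = 0 := by simp [nm]
    rw [this]
    have : (0 : ℝ) ≤ N := by linarith
    positivity)
  have hfs : ∀ z, f z ≠ 0 → z ∈ sites (core K (q 0) r) := fun z hz => h.bmp_supp hf hz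
  have hfs' : ∀ z, (-f) z ≠ 0 → z ∈ sites (core K (q 0) r) := fun z hz => hfs z (by simpa using hz)
  have hfn : ∀ z, f z ≠ 0 → (nm (z - q 0) : ℝ) ≤ 2 * r := fun z hz => by
    have : (nm (z - q 0) : ℝ) ≤ r := by exact_mod_cast h.bmp_nm hf hz
    linarith
  have hgs : ∀ z, g z ≠ 0 → z ∈ sites Z := hg.supp
  have hgs' : ∀ z, (-g) z ≠ 0 → z ∈ sites Z := fun z hz => hgs z (by simpa using hz)
  have hgn : ∀ z, g z ≠ 0 → (nm (z - q 0) : ℝ) ≤ (K + 1) * N := fun z hz => by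
    obtain ⟨v, hv, hv1⟩ := near_site (hgs z hz)
    have k1 := hDN v (hZD hv)
    have k2 : (nm (z - q 0) : ℝ) ≤ nm (z - v) + nm (v - q 0) := by exact_mod_cast nm_tri _ _ _
    have k3 : (nm (z - v) : ℝ) ≤ 1 := by exact_mod_cast hv1
    linarith
  have hga : ∀ z, |g z| ≤ K / (N : ℝ) ^ 2 := fun z => by
    rw [abs_of_nonneg (hg.nonneg z)]; exact hg.le z
  have hneg : ∀ (F : ℤ × ℤ → ℝ) (a : ℝ), (∀ z, |F z| ≤ a) → ∀ z, |(-F) z| ≤ a := fun F a hF z => by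
    rw [Pi.neg_apply, abs_neg]; exact hF z
  have hsn : ∀ {F : ℤ × ℤ → ℝ}, ∑ᶠ z, F z = Real.pi / 3 → ∑ᶠ z, (-F) z = -(Real.pi / 3) := by
    intro F hF
    rw [← hF, ← finsum_neg_distrib]
    rfl
  have hgfin : (Function.support g).Finite := (sites Z).finite_toSet.subset fun z hz =>
    Finset.mem_coe.2 (hgs z hz)
  have htf : tot D f = Real.pi / 3 := tot_int hf.sum fun z hz => hcD z (hfs z hz)
  have htg : tot D g = Real.pi / 3 := tot_int hg.sum fun z hz => sites_mono hZD (hgs z hz)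
  -- the four majorants
  set E1 : ℝ := Real.exp (√3 * (Real.pi / 3) * Nb (dl K r)) with hE1
  set E2 : ℝ := Real.exp (√3 * (Real.pi / 3) * Nb (1 / (8 * K) * N)) with hE2
  have hE1p : 0 < E1 := Real.exp_pos _
  have hE2p : 0 < E2 := Real.exp_pos _
  obtain ⟨fd1, m1⟩ := hY1 f (bmp_abs hf) hfn
  obtain ⟨fd1', m1'⟩ := hY1 (-f) (hneg f _ (bmp_abs hf)) (fun z hz => hfn z (by simpa using hz))
  obtain ⟨fd2, m2⟩ := hY2 g hga hgn
  obtain ⟨fd2', m2'⟩ := hY2 (-g) (hneg g _ hga) (fun z hz => hgn z (by simpa using hz))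
  rw [hf.sum] at m1
  rw [hsn hf.sum] at m1'
  rw [hg.sum] at m2
  rw [hsn hg.sum] at m2'
  have k1 : ∀ k : ℕ, k ≤ 12 → ∫ ω, YN N1 f (dl K r) ω ^ k ∂μ ≤ C * (E1⁻¹) ^ k := fun k hk => by
    have := mom_nat m1 k hk
    rw [exp_pow_neg] at this
    exact this.trans (mul_le_mul_of_nonneg_right hC1' (by positivity))
  have k1' : ∀ k : ℕ, k ≤ 12 → ∫ ω, YN N1 (-f) (dl K r) ω ^ k ∂μ ≤ C * E1 ^ k := fun k hk => by
    have := mom_nat m1' k hk
    rw [exp_pow_pos] at this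
    exact this.trans (mul_le_mul_of_nonneg_right hC1' (by positivity))
  have k2 : ∀ k : ℕ, k ≤ 12 → ∫ ω, YN N2 g (1 / (8 * K) * N) ω ^ k ∂μ ≤ C * (E2⁻¹) ^ k :=
    fun k hk => by
      have := mom_nat m2 k hk
      rw [exp_pow_neg] at this
      exact this.trans (mul_le_mul_of_nonneg_right hC2' (by positivity))
  have k2' : ∀ k : ℕ, k ≤ 12 → ∫ ω, YN N2 (-g) (1 / (8 * K) * N) ω ^ k ∂μ ≤ C * E2 ^ k :=
    fun k hk => by
      have := mom_nat m2' k hk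
      rw [exp_pow_pos] at this
      exact this.trans (mul_le_mul_of_nonneg_right hC2' (by positivity))
  -- the numbers of big pieces
  have hb1 : ∀ ω, (bigs D (hbox (q 0) r) (dl K r) ω).card ≤ N1 ω := fun ω =>
    bigs_hbox h (hM1 ω) D
  have hb2 : ∀ ω, (bigs D D (1 / (8 * K) * N) ω).card ≤ N2 ω := fun ω =>
    bigs_card_le (c := q 0) (a := (K + 1) * N) (fun v hv => by
      have := hDN v hv
      linarith) (hM2 ω)
  -- two bumps
  have hXD : ∀ F1 F2 : ℤ × ℤ → ℝ, (∀ z, |F1 z| ≤ K / (r : ℝ) ^ 2) →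
      (∀ z, F1 z ≠ 0 → z ∈ sites (core K (q 0) r)) → (∀ z, |F2 z| ≤ K / (N : ℝ) ^ 2) →
      (∀ z, F2 z ≠ 0 → z ∈ sites Z) → (∃ c : ℤ, tot D F1 = c * (Real.pi / 3)) →
      (∃ c : ℤ, tot D F2 = c * (Real.pi / 3)) →
      (∀ ω, |XD D (q 0) (fun z => F1 z + F2 z) ω| ≤
        YN N1 F1 (dl K r) ω * YN N2 F2 (1 / (8 * K) * N) ω) ∧
      ∀ ω, |XD D (q 0) F2 ω| ≤ YN N2 F2 (1 / (8 * K) * N) ω := by
    intro F1 F2 a1 a2 a3 a4 a5 a6
    have hB := two_bumps hq hD h hF2 hN16 hNr hg.econ hg.nbhd a1 a2 a3 a4 a5 a6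
    constructor
    · intro ω
      have h3 := hB.XD_le (ω := ω) (N := fun j => if j then N1 else N2) (fun j _ => by
        rcases j with _ | _
        · exact hb2 ω
        · exact hb1 ω)
      rw [Fintype.prod_bool] at h3
      simp only [Fintype.sum_bool] at h3
      exact h3
    · intro ω
      have h3 := (hB.mono (J' := {false}) (subset_univ _)).XD_le (ω := ω)
        (N := fun j => if j then N1 else N2) (fun j hj => by
        rw [mem_singleton] at hj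
        subst hj
        exact hb2 ω)
      rw [prod_singleton] at h3
      simp only [sum_singleton] at h3
      exact h3
  have t1 : ∃ c : ℤ, tot D f = c * (Real.pi / 3) := ⟨1, by rw [htf]; push_cast; ring⟩
  have t1' : ∃ c : ℤ, tot D (-f) = c * (Real.pi / 3) :=
    ⟨-1, by rw [tot_neg, htf]; push_cast; ring⟩
  have t2 : ∃ c : ℤ, tot D g = c * (Real.pi / 3) := ⟨1, by rw [htg]; push_cast; ring⟩
  have t2' : ∃ c : ℤ, tot D (-g) = c * (Real.pi / 3) :=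
    ⟨-1, by rw [tot_neg, htg]; push_cast; ring⟩
  -- the moments
  have M1 : m6 (XD D (q 0) (g - f)) ≤ C ^ 2 * (E1 * E2⁻¹) ^ 6 := by
    have h3 := (hXD (-f) g (hneg f _ (bmp_abs hf)) hfs' hga hgs t1' t2).1
    have e : (fun z => (-f) z + g z) = g - f := by
      funext z
      simp only [Pi.neg_apply, Pi.sub_apply]
      ring
    rw [e] at h3
    exact (six (fd1'.mul fd2) (fd_XD _ _ _) h3).trans
      (six_two fd1' fd2 hCone hE1p.le (by positivity) (k1' 12 le_rfl) (k2 12 le_rfl))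
  have M2 : m6 (XD D (q 0) (f - g)) ≤ C ^ 2 * (E1⁻¹ * E2) ^ 6 := by
    have h3 := (hXD f (-g) (bmp_abs hf) hfs (hneg g _ hga) hgs' t1 t2').1
    have e : (fun z => f z + (-g) z) = f - g := by
      funext z
      simp only [Pi.neg_apply, Pi.sub_apply]
      ring
    rw [e] at h3
    exact (six (fd1.mul fd2') (fd_XD _ _ _) h3).trans
      (six_two fd1 fd2' hCone (by positivity) hE2p.le (k1 12 le_rfl) (k2' 12 le_rfl))
  have M3 : m6 (XD D (q 0) (-g)) ≤ C * E2 ^ 6 := by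
    have h3 := (hXD f (-g) (bmp_abs hf) hfs (hneg g _ hga) hgs' t1 t2').2
    exact (six fd2' (fd_XD _ _ _) h3).trans (k2' 6 (by norm_num))
  have M4 : m6 (XL (q 0) r R f) ≤ 16 ^ 6 * (C * (E1⁻¹) ^ 6) := by
    have hcR : ∀ z ∈ sites (core K (q 0) r), z ∈ sites (hbox (q 0) R) := fun z hz =>
      sites_mono (h.core_sub.trans (hbox_mono (by have := h.r8; omega))) hz
    have h3 : ∀ ω, |XL (q 0) r R f ω| ≤ 16 * YN N1 f (dl K r) ω := fun ω =>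
      h.XL_le hR (bmp_abs hf) hfs ⟨1, by
        rw [tot_int hf.sum fun z hz => hcR z (hfs z hz)]; push_cast; ring⟩ (hM1 ω)
    refine (six (fd1.comp (fun x => 16 * x)) (fd_XL _ _ _ _) h3).trans ?_
    simp only [mul_pow]
    rw [integral_const_mul]
    exact mul_le_mul_of_nonneg_left (k1 6 (by norm_num)) (by positivity)
  have M5 : m6 (ZO D (q 0) R g) ≤ C * E2 ^ 6 :=
    (m6_mono (fd_ZO _ _ _ _) (fd_XD _ _ _)
      fun ω => abs_ZO_le hg.nonneg hgfin hg.sum).trans M3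
  have n1 := m6_nonneg (XD D (q 0) (g - f))
  have n2 := m6_nonneg (XD D (q 0) (f - g))
  have n3 := m6_nonneg (XD D (q 0) (-g))
  have n4 := m6_nonneg (XL (q 0) r R f)
  have n5 := m6_nonneg (ZO D (q 0) R g)
  have hE1i : E1 * E1⁻¹ = 1 := mul_inv_cancel₀ hE1p.ne'
  have hE2i : E2⁻¹ * E2 = 1 := inv_mul_cancel₀ hE2p.ne'
  have hC4 : C ^ 4 ≤ 16 ^ 6 * C ^ 4 := le_mul_of_one_le_left (by positivity) (by norm_num)
  have fin : ∀ x : ℝ, 0 ≤ x → x ≤ C * E2 ^ 6 →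
      m6 (XD D (q 0) (g - f)) * m6 (XL (q 0) r R f) * x ≤ 16 ^ 6 * C ^ 4 := by
    intro x hx0 hx
    calc m6 (XD D (q 0) (g - f)) * m6 (XL (q 0) r R f) * x
        ≤ C ^ 2 * (E1 * E2⁻¹) ^ 6 * (16 ^ 6 * (C * (E1⁻¹) ^ 6)) * (C * E2 ^ 6) :=
          mul_le_mul (mul_le_mul M1 M4 n4 (by positivity)) hx hx0 (by positivity)
      _ = 16 ^ 6 * C ^ 4 * ((E1 * E1⁻¹) * (E2⁻¹ * E2)) ^ 6 := by ring
      _ = 16 ^ 6 * C ^ 4 := by rw [hE1i, hE2i]; ring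
  refine ⟨?_, fin _ n3 M3, fin _ n5 M5⟩
  calc m6 (XD D (q 0) (g - f)) * m6 (XD D (q 0) (f - g))
      ≤ C ^ 2 * (E1 * E2⁻¹) ^ 6 * (C ^ 2 * (E1⁻¹ * E2) ^ 6) :=
        mul_le_mul M1 M2 n2 (by positivity)
    _ = C ^ 4 * ((E1 * E1⁻¹) * (E2⁻¹ * E2)) ^ 6 := by ring
    _ = C ^ 4 := by rw [hE1i, hE2i]; ring
    _ ≤ _ := hC4

end Vale.Agent.P167.H562.MAJ
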