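import Vale.Agent.P167.H562.MAJ2
import Vale.Agent.P167.BR.Maj

/-!
# P167, SLE_6: majorants near a flat piece of the boundary

`core K b r` is a rectangle which contains the support of a bump `Bmp K b r f`. Small means: diameter
less than `dl K r = r / (4 K)`.
-/

namespace Vale.Agent.P167.H562.MAJ

open Finset MeasureTheory Vale.Agent.P167.BR Vale.Agent.P167.H562.SML Vale.Agent.P167.H45 Relation
open Vale.Agent.P167.H562 (Em Em_mono)
open Vale.Agent.P167.H167 (Fd tot wl_zero ws_zero)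

variable {ω : Cfg} {D : Finset (ℤ × ℤ)} {p b : ℤ × ℤ} {A : Finset Ed} {K : ℝ} {r : ℤ}
  {f : ℤ × ℤ → ℝ}

/-! ### rectangles -/

/-- The squares of the rectangle `[x0, x1] × [y0, y1]`. -/
noncomputable def rect (x0 x1 y0 y1 : ℤ) : Finset (ℤ × ℤ) := Icc x0 (x1 - 1) ×ˢ Icc y0 (y1 - 1)

theorem mem_rect {x0 x1 y0 y1 : ℤ} {v : ℤ × ℤ} : v ∈ rect x0 x1 y0 y1 ↔
    x0 ≤ v.1 ∧ v.1 < x1 ∧ y0 ≤ v.2 ∧ v.2 < y1 := by
  simp only [rect, mem_product, mem_Icc]
  omega

theorem mem_sites_rect {x0 x1 y0 y1 : ℤ} (hx : x0 < x1) (hy : y0 < y1) {z : ℤ × ℤ} :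
    z ∈ sites (rect x0 x1 y0 y1) ↔ x0 ≤ z.1 ∧ z.1 ≤ x1 ∧ y0 ≤ z.2 ∧ z.2 ≤ y1 := by
  rw [mem_sites]
  constructor
  · rintro ⟨v, hv, h1, h2⟩
    rw [mem_rect] at hv
    omega
  · intro h
    refine ⟨(min z.1 (x1 - 1), min z.2 (y1 - 1)), ?_, ?_, ?_⟩
    · rw [mem_rect]
      simp only
      omega
    · simp only
      omega
    · simp only
      omega

theorem rect_right {x0 x1 y0 y1 : ℤ} (hy : y0 < y1) {x y : ℤ} (h1 : x0 ≤ x)
    (h2 : x < x1) (h3 : y0 ≤ y) (h4 : y ≤ y1) : Ec (rect x0 x1 y0 y1) (x, y) (x + 1, y) := by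
  have := ec_of (Z := rect x0 x1 y0 y1) (s := (x, y)) (r := 0) ?_
  · simpa [E2.dir0] using this
  · rw [E2.f4_0m, E2.face0, E2.face3, mem_rect, mem_rect]
    simp only
    omega

theorem rect_up {x0 x1 y0 y1 : ℤ} (hx : x0 < x1) {x y : ℤ} (h1 : x0 ≤ x)
    (h2 : x ≤ x1) (h3 : y0 ≤ y) (h4 : y < y1) : Ec (rect x0 x1 y0 y1) (x, y) (x, y + 1) := by
  have := ec_of (Z := rect x0 x1 y0 y1) (s := (x, y)) (r := 1) ?_
  · simpa [E2.dir1] using this
  · rw [E2.f4_1m, E2.face0, E2.face1, mem_rect, mem_rect]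
    simp only
    omega

theorem econ_rect {x0 x1 y0 y1 : ℤ} (hx : x0 < x1) (hy : y0 < y1) : ECon (rect x0 x1 y0 y1) := by
  have h1 : ∀ (m : ℕ) (x y : ℤ), x = x0 + m → x ≤ x1 → y0 ≤ y → y ≤ y1 →
      ReflTransGen (Ec (rect x0 x1 y0 y1)) (x0, y) (x, y) := by
    intro m
    induction m with
    | zero =>
      intro x y hx _ _ _
      have : x = x0 := by simpa using hx
      rw [this]
    | succ m ih =>
      intro x y hx h1 h2 h3
      have h4 := ih (x - 1) y (by push_cast at hx; omega) (by omega) h2 h3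
      have h5 := rect_right (x0 := x0) (x1 := x1) hy (x := x - 1) (y := y)
        (by push_cast at hx; omega) (by omega) h2 h3
      rw [sub_add_cancel] at h5
      exact h4.tail h5
  have h2 : ∀ (m : ℕ) (y : ℤ), y = y0 + m → y ≤ y1 →
      ReflTransGen (Ec (rect x0 x1 y0 y1)) (x0, y0) (x0, y) := by
    intro m
    induction m with
    | zero =>
      intro y hy _
      have : y = y0 := by simpa using hy
      rw [this]
    | succ m ih =>
      intro y hy' h1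
      have h4 := ih (y - 1) (by push_cast at hy'; omega) (by omega)
      have h5 := rect_up (y0 := y0) (y1 := y1) hx (x := x0) (y := y - 1) le_rfl (by omega)
        (by push_cast at hy'; omega) (by omega)
      rw [sub_add_cancel] at h5
      exact h4.tail h5
  have key : ∀ z ∈ sites (rect x0 x1 y0 y1),
      ReflTransGen (Ec (rect x0 x1 y0 y1)) (x0, y0) z := by
    intro z hz
    rw [mem_sites_rect hx hy] at hz
    have h3 := h2 (z.2 - y0).toNat z.2 (by omega) (by omega)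
    have h4 := h1 (z.1 - x0).toNat z.1 z.2 (by omega) (by omega) (by omega) (by omega)
    exact h3.trans h4
  intro s hs t ht
  exact (ec_reach_symm (key s hs)).trans (key t ht)

/-! ### the core -/

/-- The zone of a bump. -/
noncomputable def core (K : ℝ) (b : ℤ × ℤ) (r : ℤ) : Finset (ℤ × ℤ) :=
  rect (b.1 - r) (b.1 + r) (b.2 + ⌈(r : ℝ) / K⌉ - 1) (b.2 + r)

/-- Small means: diameter less than `dl K r`. -/
noncomputable def dl (K : ℝ) (r : ℤ) : ℝ := 1 / (4 * K) * r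

/-- Admissible scales. -/
structure Sc (K : ℝ) (r : ℤ) : Prop where
  one_le : 1 ≤ K
  le : 8 * K ≤ (r : ℝ)

theorem Sc.r8 (h : Sc K r) : 8 ≤ r := by
  have h1 := h.one_le
  have h2 := h.le
  have : (8 : ℝ) ≤ r := by linarith
  exact_mod_cast this

theorem Sc.dl2 (h : Sc K r) : 2 ≤ dl K r := by
  have h1 := h.one_le
  have h2 := h.le
  unfold dl
  rw [one_div, ← div_eq_inv_mul, le_div_iff₀ (by linarith)]
  linarith

theorem Sc.dl_le (h : Sc K r) : dl K r + 2 ≤ (r : ℝ) / 2 := by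
  have h1 := h.one_le
  have h2 := h.le
  have h3 : (8 : ℝ) ≤ r := by linarith
  have h4 : dl K r ≤ r / 4 := by
    unfold dl
    rw [one_div, ← div_eq_inv_mul]
    exact div_le_div_of_nonneg_left (by linarith) (by norm_num) (by linarith)
  linarith

theorem Sc.ceil (h : Sc K r) : 4 * dl K r ≤ (⌈(r : ℝ) / K⌉ : ℝ) ∧ ⌈(r : ℝ) / K⌉ ≤ r ∧
    8 ≤ ⌈(r : ℝ) / K⌉ := by
  have h1 := h.one_le
  have h2 := h.le
  have h3 : (8 : ℝ) ≤ r := by linarith
  have h0 : 4 * dl K r = r / K := by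
    unfold dl
    field_simp
  refine ⟨by rw [h0]; exact Int.le_ceil _, ?_, ?_⟩
  · rw [Int.ceil_le]
    exact div_le_self (by linarith) h1
  · have h4 : (8 : ℝ) ≤ r / K := by rw [le_div_iff₀ (by linarith)]; linarith
    have : (8 : ℝ) ≤ (⌈(r : ℝ) / K⌉ : ℝ) := h4.trans (Int.le_ceil _)
    exact_mod_cast this

theorem mem_core {v : ℤ × ℤ} : v ∈ core K b r ↔ b.1 - r ≤ v.1 ∧ v.1 < b.1 + r ∧
    b.2 + ⌈(r : ℝ) / K⌉ - 1 ≤ v.2 ∧ v.2 < b.2 + r := mem_rect

theorem Sc.econ (h : Sc K r) (b : ℤ × ℤ) : ECon (core K b r) := by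
  have h1 := h.r8
  obtain ⟨-, h2, h3⟩ := h.ceil
  exact econ_rect (by omega) (by omega)

theorem Sc.mem_sites (h : Sc K r) {z : ℤ × ℤ} : z ∈ sites (core K b r) ↔
    b.1 - r ≤ z.1 ∧ z.1 ≤ b.1 + r ∧ b.2 + ⌈(r : ℝ) / K⌉ - 1 ≤ z.2 ∧ z.2 ≤ b.2 + r := by
  have h1 := h.r8
  obtain ⟨-, h2, h3⟩ := h.ceil
  exact mem_sites_rect (by omega) (by omega)

theorem Sc.supp (h : Sc K r) {z : ℤ × ℤ} (h1 : b.1 - r ≤ z.1) (h2 : z.1 ≤ b.1 + r)
    (h3 : b.2 + r / K ≤ (z.2 : ℝ)) (h4 : z.2 ≤ b.2 + r) : z ∈ sites (core K b r) := by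
  rw [h.mem_sites]
  refine ⟨h1, h2, ?_, h4⟩
  have : ⌈(r : ℝ) / K⌉ ≤ z.2 - b.2 := by
    rw [Int.ceil_le]
    push_cast
    linarith
  omega

theorem Sc.core_sub (h : Sc K r) : core K b r ⊆ hbox b r := by
  intro v hv
  rw [mem_core] at hv
  obtain ⟨-, h2, h3⟩ := h.ceil
  rw [mem_hbox]
  omega

/-- Everything near the core is in the half box of radius `2 r`. -/
theorem Sc.near (h : Sc K r) {v w : ℤ × ℤ} (hv : v ∈ core K b r)
    (hw : (nm (w - v) : ℝ) ≤ dl K r + 2) : w ∈ hbox b (2 * r) := by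
  rw [mem_core] at hv
  obtain ⟨h1, h2, h3⟩ := h.ceil
  have h4 := h.dl_le
  have h5 := h.dl2
  have h8 := h.r8
  have hr : (0 : ℝ) ≤ r := by
    have : (8 : ℝ) ≤ r := by exact_mod_cast h8
    linarith
  have h6 : nm (w - v) ≤ r := by
    have : (nm (w - v) : ℝ) ≤ r := by linarith
    exact_mod_cast this
  have h7 : |w.2 - v.2| ≤ nm (w - v) := le_max_right _ _
  have h9 : b.2 ≤ w.2 := by
    have h10 : (|w.2 - v.2| : ℝ) ≤ dl K r + 2 := by
      refine le_trans ?_ hw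
      exact_mod_cast h7
    have h11 := (abs_le.1 h10).1
    have h12 : (b.2 : ℝ) + ⌈(r : ℝ) / K⌉ - 1 ≤ v.2 := by exact_mod_cast hv.2.2.1
    have : (b.2 : ℝ) ≤ w.2 := by linarith
    exact_mod_cast this
  rw [mem_hbox]
  simp only [nm, Prod.fst_sub, Prod.snd_sub, max_le_iff, abs_le] at h6
  omega

/-! ### bumps -/

theorem bmp_one_le (hK : 0 < K) (hr : 0 < r) (hf : Bmp K b r f) : 1 ≤ K := by
  have h1 : ∃ z, f z ≠ 0 := by
    by_contra hcon
    push Not at hcon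
    have h := hf.sum
    rw [finsum_congr hcon, finsum_zero] at h
    have := Real.pi_pos
    linarith
  obtain ⟨z, hz⟩ := h1
  obtain ⟨-, -, h2, h3⟩ := hf.supp z hz
  have h4 : (z.2 : ℝ) ≤ b.2 + r := by exact_mod_cast h3
  have hr' : (0 : ℝ) < r := by exact_mod_cast hr
  have h5 : (r : ℝ) / K ≤ r := by linarith
  rw [div_le_iff₀ hK] at h5
  nlinarith

theorem Sc.bmp_supp (h : Sc K r) (hf : Bmp K b r f) {z : ℤ × ℤ} (hz : f z ≠ 0) :
    z ∈ sites (core K b r) := by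
  obtain ⟨h1, h2, h3, h4⟩ := hf.supp z hz
  exact h.supp h1 h2 h3 h4

theorem Sc.bmp_nm (_h : Sc K r) (hf : Bmp K b r f) {z : ℤ × ℤ} (hz : f z ≠ 0) :
    nm (z - b) ≤ r := by
  have := _h.mem_sites.1 (_h.bmp_supp hf hz)
  obtain ⟨-, h2, h3⟩ := _h.ceil
  simp only [nm, Prod.fst_sub, Prod.snd_sub, max_le_iff, abs_le]
  omega

theorem bmp_abs (hf : Bmp K b r f) (z : ℤ × ℤ) : |f z| ≤ K / (r : ℝ) ^ 2 := by
  rw [abs_of_nonneg (hf.nonneg z)]
  exact hf.le z

/-- The mass of a small loop is small. -/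
theorem Sc.small (h : Sc K r) {g : ℤ × ℤ → ℝ} (hg : ∀ z, |g z| ≤ K / (r : ℝ) ^ 2) {ℓ : Finset Ed}
    (hℓ : IsLoop ω ℓ) (hs : Small (dl K r) ℓ) : |G g ℓ| ≤ 1 / 16 := by
  have h1 := h.one_le
  have h8 : (8 : ℝ) ≤ r := by exact_mod_cast h.r8
  have h2 := bd_G (κ := 1 / (4 * K)) (ρ := r) (Cm := K) (by linarith) (by linarith) hg ω ℓ
    (dl K r) hℓ le_rfl hs
  refine h2.trans ?_
  unfold dl
  rw [mul_div_assoc, div_self (by linarith), mul_one, div_pow, one_pow, mul_one_div,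
    div_le_iff₀ (by positivity)]
  nlinarith

/-! ### the domain near a flat piece -/

/-- The winding number of a loop of the domain vanishes at `b`, if the squares are above. -/
theorem W_below {A : Finset Ed} (hA : IsLoop ω A) {y : ℤ} (h : ∀ e ∈ A, y ≤ (hdv e).2)
    {z : ℤ × ℤ} (hz : z.2 ≤ y) : W A z = 0 := by
  classical
  by_contra hW
  have hne := vs_nonempty hA
  set X : Finset ℤ := (vs A).image Prod.fst with hX
  set Y : Finset ℤ := (vs A).image Prod.snd with hY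
  have hXn : X.Nonempty := hne.image _
  have hYn : Y.Nonempty := hne.image _
  have hbox : ∀ v ∈ vs A, X.min' hXn ≤ v.1 ∧ v.1 ≤ X.max' hXn ∧ y ≤ v.2 ∧
      v.2 ≤ Y.max' hYn := by
    intro v hv
    refine ⟨X.min'_le _ (mem_image_of_mem _ hv), X.le_max' _ (mem_image_of_mem _ hv), ?_,
      Y.le_max' _ (mem_image_of_mem _ hv)⟩
    obtain ⟨e, he, rfl⟩ := mem_image.1 hv
    exact h e he
  have := s_out ω A hA _ _ _ _ hbox z hW
  omega

theorem W_above {A : Finset Ed} (hA : IsLoop ω A) {y : ℤ} (h : ∀ e ∈ A, (hdv e).2 < y)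
    {z : ℤ × ℤ} (hz : y ≤ z.2) : W A z = 0 := by
  classical
  by_contra hW
  have hne := vs_nonempty hA
  set X : Finset ℤ := (vs A).image Prod.fst with hX
  set Y : Finset ℤ := (vs A).image Prod.snd with hY
  have hXn : X.Nonempty := hne.image _
  have hYn : Y.Nonempty := hne.image _
  have hbox : ∀ v ∈ vs A, X.min' hXn ≤ v.1 ∧ v.1 ≤ X.max' hXn ∧ Y.min' hYn ≤ v.2 ∧
      v.2 ≤ y - 1 := by
    intro v hv
    refine ⟨X.min'_le _ (mem_image_of_mem _ hv), X.le_max' _ (mem_image_of_mem _ hv),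
      Y.min'_le _ (mem_image_of_mem _ hv), ?_⟩
    obtain ⟨e, he, rfl⟩ := mem_image.1 hv
    have := h e he
    omega
  have := s_out ω A hA _ _ _ _ hbox z hW
  omega

/-- The winding number is constant along sites joined by edges which are not in the loop. -/
theorem W_zone {Z : Finset (ℤ × ℤ)} (hA : IsLoop ω A) (hV : ¬ Vz Z A) {s t : ℤ × ℤ}
    (h : ReflTransGen (Ec Z) s t) : W A s = W A t :=
  pot_zone (potD_W (D := Z) hA) (subset_refl Z) hV h

theorem ec_mono {Z Z' : Finset (ℤ × ℤ)} (h : Z ⊆ Z') {s t : ℤ × ℤ}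
    (hst : ReflTransGen (Ec Z) s t) : ReflTransGen (Ec Z') s t := by
  induction hst with
  | refl => exact ReflTransGen.refl
  | tail _ h1 ih =>
    obtain ⟨e, he, h'⟩ := h1
    exact ih.tail ⟨e, eds_mono h he, h'⟩

theorem outC_ec {R : ℤ} (h : OutC D b R p) : ReflTransGen (Ec D) (top b R) p := by
  unfold OutC at h
  induction h with
  | refl => exact ReflTransGen.refl
  | tail _ h1 ih =>
    obtain ⟨e, he, _, h'⟩ := h1
    exact ih.tail ⟨e, he, h'⟩

/-- The class of pieces near `b`. -/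
def Qb (b : ℤ × ℤ) (r : ℤ) (A : Finset Ed) : Prop := Vz (hbox b r) A ∧ InnP b (2 * r) A

theorem inn_head (hF : Flt D b (2 * r)) (hQ : InnP b (2 * r) A) (hl : IsLp D A) {e : Ed}
    (he : e ∈ A) : hdv e ∈ hbox b (2 * r) :=
  (hQ e he).2.mem_hd hF (hQ e he).1 (hl e he)

/-- A small loop which surrounds charge of the bump is a piece near `b`. -/
theorem Sc.loop_near (h : Sc K r) (hF : Flt D b (2 * r)) (hA : IsLoop ω A)
    (hs : Small (dl K r) A) (hG : ∃ z ∈ sites (core K b r), W A z ≠ 0) :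
    A ∈ pcs ω D ∧ IsLp D A ∧ Qb b r A := by
  classical
  obtain ⟨z, hz, hW⟩ := hG
  obtain ⟨v, hv, h1⟩ := near_site hz
  have hin : ∀ w ∈ vs A, w ∈ hbox b (2 * r) := by
    intro w hw
    refine h.near hv ?_
    have h2 := near_of_ins hA hs hW hw
    have h4 : (nm (w - v) : ℝ) ≤ nm (w - z) + nm (z - v) := by exact_mod_cast nm_tri w z v
    have h5 : (nm (z - v) : ℝ) ≤ 1 := by exact_mod_cast h1
    linarith
  have hhd : ∀ e ∈ A, hdv e ∈ hbox b (2 * r) := fun e he => hin _ (mem_image_of_mem _ he)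
  have htl : ∀ e ∈ A, tlv e ∈ hbox b (2 * r) := by
    intro e he
    have : tlv e ∈ A.image tlv := mem_image_of_mem _ he
    rw [H135.vs_tl hA] at this
    exact hin _ this
  have hD : ∀ e ∈ A, hdv e ∈ D := fun e he => hbox_sub hF (hhd e he)
  refine ⟨loop_mem_pcs hA hD, hD, ?_, fun e he => ⟨mem_eds.2 (Or.inl (hhd e he)),
    Or.inl (hhd e he), Or.inl (htl e he)⟩⟩
  -- it visits the small half box
  by_contra hV
  have hr1 : 1 ≤ r := by have := h.r8; omega
  have hz' : z ∈ sites (hbox b r) := sites_mono h.core_sub hz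
  have hb' : b ∈ sites (hbox b r) := by
    rw [mem_sites_hbox hr1]
    omega
  have h3 := W_zone hA hV (econ_hbox hr1 z hz' b hb')
  rw [h3] at hW
  refine hW (W_below hA (y := b.2) (fun e he => ?_) le_rfl)
  exact (mem_hbox.1 (hhd e he)).2.2.1

/-- A small piece which visits the half box is a piece near `b`. -/
theorem Sc.inner (h : Sc K r) (hF : Flt D b (2 * r)) (hA : A ∈ pcs ω D)
    (hs : Small (dl K r) A) (hV : Vz (hbox b r) A) : InnP b (2 * r) A := by
  obtain ⟨e0, he0, heZ⟩ := hV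
  have h4 := h.dl_le
  have h8 : (8 : ℝ) ≤ r := by exact_mod_cast h.r8
  obtain ⟨v, hv, hv1⟩ : ∃ v ∈ hbox b r, nm (hdv e0 - v) ≤ 1 := by
    rcases mem_eds.1 heZ with h5 | h5
    · exact ⟨_, h5, by simp [nm]⟩
    · exact ⟨_, h5, H945.nm_step e0⟩
  rw [mem_hbox] at hv
  have key : ∀ e ∈ A, nm (hdv e - v) ≤ r - 1 ∧ nm (tlv e - v) ≤ r := by
    intro e he
    have h1 := hs _ (mem_image_of_mem hdv he) _ (mem_image_of_mem hdv he0)
    have h2 : (nm (hdv e - v) : ℝ) ≤ nm (hdv e - hdv e0) + nm (hdv e0 - v) := by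
      exact_mod_cast nm_tri _ _ _
    have h3 : (nm (hdv e0 - v) : ℝ) ≤ 1 := by exact_mod_cast hv1
    have h5 : (nm (hdv e - v) : ℝ) ≤ ((r - 1 : ℤ) : ℝ) := by push_cast; linarith
    have h6 : nm (hdv e - v) ≤ r - 1 := by exact_mod_cast h5
    refine ⟨h6, ?_⟩
    have h7 := nm_tri (tlv e) (hdv e) v
    have h9 := H945.nm_step e
    rw [nm_comm'] at h9
    omega
  have hbx : ∀ w : ℤ × ℤ, nm (w - v) ≤ r → (w ∈ D ↔ b.2 ≤ w.2) ∧
      (b.2 ≤ w.2 → w ∈ hbox b (2 * r)) := by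
    intro w hw
    simp only [nm, Prod.fst_sub, Prod.snd_sub, max_le_iff, abs_le] at hw
    refine ⟨hF w (by omega) (by omega) (by omega) (by omega), fun h' => ?_⟩
    rw [mem_hbox]
    omega
  intro e he
  obtain ⟨h1, h2⟩ := key e he
  obtain ⟨h3, h5⟩ := hbx _ (h1.trans (by omega))
  obtain ⟨h6, h7⟩ := hbx _ h2
  refine ⟨?_, ?_, ?_⟩
  · rcases mem_eds.1 (subset_eds hA he) with h9 | h9
    · exact mem_eds.2 (Or.inl (h5 (h3.1 h9)))
    · exact mem_eds.2 (Or.inr (h7 (h6.1 h9)))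
  · rcases lt_or_ge (hdv e).2 b.2 with h9 | h9
    · exact Or.inr h9
    · exact Or.inl (h5 h9)
  · rcases lt_or_ge (tlv e).2 b.2 with h9 | h9
    · exact Or.inr h9
    · exact Or.inl (h7 h9)

/-- The bump `g = f` or `g = - f` in a domain which is flat near `b`. -/
theorem Sc.bumps (h : Sc K r) (hF : Flt D b (2 * r)) (hO : OutC D b (2 * r) p) {g : ℤ × ℤ → ℝ}
    (hg : ∀ z, |g z| ≤ K / (r : ℝ) ^ 2) (hs : ∀ z, g z ≠ 0 → z ∈ sites (core K b r))
    (ht : |ws (tot D g)| ≤ 1) :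
    Bumps ({()} : Finset Unit) D p (fun _ => core K b r) (fun _ => hbox b r) (fun _ => g)
      (fun _ => dl K r) (Qb b r) where
  sub _ _ := h.core_sub.trans ((hbox_mono (by have := h.r8; omega)).trans (hbox_sub hF))
  zb _ _ := h.core_sub
  econ _ _ := h.econ b
  supp _ _ := hs
  nbhd _ _ v hv w hw := hbox_sub hF (h.near hv (by linarith))
  small _ _ ω ℓ hℓ hsm := (h.small hg hℓ hsm).trans (by norm_num)
  sep i _ j _ hij := absurd rfl hij
  base ω A hA hQ hl := by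
    have hL := BR.IsLp.isLoop hA hl
    have h1 := pot_ecx (potD_W (D := D) hL) hQ.2 hO
    rw [← h1]
    exact W_above hL (y := b.2 + 2 * r)
      (fun e he => (mem_hbox.1 (inn_head hF hQ.2 hl he)).2.2.2) le_rfl
  conn _ _ z hz := by
    have hr1 : 1 ≤ 2 * r := by have := h.r8; omega
    have h1 : z ∈ sites (hbox b (2 * r)) :=
      sites_mono (h.core_sub.trans (hbox_mono (by have := h.r8; omega))) hz
    have h2 : top b (2 * r) ∈ sites (hbox b (2 * r)) := by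
      rw [mem_sites_hbox hr1]
      simp only [top]
      omega
    exact (ec_mono (hbox_sub hF) (econ_hbox hr1 z h1 _ h2)).trans (outC_ec hO)
  loop _ _ ω A _ hQ _ _ := hQ.1
  tots s hs' := by
    rcases subset_singleton_iff.1 hs' with h1 | h1
    · rw [h1, sum_empty, ws_zero]; simp
    · rw [h1, sum_singleton]; exact ht

open Classical in
/-- The product over the pieces near `b`. -/
theorem Sc.dom (h : Sc K r) (hF : Flt D b (2 * r)) (hO : OutC D b (2 * r) p) {g : ℤ × ℤ → ℝ}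
    (hg : ∀ z, |g z| ≤ K / (r : ℝ) ^ 2) (hs : ∀ z, g z ≠ 0 → z ∈ sites (core K b r))
    (ht : |ws (tot D g)| ≤ 1) {N : ℕ} (hN : H945.Maj b (2 * r) (dl K r) ω N) :
    2 ^ ((pcs ω D).filter fun A => Vz (hbox b r) A ∧ ¬ InnP b (2 * r) A).card *
      ∏ A ∈ (pcs ω D).filter (fun A => Vz (hbox b r) A ∧ InnP b (2 * r) A),
        |wp D A (mass D p g A)| ≤ 8 ^ N * Real.exp (-(√3 * Sm g (dl K r) ω)) := by
  have hB := h.bumps hF hO hg hs ht
  have h8 : (8 : ℝ) ≤ r := by exact_mod_cast h.r8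
  have hcard : (bigs D (hbox b r) (dl K r) ω).card ≤ N := by
    refine bigs_card_le (c := b) (a := 2 * r) ?_ hN
    intro v hv
    rw [mem_hbox] at hv
    have : nm (v - b) ≤ r := by
      simp only [nm, Prod.fst_sub, Prod.snd_sub, max_le_iff, abs_le]
      omega
    have h1 : (nm (v - b) : ℝ) ≤ r := by exact_mod_cast this
    linarith
  have h1 : ((pcs ω D).filter fun A => Vz (hbox b r) A ∧ ¬ InnP b (2 * r) A).card ≤
      (bigs D (hbox b r) (dl K r) ω).card := by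
    refine card_le_card fun A hA => ?_
    rw [mem_filter] at hA
    refine mem_filter.2 ⟨hA.1, hA.2.1, fun hsm => hA.2.2 ?_⟩
    exact h.inner hF hA.1 hsm hA.2.1
  have h2 := hB.maj_det (ω := ω)
    (T := (pcs ω D).filter (fun A => Vz (hbox b r) A ∧ InnP b (2 * r) A)) (filter_subset _ _)
    (fun A hA => (mem_filter.1 hA).2) (fun A hA hl j _ hsm hG => by
      obtain ⟨z, hz, hgz⟩ := exists_ins_of_G hG
      have := h.loop_near hF (BR.IsLp.isLoop hA hl) hsm ⟨z, hs z hgz, hz⟩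
      exact mem_filter.2 ⟨this.1, this.2.2⟩)
  simp only [sum_singleton, prod_singleton] at h2
  have h3 : ∑ ℓ ∈ smf (nb1 (fun _ : Unit => core K b r) (fun _ => dl K r) ()) (dl K r) ω,
      G g ℓ = Sm g (dl K r) ω := by
    refine sum_G (F := sites (core K b r)) hs ?_ ω
    intro s hs' v hv
    obtain ⟨w, hw, h4⟩ := near_site (hs s hs')
    refine mem_fat hw ?_
    have h5 : (nm (v - w) : ℝ) ≤ nm (v - s) + nm (s - w) := by exact_mod_cast nm_tri v s w
    have h6 : (nm (s - w) : ℝ) ≤ 1 := by exact_mod_cast h4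
    linarith
  rw [h3] at h2
  have h4 : (2 : ℝ) ^ ((pcs ω D).filter fun A => Vz (hbox b r) A ∧ ¬ InnP b (2 * r) A).card ≤
      2 ^ N := pow_le_pow_right₀ (by norm_num) (h1.trans hcard)
  have h5 : (2 : ℝ) ^ (bigs D (hbox b r) (dl K r) ω).card ≤ 2 ^ N :=
    pow_le_pow_right₀ (by norm_num) hcard
  have h6 := Real.exp_pos (-(√3 * Sm g (dl K r) ω))
  have h7 : (0 : ℝ) ≤ ∏ A ∈ (pcs ω D).filter (fun A => Vz (hbox b r) A ∧ InnP b (2 * r) A),
      |wp D A (mass D p g A)| := prod_nonneg fun _ _ => abs_nonneg _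
  calc _ ≤ (2 : ℝ) ^ N * (2 ^ N * Real.exp (-(√3 * Sm g (dl K r) ω))) :=
        mul_le_mul h4 (h2.trans (mul_le_mul_of_nonneg_right h5 h6.le)) h7 (by positivity)
    _ = 4 ^ N * Real.exp (-(√3 * Sm g (dl K r) ω)) := by
        rw [← mul_assoc, ← mul_pow]; norm_num
    _ ≤ _ := mul_le_mul_of_nonneg_right
        (pow_le_pow_left₀ (by norm_num) (by norm_num) _) h6.le

end Vale.Agent.P167.H562.MAJ
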