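import Mathlib.Probability.Moments.Basic
import Mathlib.Probability.Independence.Integration
import Mathlib.MeasureTheory.Integral.MeanInequalities
import Mathlib.Tactic

/-!
# P167: exponential moments of multi-scale sums of local variables

`single`: one centred variable dominated by `a * K`, `K` with an exponential moment.
`indep`: a sum of independent ones. `multiscale`: sums over scales and colour classes.
-/

open MeasureTheory ProbabilityTheory Real Finset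
open scoped ENNReal

namespace Vale.Agent.P167.H562

variable {Ω : Type*} [MeasurableSpace Ω] {μ : Measure Ω}

/-- `y ^ 2 ≤ 2 e ^ y` for `y ≥ 0`. -/
lemma sq_le_two_exp {y : ℝ} (hy : 0 ≤ y) : y ^ 2 ≤ 2 * exp y := by
  have := Real.quadratic_le_exp_of_nonneg hy
  nlinarith

/-- `e ^ y ≤ 1 + y + y ^ 2 e ^ |y|`. -/
lemma exp_le_quad (y : ℝ) : exp y ≤ 1 + y + y ^ 2 * exp |y| := by
  rcases le_total 0 y with hy | hy
  · rw [abs_of_nonneg hy]
    have h1 : (1 + y) * (1 - y) ≤ (1 + y) * exp (-y) := by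
      have := Real.add_one_le_exp (-y)
      apply mul_le_mul_of_nonneg_left _ (by linarith)
      linarith
    have h2 : exp y * exp (-y) = 1 := by rw [← Real.exp_add]; simp
    have h3 : 0 < exp y := Real.exp_pos y
    have h4 : exp y * ((1 + y) * (1 - y)) ≤ 1 + y := by
      calc exp y * ((1 + y) * (1 - y)) ≤ exp y * ((1 + y) * exp (-y)) :=
            mul_le_mul_of_nonneg_left h1 h3.le
        _ = (1 + y) * (exp y * exp (-y)) := by ring
        _ = 1 + y := by rw [h2]; ring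
    nlinarith
  · have h1 : (1 : ℝ) ≤ exp |y| := Real.one_le_exp (abs_nonneg y)
    have h2 : exp y ≤ 1 + y + y ^ 2 := by
      have h3 := Real.add_one_le_exp (-y)
      have h4 : exp y * exp (-y) = 1 := by rw [← Real.exp_add]; simp
      have h5 : 0 < exp y := Real.exp_pos y
      have h6 : exp y * (1 - y) ≤ 1 := by
        calc exp y * (1 - y) ≤ exp y * exp (-y) :=
              mul_le_mul_of_nonneg_left (by linarith) h5.le
          _ = 1 := h4
      have h7 : 1 ≤ (1 + y + y ^ 2) * (1 - y) := by nlinarith [sq_nonneg y, pow_nonneg (neg_nonneg.2 hy) 3, pow_succ y 2]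
      have h8 : 0 < 1 - y := by linarith
      nlinarith
    nlinarith [sq_nonneg y]

/-- Exponential moment as a lower integral. -/
noncomputable def Em (μ : Measure Ω) (f : Ω → ℝ) : ℝ≥0∞ := ∫⁻ ω, ENNReal.ofReal (exp (f ω)) ∂μ

lemma Em_mono {f g : Ω → ℝ} (h : ∀ ω, f ω ≤ g ω) : Em μ f ≤ Em μ g :=
  lintegral_mono fun ω => ENNReal.ofReal_le_ofReal (Real.exp_le_exp.2 (h ω))

lemma integrable_exp_of_Em {f : Ω → ℝ} (hf : Measurable f) {M : ℝ}
    (h : Em μ f ≤ ENNReal.ofReal M) : Integrable (fun ω => exp (f ω)) μ := by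
  refine ⟨(by fun_prop), ?_⟩
  rw [hasFiniteIntegral_iff_ofReal (Filter.Eventually.of_forall fun ω => (Real.exp_pos _).le)]
  exact lt_of_le_of_lt h ENNReal.ofReal_lt_top

lemma Em_eq {f : Ω → ℝ} (h : Integrable (fun ω => exp (f ω)) μ) :
    Em μ f = ENNReal.ofReal (∫ ω, exp (f ω) ∂μ) := by
  rw [Em, ofReal_integral_eq_lintegral_ofReal h
    (Filter.Eventually.of_forall fun ω => (Real.exp_pos _).le)]

/-- One centred variable. -/
theorem single [IsProbabilityMeasure μ] {X K : Ω → ℝ} (hX : Measurable X) (hK : Measurable K)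
    {a s t M : ℝ} (hs : 0 ≤ s) (hK0 : ∀ ω, 0 ≤ K ω)
    (hXK : ∀ ω, |X ω| ≤ a * K ω) (hts : |t| * a ≤ s)
    (hM : Em μ (fun ω => (s + 1) * K ω) ≤ ENNReal.ofReal M) :
    Em μ (fun ω => t * (X ω - ∫ x, X x ∂μ)) ≤
      ENNReal.ofReal (exp (2 * M * exp ((s + 1) * M) * (t ^ 2 * a ^ 2))) := by
  have hKe : Integrable (fun ω => exp ((s + 1) * K ω)) μ :=
    integrable_exp_of_Em (by fun_prop) hM
  have hMi : ∫ ω, exp ((s + 1) * K ω) ∂μ ≤ M := by
    rw [Em_eq hKe] at hM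
    have hpos : 0 < ∫ ω, exp ((s + 1) * K ω) ∂μ := integral_exp_pos hKe
    by_contra hcon
    push Not at hcon
    have := ENNReal.ofReal_lt_ofReal_iff hpos |>.2 hcon
    exact absurd hM (not_le.2 this)
  have hM0 : 0 ≤ M := le_trans (integral_nonneg fun ω => (Real.exp_pos _).le) hMi
  have hKle : ∀ ω, K ω ≤ exp ((s + 1) * K ω) := fun ω => by
    have h1 := Real.add_one_le_exp (K ω)
    have h2 : K ω ≤ (s + 1) * K ω := by nlinarith [hK0 ω]
    have h3 := Real.exp_le_exp.2 h2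
    linarith
  have hKint : Integrable K μ :=
    hKe.mono' hK.aestronglyMeasurable (Filter.Eventually.of_forall fun ω => by
      rw [Real.norm_eq_abs, abs_of_nonneg (hK0 ω)]; exact hKle ω)
  have hXint : Integrable X μ :=
    (hKint.const_mul a).mono' hX.aestronglyMeasurable (Filter.Eventually.of_forall fun ω => by
      rw [Real.norm_eq_abs]; exact hXK ω)
  set m : ℝ := ∫ x, X x ∂μ with hm
  set k : ℝ := ∫ x, K x ∂μ with hk
  have hk0 : 0 ≤ k := integral_nonneg hK0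
  have hkM : k ≤ M := le_trans (integral_mono hKint hKe hKle) hMi
  have hmk : |m| ≤ a * k := by
    rw [hm, hk, ← integral_const_mul]
    refine le_trans (abs_integral_le_integral_abs) ?_
    exact integral_mono hXint.abs (hKint.const_mul a) hXK
  have hdev : ∀ ω, |t * (X ω - m)| ≤ |t| * a * (K ω + k) := fun ω => by
    rw [abs_mul]
    have : |X ω - m| ≤ a * (K ω + k) := by
      calc |X ω - m| ≤ |X ω| + |m| := abs_sub _ _
        _ ≤ a * (K ω + k) := by nlinarith [hXK ω]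
    calc |t| * |X ω - m| ≤ |t| * (a * (K ω + k)) := mul_le_mul_of_nonneg_left this (abs_nonneg t)
      _ = _ := by ring
  have hpt : ∀ ω, exp (t * (X ω - m)) ≤
      1 + t * (X ω - m) + (t ^ 2 * a ^ 2) * (2 * exp ((s + 1) * k)) * exp ((s + 1) * K ω) := by
    intro ω
    have h0 : 0 ≤ K ω + k := by linarith [hK0 ω]
    have h1 := exp_le_quad (t * (X ω - m))
    have h2 : (t * (X ω - m)) ^ 2 ≤ (t ^ 2 * a ^ 2) * (K ω + k) ^ 2 := by
      have := hdev ω
      have h3 : (t * (X ω - m)) ^ 2 ≤ (|t| * a * (K ω + k)) ^ 2 := by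
        rw [← sq_abs (t * (X ω - m))]
        exact pow_le_pow_left₀ (abs_nonneg _) this 2
      calc _ ≤ _ := h3
        _ = |t| ^ 2 * a ^ 2 * (K ω + k) ^ 2 := by ring
        _ = _ := by rw [sq_abs]
    have h3 : exp |t * (X ω - m)| ≤ exp (s * (K ω + k)) := by
      apply Real.exp_le_exp.2
      exact le_trans (hdev ω) (mul_le_mul_of_nonneg_right hts h0)
    have h4 : (K ω + k) ^ 2 * exp (s * (K ω + k)) ≤ 2 * exp ((s + 1) * k) * exp ((s + 1) * K ω) := by
      calc (K ω + k) ^ 2 * exp (s * (K ω + k))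
          ≤ (2 * exp (K ω + k)) * exp (s * (K ω + k)) :=
            mul_le_mul_of_nonneg_right (sq_le_two_exp h0) (Real.exp_pos _).le
        _ = 2 * exp ((s + 1) * k) * exp ((s + 1) * K ω) := by
            rw [mul_assoc, mul_assoc, ← Real.exp_add, ← Real.exp_add]; congr 2; ring
    have h5 : (t * (X ω - m)) ^ 2 * exp |t * (X ω - m)| ≤
        (t ^ 2 * a ^ 2) * ((K ω + k) ^ 2 * exp (s * (K ω + k))) := by
      calc _ ≤ ((t ^ 2 * a ^ 2) * (K ω + k) ^ 2) * exp (s * (K ω + k)) :=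
            mul_le_mul h2 h3 (Real.exp_pos _).le (by positivity)
        _ = _ := by ring
    have h6 : (t ^ 2 * a ^ 2) * ((K ω + k) ^ 2 * exp (s * (K ω + k))) ≤
        (t ^ 2 * a ^ 2) * (2 * exp ((s + 1) * k) * exp ((s + 1) * K ω)) :=
      mul_le_mul_of_nonneg_left h4 (by positivity)
    nlinarith
  have hrhs : Integrable (fun ω => 1 + t * (X ω - m) +
      (t ^ 2 * a ^ 2) * (2 * exp ((s + 1) * k)) * exp ((s + 1) * K ω)) μ := by
    refine ((integrable_const _).add ?_).add (hKe.const_mul _)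
    exact (hXint.sub (integrable_const _)).const_mul t
  have hexp : Integrable (fun ω => exp (t * (X ω - m))) μ :=
    hrhs.mono' (by fun_prop) (Filter.Eventually.of_forall fun ω => by
      rw [Real.norm_eq_abs, abs_of_pos (Real.exp_pos _)]; exact hpt ω)
  rw [Em_eq hexp]
  apply ENNReal.ofReal_le_ofReal
  have hI := integral_mono hexp hrhs hpt
  have hcomp : ∫ ω, (1 + t * (X ω - m) +
      (t ^ 2 * a ^ 2) * (2 * exp ((s + 1) * k)) * exp ((s + 1) * K ω)) ∂μ =
      1 + (t ^ 2 * a ^ 2) * (2 * exp ((s + 1) * k)) * ∫ ω, exp ((s + 1) * K ω) ∂μ := by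
    have hi1 : Integrable (fun ω => t * (X ω - m)) μ :=
      (hXint.sub (integrable_const _)).const_mul t
    have hi0 : Integrable (fun ω => 1 + t * (X ω - m)) μ := (integrable_const _).add hi1
    have e1 := integral_add hi0
      (hKe.const_mul ((t ^ 2 * a ^ 2) * (2 * exp ((s + 1) * k))))
    have e2 := integral_add (integrable_const (1 : ℝ)) hi1
    have e3 : ∫ ω, t * (X ω - m) ∂μ = 0 := by
      rw [integral_const_mul, integral_sub hXint (integrable_const _)]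
      simp [← hm]
    rw [e1, e2, e3, integral_const_mul]
    simp
  rw [hcomp] at hI
  refine le_trans hI ?_
  have h7 : exp ((s + 1) * k) ≤ exp ((s + 1) * M) :=
    Real.exp_le_exp.2 (mul_le_mul_of_nonneg_left hkM (by linarith))
  have h8 : (t ^ 2 * a ^ 2) * (2 * exp ((s + 1) * k)) * ∫ ω, exp ((s + 1) * K ω) ∂μ ≤
      (t ^ 2 * a ^ 2) * (2 * exp ((s + 1) * M)) * M := by
    apply mul_le_mul _ hMi (integral_nonneg fun ω => (Real.exp_pos _).le) (by positivity)
    exact mul_le_mul_of_nonneg_left (by linarith) (by positivity)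
  have h9 := Real.add_one_le_exp (2 * M * exp ((s + 1) * M) * (t ^ 2 * a ^ 2))
  nlinarith

/-- A sum of independent centred variables. -/
theorem indep {ι : Type*} (I : Finset ι) {X K : ι → Ω → ℝ} (hX : ∀ i, Measurable (X i))
    (hK : ∀ i, Measurable (K i)) (hind : iIndepFun X μ)
    {a s t M : ℝ} (hs : 0 ≤ s) (hK0 : ∀ i ω, 0 ≤ K i ω)
    (hXK : ∀ i ω, |X i ω| ≤ a * K i ω) (hts : |t| * a ≤ s)
    (hM : ∀ i ∈ I, Em μ (fun ω => (s + 1) * K i ω) ≤ ENNReal.ofReal M) :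
    Em μ (fun ω => t * ∑ i ∈ I, (X i ω - ∫ x, X i x ∂μ)) ≤
      ENNReal.ofReal (exp (2 * M * exp ((s + 1) * M) * (t ^ 2 * a ^ 2) * I.card)) := by
  have hp : IsProbabilityMeasure μ := hind.isProbabilityMeasure
  have h1 : Em μ (fun ω => t * ∑ i ∈ I, (X i ω - ∫ x, X i x ∂μ)) =
      ∏ i ∈ I, Em μ (fun ω => t * (X i ω - ∫ x, X i x ∂μ)) := by
    have h2 : iIndepFun (fun i ω => ENNReal.ofReal (exp (t * (X i ω - ∫ x, X i x ∂μ)))) μ :=
      hind.comp (fun i y => ENNReal.ofReal (exp (t * (y - ∫ x, X i x ∂μ)))) (fun i => by fun_prop)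
    have h3 := lintegral_prod_eq_prod_lintegral_of_indepFun I _ h2 (fun i => by
      have := hX i; fun_prop)
    unfold Em
    rw [← h3]
    congr 1
    ext ω
    rw [← ENNReal.ofReal_prod_of_nonneg (fun i _ => (Real.exp_pos _).le), ← Real.exp_sum,
      ← Finset.mul_sum]
  rw [h1]
  calc ∏ i ∈ I, Em μ (fun ω => t * (X i ω - ∫ x, X i x ∂μ))
      ≤ ∏ _i ∈ I, ENNReal.ofReal (exp (2 * M * exp ((s + 1) * M) * (t ^ 2 * a ^ 2))) :=
        Finset.prod_le_prod' fun i hi =>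
          single (hX i) (hK i) hs (hK0 i) (hXK i) hts (hM i hi)
    _ = _ := by
        rw [Finset.prod_const, ← ENNReal.ofReal_pow (Real.exp_pos _).le, ← Real.exp_nat_mul]
        congr 2; ring

/-- Hölder over a finite family with weights of sum at most one. -/
theorem Em_holderA [IsProbabilityMeasure μ] {ι : Type*} (I : Finset ι) {Y : ι → Ω → ℝ}
    (hY : ∀ i ∈ I, AEMeasurable (Y i) μ) {θ B : ι → ℝ} (hθ : ∀ i ∈ I, 0 < θ i)
    (hsum : ∑ i ∈ I, θ i ≤ 1)
    (hB : ∀ i ∈ I, Em μ (fun ω => (θ i)⁻¹ * Y i ω) ≤ ENNReal.ofReal (exp (B i))) :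
    Em μ (fun ω => ∑ i ∈ I, Y i ω) ≤ ENNReal.ofReal (exp (∑ i ∈ I, θ i * B i)) := by
  have h := ENNReal.lintegral_mul_prod_norm_pow_le (μ := μ) I (g := fun _ => 1)
    (f := fun i ω => ENNReal.ofReal (exp ((θ i)⁻¹ * Y i ω))) aemeasurable_const
    (fun i hi => ((Real.measurable_exp.comp_aemeasurable ((hY i hi).const_mul _)).ennreal_ofReal))
    (1 - ∑ i ∈ I, θ i) (p := θ) (by ring)
    (by linarith) (fun i hi => (hθ i hi).le)
  have e1 : (fun ω => (1 : ℝ≥0∞) ^ (1 - ∑ i ∈ I, θ i) *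
      ∏ i ∈ I, ENNReal.ofReal (exp ((θ i)⁻¹ * Y i ω)) ^ θ i) =
      fun ω => ENNReal.ofReal (exp (∑ i ∈ I, Y i ω)) := by
    ext ω
    rw [ENNReal.one_rpow, one_mul, Real.exp_sum, ENNReal.ofReal_prod_of_nonneg
      (fun i _ => (Real.exp_pos _).le)]
    refine Finset.prod_congr rfl fun i hi => ?_
    rw [ENNReal.ofReal_rpow_of_pos (Real.exp_pos _), ← Real.exp_mul]
    congr 2
    have := (hθ i hi).ne'
    field_simp
  rw [e1] at h
  refine le_trans h ?_
  rw [lintegral_const, measure_univ, mul_one, ENNReal.one_rpow, one_mul, Real.exp_sum,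
    ENNReal.ofReal_prod_of_nonneg (fun i _ => (Real.exp_pos _).le)]
  refine Finset.prod_le_prod' fun i hi => ?_
  calc (∫⁻ ω, ENNReal.ofReal (exp ((θ i)⁻¹ * Y i ω)) ∂μ) ^ θ i
      ≤ (ENNReal.ofReal (exp (B i))) ^ θ i :=
        ENNReal.rpow_le_rpow (hB i hi) (hθ i hi).le
    _ = _ := by
        rw [ENNReal.ofReal_rpow_of_pos (Real.exp_pos _), ← Real.exp_mul, mul_comm]

/-- Hölder over a finite family with weights of sum at most one. -/
theorem Em_holder [IsProbabilityMeasure μ] {ι : Type*} (I : Finset ι) {Y : ι → Ω → ℝ}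
    (hY : ∀ i ∈ I, Measurable (Y i)) {θ B : ι → ℝ} (hθ : ∀ i ∈ I, 0 < θ i)
    (hsum : ∑ i ∈ I, θ i ≤ 1)
    (hB : ∀ i ∈ I, Em μ (fun ω => (θ i)⁻¹ * Y i ω) ≤ ENNReal.ofReal (exp (B i))) :
    Em μ (fun ω => ∑ i ∈ I, Y i ω) ≤ ENNReal.ofReal (exp (∑ i ∈ I, θ i * B i)) :=
  Em_holderA I (fun i hi => (hY i hi).aemeasurable) hθ hsum hB

/-- `indep` with independence only on the index set. -/
theorem indep' {ι : Type*} (I : Finset ι) {X K : ι → Ω → ℝ} (hX : ∀ i ∈ I, Measurable (X i))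
    (hK : ∀ i ∈ I, Measurable (K i)) (hind : iIndepFun (fun i : I => X i) μ)
    {a s t M : ℝ} (hs : 0 ≤ s) (hK0 : ∀ i ∈ I, ∀ ω, 0 ≤ K i ω)
    (hXK : ∀ i ∈ I, ∀ ω, |X i ω| ≤ a * K i ω) (hts : |t| * a ≤ s)
    (hM : ∀ i ∈ I, Em μ (fun ω => (s + 1) * K i ω) ≤ ENNReal.ofReal M) :
    Em μ (fun ω => t * ∑ i ∈ I, (X i ω - ∫ x, X i x ∂μ)) ≤
      ENNReal.ofReal (exp (2 * M * exp ((s + 1) * M) * (t ^ 2 * a ^ 2) * I.card)) := by
  have h := indep (μ := μ) (Finset.univ : Finset I) (X := fun i => X i) (K := fun i => K i)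
    (fun i => hX i i.2) (fun i => hK i i.2) hind hs (fun i => hK0 i i.2) (fun i => hXK i i.2) hts
    (fun i _ => hM i i.2)
  have e : ∀ ω, ∑ i : I, (X i ω - ∫ x, X i x ∂μ) = ∑ i ∈ I, (X i ω - ∫ x, X i x ∂μ) := fun ω =>
    Finset.sum_coe_sort I (fun i => X i ω - ∫ x, X i x ∂μ)
  simp only [e, Finset.card_univ, Fintype.card_coe] at h
  exact h

lemma geom_half (J : ℕ) : ∑ j ∈ Finset.range J, ((1 : ℝ) / 2) ^ (j + 1) ≤ 1 := by
  have h : ∀ J : ℕ, ∑ j ∈ Finset.range J, ((1 : ℝ) / 2) ^ (j + 1) = 1 - (1 / 2) ^ J := by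
    intro J
    induction J with
    | zero => simp
    | succ n ih => rw [Finset.sum_range_succ, ih]; ring
  rw [h]
  have : (0 : ℝ) ≤ (1 / 2) ^ J := by positivity
  linarith

/-- Sums over scales `j < J`, colour classes `k : Fin c` and an index set of at most
`β 4 ^ j` independent terms, each at most `α 4 ^ (-j)` times a variable with a bounded
exponential moment. -/
theorem multiscale [IsProbabilityMeasure μ] {ι : Type*} (J c : ℕ) (hc : 0 < c)
    (I : ℕ → Fin c → Finset ι) {X K : ℕ → ι → Ω → ℝ}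
    (hX : ∀ j < J, ∀ k, ∀ i ∈ I j k, Measurable (X j i))
    (hK : ∀ j < J, ∀ k, ∀ i ∈ I j k, Measurable (K j i))
    (hind : ∀ j < J, ∀ k, iIndepFun (fun i : I j k => X j i) μ)
    {α β s t M : ℝ} (hα : 0 ≤ α) (hs : 0 ≤ s) (hM0 : 0 ≤ M)
    (hK0 : ∀ j < J, ∀ k, ∀ i ∈ I j k, ∀ ω, 0 ≤ K j i ω)
    (hXK : ∀ j < J, ∀ k, ∀ i ∈ I j k, ∀ ω, |X j i ω| ≤ α * (1 / 4) ^ j * K j i ω)
    (hcard : ∀ j < J, ∀ k, ((I j k).card : ℝ) ≤ β * 4 ^ j)
    (hts : 2 * c * α * |t| ≤ s)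
    (hM : ∀ j < J, ∀ k, ∀ i ∈ I j k, Em μ (fun ω => (s + 1) * K j i ω) ≤ ENNReal.ofReal M) :
    Em μ (fun ω => t * ∑ j ∈ Finset.range J, ∑ k : Fin c, ∑ i ∈ I j k,
      (X j i ω - ∫ x, X j i x ∂μ)) ≤
      ENNReal.ofReal (exp (8 * M * exp ((s + 1) * M) * c ^ 2 * α ^ 2 * |β| * t ^ 2)) := by
  classical
  set G : ℝ := 2 * M * exp ((s + 1) * M) with hG
  have hG0 : 0 ≤ G := by positivity
  have hc' : (0 : ℝ) < c := by exact_mod_cast hc
  let θ : ℕ × Fin c → ℝ := fun p => (1 / 2) ^ (p.1 + 1) / c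
  let Y : ℕ × Fin c → Ω → ℝ := fun p ω => t * ∑ i ∈ I p.1 p.2, (X p.1 i ω - ∫ x, X p.1 i x ∂μ)
  have hθ : ∀ p, 0 < θ p := fun p => by positivity
  have hsum : ∑ p ∈ (Finset.range J) ×ˢ (Finset.univ : Finset (Fin c)), θ p ≤ 1 := by
    rw [Finset.sum_product]
    simp only [θ, Finset.sum_const, Finset.card_univ, Fintype.card_fin, nsmul_eq_mul]
    calc ∑ j ∈ Finset.range J, (c : ℝ) * ((1 / 2) ^ (j + 1) / c)
        = ∑ j ∈ Finset.range J, ((1 : ℝ) / 2) ^ (j + 1) :=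
          Finset.sum_congr rfl fun j _ => by field_simp
      _ ≤ 1 := geom_half J
  have hYm : ∀ p ∈ (Finset.range J) ×ˢ (Finset.univ : Finset (Fin c)), Measurable (Y p) := by
    intro p hp
    have hj : p.1 < J := by simpa using (Finset.mem_product.1 hp).1
    refine Measurable.const_mul ?_ _
    exact Finset.measurable_fun_sum _ fun i hi => (hX _ hj _ i hi).sub measurable_const
  have hB : ∀ p ∈ (Finset.range J) ×ˢ (Finset.univ : Finset (Fin c)),
      Em μ (fun ω => (θ p)⁻¹ * Y p ω) ≤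
        ENNReal.ofReal (exp (4 * G * c ^ 2 * α ^ 2 * |β| * t ^ 2)) := by
    rintro ⟨j, k⟩ hp
    have hj : j < J := by simpa using (Finset.mem_product.1 hp).1
    have e1 : (fun ω => (θ (j, k))⁻¹ * Y (j, k) ω) =
        fun ω => ((2 ^ (j + 1) * c * t) * ∑ i ∈ I j k, (X j i ω - ∫ x, X j i x ∂μ)) := by
      ext ω
      simp only [θ, Y]
      rw [inv_div, ← mul_assoc]
      congr 1
      rw [one_div, inv_pow]
      field_simp
    rw [e1]
    have h := indep' (μ := μ) (I j k) (X := X j) (K := K j) (hX j hj k) (hK j hj k)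
      (hind j hj k) (a := α * (1 / 4) ^ j) (s := s) (t := 2 ^ (j + 1) * c * t) (M := M) hs
      (hK0 j hj k) (hXK j hj k) (by
        rw [abs_mul, abs_of_nonneg (by positivity : (0 : ℝ) ≤ 2 ^ (j + 1) * c)]
        have h1 : (2 : ℝ) ^ (j + 1) * c * |t| * (α * (1 / 4) ^ j) =
            (2 * c * α * |t|) * (1 / 2) ^ j := by
          have : ((1 : ℝ) / 4) ^ j = (1 / 2) ^ j * (1 / 2) ^ j := by
            rw [← mul_pow]; norm_num
          rw [this, pow_succ]
          have h2 : (2 : ℝ) ^ j * (1 / 2) ^ j = 1 := by rw [← mul_pow]; norm_num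
          linear_combination (2 * c * α * |t| * (1 / 2) ^ j) * h2
        rw [h1]
        have h2 : ((1 : ℝ) / 2) ^ j ≤ 1 := pow_le_one₀ (by norm_num) (by norm_num)
        have h3 : 0 ≤ 2 * c * α * |t| := by positivity
        nlinarith) (hM j hj k)
    refine le_trans h (ENNReal.ofReal_le_ofReal (Real.exp_le_exp.2 ?_))
    rw [← hG]
    have h4 : (2 ^ (j + 1) * (c : ℝ) * t) ^ 2 * (α * (1 / 4) ^ j) ^ 2 * (I j k).card ≤
        4 * c ^ 2 * α ^ 2 * |β| * t ^ 2 := by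
      have h5 : ((I j k).card : ℝ) ≤ |β| * 4 ^ j :=
        le_trans (hcard j hj k) (mul_le_mul_of_nonneg_right (le_abs_self β) (by positivity))
      calc (2 ^ (j + 1) * (c : ℝ) * t) ^ 2 * (α * (1 / 4) ^ j) ^ 2 * (I j k).card
          ≤ (2 ^ (j + 1) * (c : ℝ) * t) ^ 2 * (α * (1 / 4) ^ j) ^ 2 * (|β| * 4 ^ j) :=
            mul_le_mul_of_nonneg_left h5 (by positivity)
        _ = 4 * c ^ 2 * α ^ 2 * |β| * t ^ 2 := by
            have e2 : ((2 : ℝ) ^ (j + 1)) ^ 2 = 4 * 4 ^ j := by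
              rw [← pow_mul, mul_comm (j + 1) 2, pow_mul, pow_succ]; norm_num; ring
            have e3 : (((1 : ℝ) / 4) ^ j) ^ 2 * 4 ^ j * 4 ^ j = 1 := by
              rw [← pow_mul, mul_comm j 2, pow_mul, ← mul_pow, ← mul_pow]; norm_num
            rw [mul_pow, mul_pow, mul_pow, e2]
            linear_combination (4 * c ^ 2 * α ^ 2 * |β| * t ^ 2) * e3
    calc G * ((2 ^ (j + 1) * (c : ℝ) * t) ^ 2 * (α * (1 / 4) ^ j) ^ 2) * (I j k).card
        = G * ((2 ^ (j + 1) * (c : ℝ) * t) ^ 2 * (α * (1 / 4) ^ j) ^ 2 * (I j k).card) := by ring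
      _ ≤ G * (4 * c ^ 2 * α ^ 2 * |β| * t ^ 2) := mul_le_mul_of_nonneg_left h4 hG0
      _ = _ := by ring
  have hfin := Em_holder ((Finset.range J) ×ˢ (Finset.univ : Finset (Fin c))) hYm
    (fun p _ => hθ p) hsum hB
  have e5 : (fun ω => t * ∑ j ∈ Finset.range J, ∑ k : Fin c, ∑ i ∈ I j k,
      (X j i ω - ∫ x, X j i x ∂μ)) =
      fun ω => ∑ p ∈ (Finset.range J) ×ˢ (Finset.univ : Finset (Fin c)), Y p ω := by
    ext ω
    rw [Finset.sum_product]
    simp only [Y, Finset.mul_sum]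
  rw [e5]
  refine le_trans hfin (ENNReal.ofReal_le_ofReal (Real.exp_le_exp.2 ?_))
  rw [← Finset.sum_mul]
  have h6 : 0 ≤ 4 * G * c ^ 2 * α ^ 2 * |β| * t ^ 2 := by positivity
  calc (∑ p ∈ (Finset.range J) ×ˢ (Finset.univ : Finset (Fin c)), θ p) *
        (4 * G * c ^ 2 * α ^ 2 * |β| * t ^ 2)
      ≤ 1 * (4 * G * c ^ 2 * α ^ 2 * |β| * t ^ 2) := mul_le_mul_of_nonneg_right hsum h6
    _ = _ := by rw [hG]; ring

end Vale.Agent.P167.H562
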