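import Mathlib.Probability.Independence.InfinitePi
import Mathlib.Tactic

/-!
# P167: independence of local functions of independent coordinates
-/

open MeasureTheory ProbabilityTheory Finset
open scoped ENNReal

namespace Vale.Agent.P167.H562

set_option linter.unusedSectionVars false
set_option warn.classDefReducibility false

variable {V E : Type*} [MeasurableSpace E]

/-- `A` depends only on the coordinates in `S`. -/
def LocSet (S : Set V) (A : Set (V → E)) : Prop :=
  ∀ ω ω' : V → E, (∀ v ∈ S, ω v = ω' v) → (ω ∈ A ↔ ω' ∈ A)

/-- `X` depends only on the coordinates in `S`. -/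
def LocFun {β : Type*} (S : Set V) (X : (V → E) → β) : Prop :=
  ∀ ω ω' : V → E, (∀ v ∈ S, ω v = ω' v) → X ω = X ω'

lemma LocSet.mono {S T : Set V} {A : Set (V → E)} (h : LocSet S A) (hST : S ⊆ T) : LocSet T A :=
  fun ω ω' hw => h ω ω' fun v hv => hw v (hST hv)

lemma LocFun.mono {β : Type*} {S T : Set V} {X : (V → E) → β} (h : LocFun S X) (hST : S ⊆ T) :
    LocFun T X :=
  fun ω ω' hw => h ω ω' fun v hv => hw v (hST hv)

lemma LocFun.preimage {β : Type*} {S : Set V} {X : (V → E) → β} (h : LocFun S X) (B : Set β) :
    LocSet S (X ⁻¹' B) := fun ω ω' hw => by simp only [Set.mem_preimage, h ω ω' hw]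

lemma LocFun.comp {β γ : Type*} {S : Set V} {X : (V → E) → β} (h : LocFun S X) (g : β → γ) :
    LocFun S (fun ω => g (X ω)) := fun ω ω' hw => by simp only [h ω ω' hw]

/-- Coordinate sigma-algebra of a set of coordinates. -/
def sig (S : Set V) : MeasurableSpace (V → E) :=
  ⨆ v ∈ S, MeasurableSpace.comap (fun ω : V → E => ω v) inferInstance

lemma sig_le (S : Set V) : (sig S : MeasurableSpace (V → E)) ≤ MeasurableSpace.pi := by
  unfold sig
  refine iSup₂_le fun v _ => ?_
  exact (measurable_pi_apply v).comap_le

theorem LocSet.measurable [Nonempty E] {S : Set V} {A : Set (V → E)} (hA : MeasurableSet A)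
    (h : LocSet S A) : MeasurableSet[sig S] A := by
  classical
  let e₀ : E := Classical.arbitrary E
  let φ : (V → E) → (V → E) := fun ω v => if v ∈ S then ω v else e₀
  have hφ : @Measurable _ _ (sig S) MeasurableSpace.pi φ := by
    rw [@measurable_pi_iff _ _ _ (sig S)]
    intro v
    by_cases hv : v ∈ S
    · simp only [φ, hv, if_true]
      have h1 : @Measurable _ _ (MeasurableSpace.comap (fun ω : V → E => ω v) inferInstance) _
          (fun ω : V → E => ω v) := comap_measurable _
      exact h1.mono (le_iSup₂ (f := fun v (_ : v ∈ S) =>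
        MeasurableSpace.comap (fun ω : V → E => ω v) inferInstance) v hv) le_rfl
    · simp only [φ, hv, if_false]
      exact measurable_const
  have : A = φ ⁻¹' A := by
    ext ω
    exact h ω (φ ω) fun v hv => by simp [φ, hv]
  rw [this]
  exact hφ hA

theorem indep_sig {P : Measure (V → E)} (hP : iIndepFun (fun v (ω : V → E) => ω v) P)
    {S T : Set V} (hST : Disjoint S T) : Indep (sig S) (sig T) P := by
  have h1 : iIndep (fun v => MeasurableSpace.comap (fun ω : V → E => ω v) inferInstance) P :=
    (iIndepFun_iff_iIndep _ _ _).1 hP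
  exact indep_iSup_of_disjoint (fun v => (measurable_pi_apply v).comap_le) h1 hST

/-- Local functions of disjoint sets of coordinates are independent. -/
theorem iIndepFun_of_local [Nonempty E] {P : Measure (V → E)}
    (hP : iIndepFun (fun v (ω : V → E) => ω v) P) {ι : Type*} {β : ι → Type*}
    [∀ i, MeasurableSpace (β i)] {S : ι → Set V} (hS : Pairwise fun i j => Disjoint (S i) (S j))
    {X : ∀ i, (V → E) → β i} (hX : ∀ i, Measurable (X i)) (hl : ∀ i, LocFun (S i) (X i)) :
    iIndepFun X P := by
  classical
  have hp : IsProbabilityMeasure P := hP.isProbabilityMeasure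
  rw [iIndepFun_iff_measure_inter_preimage_eq_mul]
  intro I B hB
  induction I using Finset.induction with
  | empty => simp
  | insert a I ha ih =>
    rw [Finset.set_biInter_insert, Finset.prod_insert ha,
      ← ih fun i hi => hB i (Finset.mem_insert_of_mem hi)]
    have h1 : Disjoint (S a) (⋃ i ∈ I, S i) := by
      rw [Set.disjoint_iUnion₂_right]
      intro i hi
      exact hS (by rintro rfl; exact ha hi)
    have h2 := indep_sig hP h1
    have m1 : MeasurableSet[sig (S a)] (X a ⁻¹' B a) :=
      ((hl a).preimage _).measurable (hX a (hB a (Finset.mem_insert_self _ _)))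
    have m2 : MeasurableSet[sig (⋃ i ∈ I, S i)] (⋂ i ∈ I, X i ⁻¹' B i) := by
      refine LocSet.measurable (Finset.measurableSet_biInter _ fun i hi =>
        hX i (hB i (Finset.mem_insert_of_mem hi))) ?_
      intro ω ω' hw
      simp only [Set.mem_iInter]
      refine forall₂_congr fun i hi => ?_
      exact (hl i).preimage (B i) ω ω' fun v hv => hw v (Set.mem_biUnion hi hv)
    exact (h2.indepSet_of_measurableSet m1 m2).measure_inter_eq_mul

/-- Two local functions of disjoint sets of coordinates are independent. -/
theorem indepFun_of_local [Nonempty E] {P : Measure (V → E)}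
    (hP : iIndepFun (fun v (ω : V → E) => ω v) P) {β γ : Type*}
    [MeasurableSpace β] [MeasurableSpace γ] {S T : Set V} (hST : Disjoint S T)
    {X : (V → E) → β} {Y : (V → E) → γ} (hX : Measurable X) (hY : Measurable Y)
    (hlX : LocFun S X) (hlY : LocFun T Y) : IndepFun X Y P := by
  rw [indepFun_iff_measure_inter_preimage_eq_mul]
  intro B C hB hC
  have := hP.isProbabilityMeasure
  exact ((indep_sig hP hST).indepSet_of_measurableSet
    ((hlX.preimage B).measurable (hX hB)) ((hlY.preimage C).measurable (hY hC))).measure_inter_eq_mul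

end Vale.Agent.P167.H562
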