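import Mathlib.Analysis.SpecialFunctions.Trigonometric.Deriv
import Mathlib.Analysis.SpecialFunctions.Trigonometric.Inverse
import Mathlib.Analysis.Convex.Continuous
import Mathlib.Topology.Ultrafilter
import Mathlib.Tactic

/-!
# P167: extraction of the exponents, limit form
-/

open Filter Topology Real Finset

namespace Vale.Agent.P167.H562

/-- Loop weight with charge `t`, normalised at `t = 0`. -/
noncomputable def wt (μ t : ℝ) : ℝ := cos (μ + t) / cos μ

/-- Linearly decreasing charges. -/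
noncomputable def bt (b : ℝ) (m k : ℕ) : ℝ := b * (1 - k / m)

lemma bt_zero (b : ℝ) (m : ℕ) : bt b m 0 = b := by simp [bt]

lemma cos_pos' {μ : ℝ} (h0 : 0 < μ) (h1 : μ < π / 2) : 0 < cos μ :=
  cos_pos_of_mem_Ioo ⟨by linarith [Real.pi_pos], h1⟩

lemma wt_pos {μ b : ℝ} (h0 : 0 < μ) (h1 : μ < π / 2) (hb : -(2 * μ) ≤ b) (hb' : b < π / 2 - μ) :
    0 < wt μ b :=
  div_pos (cos_pos_of_mem_Ioo ⟨by linarith, by linarith⟩) (cos_pos' h0 h1)

lemma one_le_wt {μ b : ℝ} (h0 : 0 < μ) (h1 : μ < π / 2) (hb : -(2 * μ) ≤ b) (hb' : b ≤ 0) :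
    1 ≤ wt μ b := by
  rw [wt, le_div_iff₀ (cos_pos' h0 h1), one_mul]
  rw [← Real.cos_abs (μ + b)]
  apply Real.cos_le_cos_of_nonneg_of_le_pi (abs_nonneg _) (by linarith [Real.pi_pos])
  rw [abs_le]; constructor <;> linarith

lemma wt_neg_two {μ : ℝ} (h0 : 0 < μ) (h1 : μ < π / 2) : wt μ (-(2 * μ)) = 1 := by
  rw [wt, show μ + -(2 * μ) = -μ by ring, Real.cos_neg]
  exact div_self (cos_pos' h0 h1).ne'

lemma wt_end {μ : ℝ} : wt μ (π / 2 - μ) = 0 := by
  rw [wt, show μ + (π / 2 - μ) = π / 2 by ring, Real.cos_pi_div_two, zero_div]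

lemma continuous_wt (μ : ℝ) : Continuous (wt μ) := by
  unfold wt; fun_prop

lemma tendsto_mul_div {g : ℝ → ℝ} (hg : Continuous g) (u : ℝ) :
    Tendsto (fun p : ℝ => g (p * u) / p) (𝓝[>] 1) (𝓝 (g u)) := by
  have h : ContinuousAt (fun p : ℝ => g (p * u) / p) 1 := by
    apply ContinuousAt.div _ continuousAt_id one_ne_zero
    exact (hg.comp (by fun_prop : Continuous fun p : ℝ => p * u)).continuousAt
  have h2 := h.tendsto
  simp only [one_mul, div_one] at h2
  exact h2.mono_left nhdsWithin_le_nhds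

lemma tendsto_div_mul {g : ℝ → ℝ} (hg : Continuous g) (u : ℝ) :
    Tendsto (fun p : ℝ => p * g (u / p)) (𝓝[>] 1) (𝓝 (g u)) := by
  have h : ContinuousAt (fun p : ℝ => p * g (u / p)) 1 := by
    apply ContinuousAt.mul continuousAt_id
    have h1 : ContinuousAt (fun p : ℝ => u / p) 1 := continuousAt_const.div continuousAt_id one_ne_zero
    exact ContinuousAt.comp (g := g) (f := fun p : ℝ => u / p) hg.continuousAt h1
  have h2 := h.tendsto
  simp only [one_mul, div_one] at h2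
  exact h2.mono_left nhdsWithin_le_nhds

lemma ev_p : ∀ᶠ p : ℝ in 𝓝[>] 1, 1 < p ∧ p ≤ 2 := by
  have h : Set.Ioo (1 : ℝ) 2 ∈ 𝓝[>] (1 : ℝ) := Ioo_mem_nhdsGT (by norm_num)
  filter_upwards [h] with p hp
  exact ⟨hp.1, hp.2.le⟩

theorem lim_core {μ A : ℝ} (hμ0 : 0 < μ) (hμ1 : μ < π / 2) {m : ℕ} (hm : 0 < m)
    {g : ℕ → ℝ → ℝ} {z : ℝ} {d : ℕ → ℝ} {c : ℝ} (hc : 0 < c)
    (hconv : ∀ k < m, ConvexOn ℝ Set.univ (g k)) (hzero : ∀ k < m, g k 0 = 0)
    (hmono : ∀ k < m, Monotone (g k)) (hz : ∀ u, z ≤ g 0 u)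
    (hU : ∀ k < m, ∀ b p, -(2 * μ) ≤ b → b < π / 2 - μ → 1 < p → p ≤ 2 →
      -(A * b ^ 2) ≤ b * d k + g k (p * log (wt μ b)) / p)
    (hU0 : ∀ p, 1 < p → p ≤ 2 → -(A * (π / 2 - μ) ^ 2) ≤ (π / 2 - μ) * d 0 + z / p)
    (hL1 : ∀ b p, 0 < b → b < π / 2 - μ → 1 < p → p ≤ 2 →
      b * d 0 + p * g 0 (log (wt μ b) / p) ≤ -(A * b ^ 2))
    (hL2 : ∀ b p, -μ < b → b < 0 → 1 < p → p ≤ 2 →
      ∑ k ∈ range m, (bt b m k * d k + p * g k (log (wt μ (bt b m k)) / p)) ≤
          -(A * ∑ k ∈ range m, (bt b m k) ^ 2) ∨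
      ∃ i < m, ∑ k ∈ range m, (bt b m k * d k + p * g k (log (wt μ (bt b m k)) / p)) ≤
        ∑ k ∈ range m, bt b m k * d k - c +
          ∑ j ∈ (range m).erase i, g j (p * log (wt μ (bt b m j))) / p) :
    d 0 = 2 * μ * A ∧
    (∀ b, -μ < b → b < π / 2 - μ → g 0 (log (wt μ b)) = -(A * (b ^ 2 + 2 * μ * b))) ∧
    z = -(A * (π ^ 2 / 4 - μ ^ 2)) := by
  have hcont : ∀ k < m, Continuous (g k) := fun k hk => by
    rw [← continuousOn_univ]
    exact (hconv k hk).continuousOn isOpen_univ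
  -- upper inequality at `p = 1`
  have hU' : ∀ k < m, ∀ b, -(2 * μ) ≤ b → b < π / 2 - μ →
      -(A * b ^ 2) ≤ b * d k + g k (log (wt μ b)) := by
    intro k hk b hb hb'
    refine ge_of_tendsto ((tendsto_mul_div (hcont k hk) (log (wt μ b))).const_add (b * d k)) ?_
    filter_upwards [ev_p] with p hp
    exact hU k hk b p hb hb' hp.1 hp.2
  have hU0' : -(A * (π / 2 - μ) ^ 2) ≤ (π / 2 - μ) * d 0 + z := by
    have h1 : Tendsto (fun p : ℝ => z / p) (𝓝[>] 1) (𝓝 z) := by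
      have := tendsto_mul_div (g := fun _ => z) continuous_const 0
      simpa using this
    refine ge_of_tendsto (h1.const_add ((π / 2 - μ) * d 0)) ?_
    filter_upwards [ev_p] with p hp
    exact hU0 p hp.1 hp.2
  have hL1' : ∀ b, 0 < b → b < π / 2 - μ → b * d 0 + g 0 (log (wt μ b)) ≤ -(A * b ^ 2) := by
    intro b hb hb'
    refine le_of_tendsto ((tendsto_div_mul (hcont 0 hm) (log (wt μ b))).const_add (b * d 0)) ?_
    filter_upwards [ev_p] with p hp
    exact hL1 b p hb hb' hp.1 hp.2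
  have hbt : ∀ b, -μ < b → b < 0 → ∀ k < m, -(2 * μ) ≤ bt b m k ∧ bt b m k ≤ 0 := by
    intro b hb hb' k hk
    have hm' : (0 : ℝ) < m := by exact_mod_cast hm
    have h1 : (k : ℝ) / m ≤ 1 := by
      rw [div_le_one hm']; exact_mod_cast hk.le
    have h2 : (0 : ℝ) ≤ (k : ℝ) / m := by positivity
    unfold bt
    constructor <;> nlinarith
  have hL2' : ∀ b, -μ < b → b < 0 →
      ∑ k ∈ range m, (bt b m k * d k + g k (log (wt μ (bt b m k)))) ≤
          -(A * ∑ k ∈ range m, (bt b m k) ^ 2) := by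
    intro b hb hb'
    by_contra hcon
    push Not at hcon
    have hT : Tendsto (fun p : ℝ => ∑ k ∈ range m,
        (bt b m k * d k + p * g k (log (wt μ (bt b m k)) / p))) (𝓝[>] 1)
        (𝓝 (∑ k ∈ range m, (bt b m k * d k + g k (log (wt μ (bt b m k)))))) :=
      tendsto_finsetSum _ fun k hk =>
        (tendsto_div_mul (hcont k (mem_range.1 hk)) _).const_add _
    have h1 := hT.eventually (lt_mem_nhds hcon)
    have h2 : ∀ i < m, ∀ᶠ p : ℝ in 𝓝[>] 1, ∑ k ∈ range m, bt b m k * d k - c +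
          ∑ j ∈ (range m).erase i, g j (p * log (wt μ (bt b m j))) / p <
          ∑ k ∈ range m, (bt b m k * d k + p * g k (log (wt μ (bt b m k)) / p)) := by
      intro i hi
      have hT2 : Tendsto (fun p : ℝ => ∑ k ∈ range m, bt b m k * d k - c +
          ∑ j ∈ (range m).erase i, g j (p * log (wt μ (bt b m j))) / p) (𝓝[>] 1)
          (𝓝 (∑ k ∈ range m, bt b m k * d k - c +
          ∑ j ∈ (range m).erase i, g j (log (wt μ (bt b m j))))) := by
        refine (tendsto_finsetSum _ fun k hk => ?_).const_add _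
        exact tendsto_mul_div (hcont k (mem_range.1 (mem_of_mem_erase hk))) _
      refine hT2.eventually_lt hT ?_
      rw [Finset.sum_add_distrib, ← Finset.add_sum_erase (range m)
        (fun k => g k (log (wt μ (bt b m k)))) (mem_range.2 hi)]
      have h3 : 0 ≤ g i (log (wt μ (bt b m i))) := by
        rw [← hzero i hi]
        apply hmono i hi
        apply Real.log_nonneg
        exact one_le_wt hμ0 hμ1 (hbt b hb hb' i hi).1 (hbt b hb hb' i hi).2
      linarith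
    have h3 : ∀ᶠ p : ℝ in 𝓝[>] 1, ∀ i ∈ range m, ∑ k ∈ range m, bt b m k * d k - c +
          ∑ j ∈ (range m).erase i, g j (p * log (wt μ (bt b m j))) / p <
          ∑ k ∈ range m, (bt b m k * d k + p * g k (log (wt μ (bt b m k)) / p)) :=
      (Filter.eventually_all_finset _).2 fun i hi => h2 i (mem_range.1 hi)
    obtain ⟨p, ⟨hp1, hp2⟩, hp3, hp4⟩ := (ev_p.and (h1.and h3)).exists
    rcases hL2 b p hb hb' hp1 hp2 with h | ⟨i, hi, h⟩
    · linarith
    · linarith [hp4 i (mem_range.2 hi)]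
  -- equality on `(-μ, 0)`
  have hEq : ∀ b, -μ < b → b < 0 → b * d 0 + g 0 (log (wt μ b)) = -(A * b ^ 2) := by
    intro b hb hb'
    have h1 := hL2' b hb hb'
    have h2 : ∀ k ∈ range m, 0 ≤ bt b m k * d k + g k (log (wt μ (bt b m k))) +
        A * (bt b m k) ^ 2 := by
      intro k hk
      have hk' := mem_range.1 hk
      have := hU' k hk' (bt b m k) (hbt b hb hb' k hk').1 (by linarith [(hbt b hb hb' k hk').2])
      linarith
    have h3 : ∑ k ∈ range m, (bt b m k * d k + g k (log (wt μ (bt b m k))) +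
        A * (bt b m k) ^ 2) = 0 := by
      apply le_antisymm _ (Finset.sum_nonneg h2)
      rw [Finset.sum_add_distrib, ← Finset.mul_sum]
      linarith
    have h4 := (Finset.sum_eq_zero_iff_of_nonneg h2).1 h3 0 (mem_range.2 hm)
    rw [bt_zero] at h4
    linarith
  have hd1 : d 0 ≤ 2 * μ * A := by
    have h := hU' 0 hm (-(2 * μ)) le_rfl (by linarith)
    rw [wt_neg_two hμ0 hμ1, Real.log_one, hzero 0 hm] at h
    have : 0 ≤ 2 * μ * (2 * μ * A - d 0) := by nlinarith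
    have h2 : 0 ≤ 2 * μ * A - d 0 := nonneg_of_mul_nonneg_right this (by linarith)
    linarith
  have hd2 : ∀ b, -μ < b → b < 0 → -(2 * A * b) ≤ d 0 + 0 := by
    intro b1 hb1 hb1'
    -- let `b2` decrease to `b1`
    have h1 : ∀ b2, b1 < b2 → b2 < 0 → -(A * (b1 + b2)) ≤ d 0 := by
      intro b2 h12 hb2
      have e1 := hEq b1 hb1 hb1'
      have e2 := hEq b2 (by linarith) hb2
      have hw : wt μ b2 ≤ wt μ b1 := by
        unfold wt
        apply div_le_div_of_nonneg_right _ (cos_pos' hμ0 hμ1).le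
        apply Real.cos_le_cos_of_nonneg_of_le_pi (by linarith) (by linarith [Real.pi_pos])
          (by linarith)
      have hpos : 0 < wt μ b2 := wt_pos hμ0 hμ1 (by linarith) (by linarith)
      have hm1 := hmono 0 hm (Real.log_le_log hpos hw)
      have : 0 ≤ (b2 - b1) * (d 0 + A * (b1 + b2)) := by nlinarith
      have h3 : 0 ≤ d 0 + A * (b1 + b2) := nonneg_of_mul_nonneg_right this (by linarith)
      linarith
    have h2 : Tendsto (fun b2 : ℝ => -(A * (b1 + b2))) (𝓝[>] b1) (𝓝 (-(A * (b1 + b1)))) := by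
      have : Continuous fun b2 : ℝ => -(A * (b1 + b2)) := by fun_prop
      exact this.continuousAt.tendsto.mono_left nhdsWithin_le_nhds
    have h3 : ∀ᶠ b2 : ℝ in 𝓝[>] b1, -(A * (b1 + b2)) ≤ d 0 := by
      have h4 : Set.Ioo b1 0 ∈ 𝓝[>] b1 := Ioo_mem_nhdsGT hb1'
      filter_upwards [h4] with b2 hb2
      exact h1 b2 hb2.1 hb2.2
    have h5 := le_of_tendsto h2 h3
    linarith
  have hd : d 0 = 2 * μ * A := by
    apply le_antisymm hd1
    have h2 : Tendsto (fun b : ℝ => -(2 * A * b)) (𝓝[>] (-μ)) (𝓝 (-(2 * A * (-μ)))) := by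
      have : Continuous fun b : ℝ => -(2 * A * b) := by fun_prop
      exact this.continuousAt.tendsto.mono_left nhdsWithin_le_nhds
    have h3 : ∀ᶠ b : ℝ in 𝓝[>] (-μ), -(2 * A * b) ≤ d 0 := by
      have h4 : Set.Ioo (-μ) 0 ∈ 𝓝[>] (-μ) := Ioo_mem_nhdsGT (by linarith)
      filter_upwards [h4] with b hb
      have := hd2 b hb.1 hb.2
      linarith
    have h5 := le_of_tendsto h2 h3
    linarith
  have hg : ∀ b, -μ < b → b < π / 2 - μ → g 0 (log (wt μ b)) = -(A * (b ^ 2 + 2 * μ * b)) := by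
    intro b hb hb'
    rcases lt_trichotomy b 0 with h | h | h
    · have := hEq b hb h
      rw [hd] at this; linarith
    · subst h
      simp only [wt, add_zero, div_self (cos_pos' hμ0 hμ1).ne', Real.log_one]
      rw [hzero 0 hm]; ring
    · have h1 := hL1' b h hb'
      have h2 := hU' 0 hm b (by linarith) hb'
      rw [hd] at h1 h2
      linarith
  refine ⟨hd, hg, le_antisymm ?_ ?_⟩
  · have h1 : Tendsto (fun b : ℝ => -(A * (b ^ 2 + 2 * μ * b))) (𝓝[<] (π / 2 - μ))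
        (𝓝 (-(A * ((π / 2 - μ) ^ 2 + 2 * μ * (π / 2 - μ))))) := by
      have : Continuous fun b : ℝ => -(A * (b ^ 2 + 2 * μ * b)) := by fun_prop
      exact this.continuousAt.tendsto.mono_left nhdsWithin_le_nhds
    have h2 : ∀ᶠ b : ℝ in 𝓝[<] (π / 2 - μ), z ≤ -(A * (b ^ 2 + 2 * μ * b)) := by
      have h3 : Set.Ioo (0 : ℝ) (π / 2 - μ) ∈ 𝓝[<] (π / 2 - μ) := Ioo_mem_nhdsLT (by linarith)
      filter_upwards [h3] with b hb
      rw [← hg b (by linarith [hb.1]) hb.2]
      exact hz _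
    have h4 := ge_of_tendsto h1 h2
    refine le_trans h4 (le_of_eq ?_)
    ring
  · rw [hd] at hU0'
    have : A * (π ^ 2 / 4 - μ ^ 2) = A * (π / 2 - μ) ^ 2 + (π / 2 - μ) * (2 * μ * A) := by ring
    linarith

end Vale.Agent.P167.H562
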