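import Vale.Agent.P167.Defs
import Vale.Agent.P167.H562.FLim

/-!
# P167, general angle: interface of block F

`a` is the angle (`√q = 2 cos a`), `P` a probability measure on the configurations.
-/

namespace Vale.Agent.P167.H562

open Finset Filter Topology MeasureTheory ProbabilityTheory

/-- Product over all loops of the weights `cos (a + G f ℓ) / cos a`. -/
noncomputable def Xa (a : ℝ) (f : ℤ × ℤ → ℝ) (ω : Cfg) : ℝ :=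
  ∏ᶠ ℓ ∈ {ℓ | IsLoop ω ℓ}, wt a (G f ℓ)

/-- Product over the loops of diameter less than `d` which visit the annulus `[lo, hi]`. -/
noncomputable def Yna (a lo hi d : ℝ) (f : ℤ × ℤ → ℝ) (ω : Cfg) : ℝ :=
  ∏ᶠ ℓ ∈ {ℓ | IsLoop ω ℓ ∧ Vis lo hi ℓ ∧ Small d ℓ}, wt a (G f ℓ)

/-- Mean of the mass surrounded by the small loops. -/
noncomputable def nbP (P : Measure Cfg) (lo hi d : ℝ) (f : ℤ × ℤ → ℝ) : ℝ :=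
  ∫ ω, ∑ᶠ ℓ ∈ {ℓ | IsLoop ω ℓ ∧ Vis lo hi ℓ ∧ Small d ℓ}, G f ℓ ∂P

/-- The constant `A = 1 / (2 π (π - a))`. -/
noncomputable def cAa (a : ℝ) : ℝ := 1 / (2 * Real.pi * (Real.pi - a))

/-- Gaussian limit. -/
def G_gauss (a : ℝ) (P : Measure Cfg) : Prop := ∃ (Cm K : ℝ) (m : ℝ → ℕ → ℤ × ℤ → ℝ), 0 < Cm ∧
  (∀ r > 0, ∀ᶠ n : ℕ in atTop, Chg Cm (r * n) (m r n)) ∧
  ∀ (J : ℕ) (b r : Fin J → ℝ), (∀ j, 0 < r j) →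
    (∀ i j, r i = r j ∨ 4 * r i ≤ r j ∨ 4 * r j ≤ r i) → ∑ j, b j = 0 → ∃ q : ℝ,
      |q - cAa a * ∑ i, ∑ j, b i * b j * Real.log (max (r i) (r j))| ≤ K * (∑ j, |b j|) ^ 2 ∧
      Tendsto (fun n : ℕ => ∫ ω, Xa a (fun s => ∑ j, b j * m (r j) n s) ω ∂P) atTop
        (𝓝 (Real.exp q))

/-- Measurability of the counts. -/
def G_meas : Prop := ∀ a b : ℝ, Measurable (Nn a b)

/-- Uniform conditional bound for the absence of rings. -/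
def G_ring (P : Measure Cfg) : Prop := ∃ c C : ℝ, 0 < c ∧ ∀ x : ℝ, 0 ≤ x → ∀ r s t u : ℝ,
  1 ≤ r → 1 ≤ t → 2 * s ≤ t → t ≤ u →
    ∫⁻ ω in {ω | Nn t u ω = 0}, ENNReal.ofReal (x ^ Nn r s ω) ∂P ≤
      ENNReal.ofReal (C * (t / u) ^ c) * ∫⁻ ω, ENNReal.ofReal (x ^ Nn r s ω) ∂P

/-- Large loops. -/
def G_large (P : Measure Cfg) : Prop := ∀ κ s : ℝ, 0 < κ → ∃ C ρ0 : ℝ, ∀ ρ : ℝ, ρ0 ≤ ρ →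
  Integrable (fun ω => Real.exp (s * Kn (ρ - 2) (2 * ρ + 2) (κ * ρ) ω)) P ∧
  ∫ ω, Real.exp (s * Kn (ρ - 2) (2 * ρ + 2) (κ * ρ) ω) ∂P ≤ C

/-- A priori bound for the number of nested loops. -/
def G_mom (P : Measure Cfg) : Prop := ∀ u : ℝ, ∃ C a0 : ℝ, ∀ a b : ℝ, a0 ≤ a → 2 * a ≤ b →
  Integrable (fun ω => Real.exp (u * Nn a b ω)) P ∧ ∫ ω, Real.exp (u * Nn a b ω) ∂P ≤ (b / a) ^ C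

/-- Small loops; `κ` depends on the bounds `Cm` and `T` only. -/
def G_small (a : ℝ) (P : Measure Cfg) : Prop := ∀ Cm T : ℝ, 0 < Cm → 0 < T → ∃ κ : ℝ, 0 < κ ∧
  κ ≤ 1 / 8 ∧ ∀ s : ℝ, ∃ C ρ0 : ℝ, 0 < C ∧ ∀ ρ : ℝ, ρ0 ≤ ρ → ∀ m, Chg Cm ρ m → ∀ t : ℝ, |t| ≤ T →
    (∀ ω, 0 < Yna a (ρ - 2) (2 * ρ + 2) (κ * ρ) (fun x => t * m x) ω) ∧
    Measurable (Yna a (ρ - 2) (2 * ρ + 2) (κ * ρ) (fun x => t * m x)) ∧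
    Integrable (fun ω => Yna a (ρ - 2) (2 * ρ + 2) (κ * ρ) (fun x => t * m x) ω ^ s) P ∧
    ∫ ω, Yna a (ρ - 2) (2 * ρ + 2) (κ * ρ) (fun x => t * m x) ω ^ s ∂P ≤
      C * Real.exp (-Real.tan a * s * t * nbP P (ρ - 2) (2 * ρ + 2) (κ * ρ) m)

/-- Classification, upper bound. -/
def G_cls_up (a : ℝ) : Prop := ∀ κ Cm : ℝ, 0 < κ → κ ≤ 1 / 8 → ∃ ρ00 : ℝ, ∀ (ω : Cfg)
  (ρ b : Fin 3 → ℝ) (m : Fin 3 → ℤ × ℤ → ℝ), ρ00 ≤ ρ 0 → 4 * ρ 0 ≤ ρ 1 → 4 * ρ 1 ≤ ρ 2 →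
  (∀ j, Chg Cm (ρ j) (m j)) → ∑ j, b j = 0 →
  |Xa a (fun x => ∑ j, b j * m j x) ω| ≤
    (∏ j, |Yna a (ρ j - 2) (2 * ρ j + 2) (κ * ρ j) (fun x => b j * m j x) ω|) *
    (1 / Real.cos a) ^ (∑ j, Kn (ρ j - 2) (2 * ρ j + 2) (κ * ρ j) ω) *
    |wt a (b 0)| ^ (Nn (2 * ρ 0 + 2) (ρ 1 - 2) ω) *
    |wt a (b 0 + b 1)| ^ (Nn (2 * ρ 1 + 2) (ρ 2 - 2) ω)

/-- Classification, lower bound. -/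
def G_cls_lo (a : ℝ) : Prop := ∀ κ Cm : ℝ, 0 < κ → κ ≤ 1 / 8 → ∃ ρ00 : ℝ, ∀ (ω : Cfg)
  (ρ b : Fin 3 → ℝ) (m : Fin 3 → ℤ × ℤ → ℝ) (w₀ : ℝ), ρ00 ≤ ρ 0 → 4 * ρ 0 ≤ ρ 1 → 4 * ρ 1 ≤ ρ 2 →
  (∀ j, Chg Cm (ρ j) (m j)) → ∑ j, b j = 0 → 0 < w₀ → w₀ ≤ 1 →
  (∀ j, ∀ t ∈ Set.Icc (0 : ℝ) 1, 0 < wt a (t * b j)) →
  (∀ x ∈ Set.Icc (0 : ℝ) 1, ∀ y ∈ Set.Icc (0 : ℝ) 1, w₀ ≤ wt a (x * b 0 + y * b 1)) →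
  (∀ y ∈ Set.Icc (0 : ℝ) 1, w₀ ≤ wt a (y * b 2)) → (∀ y ∈ Set.Icc (0 : ℝ) 1, w₀ ≤ wt a (-(y * b 2))) →
  (b 2 = 0 ∨ Nn (2 * ρ 1 + 2) (ρ 2 - 2) ω ≠ 0) →
    (∏ j, Yna a (ρ j - 2) (2 * ρ j + 2) (κ * ρ j) (fun x => b j * m j x) ω) *
    w₀ ^ (∑ j, Kn (ρ j - 2) (2 * ρ j + 2) (κ * ρ j) ω) *
    wt a (b 0) ^ (Nn (2 * ρ 0 + 2) (ρ 1 - 2) ω) * wt a (b 0 + b 1) ^ (Nn (2 * ρ 1 + 2) (ρ 2 - 2) ω)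
    ≤ Xa a (fun x => ∑ j, b j * m j x) ω

/-- F1: probability that no loop separates. -/
def G_F1 (a : ℝ) (P : Measure Cfg) : Prop := ∀ η > 0, ∃ ε0 > 0, ∀ ε : ℝ, 0 < ε → ε ≤ ε0 →
  ∀ᶠ n : ℕ in atTop, |Real.log (P.real {ω | Nn (ε * n) n ω = 0}) / Real.log (1 / ε) +
    cAa a * (Real.pi ^ 2 / 4 - a ^ 2)| ≤ η

/-- F2: nesting. -/
def G_F2 (a : ℝ) (P : Measure Cfg) : Prop := ∀ u : ℝ, 0 < u → u < Real.pi / 2 → ∀ η > 0,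
  ∃ ε0 > 0, ∀ ε : ℝ, 0 < ε → ε ≤ ε0 → ∀ᶠ n : ℕ in atTop,
  |Real.log (∫ ω, (Real.cos u / Real.cos a) ^ (Nn (ε * n) n ω) ∂P) / Real.log (1 / ε) -
    cAa a * (a ^ 2 - u ^ 2)| ≤ η

/-- F3: mean number of loops. -/
def G_F3 (a : ℝ) (P : Measure Cfg) : Prop := ∀ η > 0, ∃ ε0 > 0, ∀ ε : ℝ, 0 < ε → ε ≤ ε0 →
  ∀ᶠ n : ℕ in atTop, |(∫ ω, (Nn (ε * n) n ω : ℝ) ∂P) / Real.log (1 / ε) -
    2 * a * cAa a / Real.tan a| ≤ η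

end Vale.Agent.P167.H562
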