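import Vale.Agent.P167.H45.Small3
import Vale.Agent.P167.H166.Cross

/-!
# P167: exponential moments of centred sums over the small loops, general statistics

`sml_lin`, `sml_quad`: the loops which visit a finite set `A` of squares (`A` inside a box of
radius `R ρ` around any centre) and have diameter less than `κ ρ`, summed with any weight `φ`
which is at most `α (d / ρ) ^ 2` on loops of diameter less than `d`.
-/

namespace Vale.Agent.P167.H562.SML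

open Finset Filter Topology MeasureTheory ProbabilityTheory
open Vale.Agent.P167 Vale.Agent.P167.H562 Vale.Agent.P167.H45

/-- The small loops which visit `A`. -/
def SLA (A : Finset (ℤ × ℤ)) (d : ℝ) (ω : Cfg) : Set (Finset Ed) :=
  {ℓ | IsLoop ω ℓ ∧ (∃ v ∈ vs ℓ, v ∈ A) ∧ Small d ℓ}

theorem SLA_fin (A : Finset (ℤ × ℤ)) (d : ℝ) (ω : Cfg) : (SLA A d ω).Finite :=
  (LV_fin s_two A ω).subset fun _ h => ⟨h.1, h.2.1⟩

/-- The small loops which visit `A`. -/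
noncomputable def smf (A : Finset (ℤ × ℤ)) (d : ℝ) (ω : Cfg) : Finset (Finset Ed) :=
  (SLA_fin A d ω).toFinset

theorem mem_smf {A : Finset (ℤ × ℤ)} {d : ℝ} {ω : Cfg} {ℓ : Finset Ed} :
    ℓ ∈ smf A d ω ↔ IsLoop ω ℓ ∧ (∃ v ∈ vs ℓ, v ∈ A) ∧ Small d ℓ := by
  rw [smf, Set.Finite.mem_toFinset]; rfl

/-- The squares at distance at most `d` of `A`. -/
noncomputable def fat (A : Finset (ℤ × ℤ)) (d : ℝ) : Finset (ℤ × ℤ) :=
  A.biUnion fun v => (box_fin v ⌊d⌋).choose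

theorem mem_fat {A : Finset (ℤ × ℤ)} {d : ℝ} {u v : ℤ × ℤ} (hv : v ∈ A)
    (h : (nm (u - v) : ℝ) ≤ d) : u ∈ fat A d := by
  rw [fat, Finset.mem_biUnion]
  exact ⟨v, hv, ((box_fin v ⌊d⌋).choose_spec u).2 (Int.le_floor.2 h)⟩

theorem smf_loc' (A : Finset (ℤ × ℤ)) (d : ℝ) {ω ω' : Cfg} (hw : ∀ v ∈ fat A d, ω v = ω' v) :
    smf A d ω = smf A d ω' := by
  have key : ∀ ω ω' : Cfg, (∀ v ∈ fat A d, ω v = ω' v) → smf A d ω ⊆ smf A d ω' := by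
    intro ω ω' hw ℓ hℓ
    rw [mem_smf] at hℓ ⊢
    obtain ⟨h1, ⟨u, hu, h2⟩, h4⟩ := hℓ
    exact ⟨s_loc ω ω' ℓ h1 (fun v hv => hw v (mem_fat h2 (h4 v hv u hu).le)), ⟨u, hu, h2⟩, h4⟩
  exact Finset.Subset.antisymm (key ω ω' hw) (key ω' ω fun v hv => (hw v hv).symm)

/-- A bounded statistic. -/
def Bd (κ ρ α : ℝ) (φ : Finset Ed → ℝ) : Prop :=
  ∀ (ω : Cfg) (ℓ : Finset Ed) (d : ℝ), IsLoop ω ℓ → d ≤ κ * ρ → Small d ℓ →
    |φ ℓ| ≤ α * (d / ρ) ^ 2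

open Classical in
/-- The part of the sum of `φ` over the small loops, for one scale and one box. -/
noncomputable def YY (A : Finset (ℤ × ℤ)) (x : ℝ) (φ : Finset Ed → ℝ) (j : ℕ) (z : ℤ × ℤ)
    (ω : Cfg) : ℝ :=
  ∑ ℓ ∈ (smf A x ω).filter (fun ℓ => cl x ℓ = j ∧ zz ⌈x / 2 ^ j⌉ ℓ = z), φ ℓ

theorem scale_of {A : Finset (ℤ × ℤ)} {x : ℝ} {J : ℕ} (hJ : x / 2 ^ J ≤ 1) {ω : Cfg}
    {ℓ : Finset Ed} (hℓ : ℓ ∈ smf A x ω) : cl x ℓ < J ∧ Small (x / 2 ^ (cl x ℓ)) ℓ ∧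
      ¬ Small (x / 2 ^ (cl x ℓ + 1)) ℓ := by
  rw [mem_smf] at hℓ
  exact cl_spec hℓ.2.2 (not_small_one s_con hℓ.1 hJ (two_squares hℓ.1))

theorem YY_loc {A : Finset (ℤ × ℤ)} {x : ℝ} {J : ℕ} (hJ : x / 2 ^ J ≤ 1) (φ : Finset Ed → ℝ)
    (j : ℕ) (z : ℤ × ℤ) : LocFun (Bq ⌈x / 2 ^ j⌉ z) (YY A x φ j z) := by
  classical
  intro ω ω' hw
  have key : ∀ ω ω' : Cfg, (∀ v ∈ Bq ⌈x / 2 ^ j⌉ z, ω v = ω' v) →
      (smf A x ω).filter (fun ℓ => cl x ℓ = j ∧ zz ⌈x / 2 ^ j⌉ ℓ = z) ⊆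
      (smf A x ω').filter (fun ℓ => cl x ℓ = j ∧ zz ⌈x / 2 ^ j⌉ ℓ = z) := by
    intro ω ω' hw ℓ hℓ
    rw [Finset.mem_filter] at hℓ ⊢
    obtain ⟨h1, h2, h3⟩ := hℓ
    refine ⟨?_, h2, h3⟩
    have h4 := (scale_of hJ h1).2.1
    rw [mem_smf] at h1 ⊢
    rw [h2] at h4
    refine ⟨s_loc ω ω' ℓ h1.1 (fun v hv => hw v ?_), h1.2⟩
    rw [← h3]
    exact box_of_small h4 hv
  unfold YY
  rw [Finset.Subset.antisymm (key ω ω' hw) (key ω' ω fun v hv => (hw v hv).symm)]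

/-- Bound of one term by the number of loops of the scale. -/
theorem YY_le {A : Finset (ℤ × ℤ)} {x : ℝ} {J : ℕ} (hJ : x / 2 ^ J ≤ 1) {φ : Finset Ed → ℝ}
    {j : ℕ} (hj : 1 ≤ x / 2 ^ j) (z : ℤ × ℤ) (ω : Cfg) {a : ℝ} (ha : 0 ≤ a)
    (hφ : ∀ ℓ, IsLoop ω ℓ → Small (x / 2 ^ j) ℓ → |φ ℓ| ≤ a) :
    |YY A x φ j z ω| ≤ a * ((BL (gp ⌈x / 2 ^ j⌉ z) (2 * (⌈x / 2 ^ j⌉ : ℝ))
      (1 / 8 * (2 * (⌈x / 2 ^ j⌉ : ℝ))) ω).ncard : ℝ) := by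
  classical
  set L : ℤ := ⌈x / 2 ^ j⌉ with hL
  have hL0 : 0 < L := Int.ceil_pos.2 (by linarith)
  set F := (smf A x ω).filter (fun ℓ => cl x ℓ = j ∧ zz L ℓ = z) with hF
  have h1 : ∀ ℓ ∈ F, IsLoop ω ℓ ∧ Small (x / 2 ^ j) ℓ ∧ ¬ Small (x / 2 ^ (j + 1)) ℓ ∧
      zz L ℓ = z := by
    intro ℓ hℓ
    rw [hF, Finset.mem_filter] at hℓ
    have h2 := scale_of hJ hℓ.1
    rw [hℓ.2.1] at h2
    exact ⟨(mem_smf.1 hℓ.1).1, h2.2.1, h2.2.2, hℓ.2.2⟩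
  have h2 : |YY A x φ j z ω| ≤ F.card * a := by
    unfold YY
    rw [← hL, ← hF]
    refine (Finset.abs_sum_le_sum_abs _ _).trans ?_
    calc ∑ ℓ ∈ F, |φ ℓ| ≤ ∑ _ℓ ∈ F, a := Finset.sum_le_sum fun ℓ hℓ => hφ ℓ (h1 ℓ hℓ).1 (h1 ℓ hℓ).2.1
      _ = _ := by rw [Finset.sum_const, nsmul_eq_mul]
  have h3 : F.card ≤ (BL (gp L z) (2 * (L : ℝ)) (1 / 8 * (2 * (L : ℝ))) ω).ncard := by
    rw [← Set.ncard_coe_finset]
    refine Set.ncard_le_ncard ?_ (BL_fin s_two _ _ _ ω)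
    intro ℓ hℓ
    obtain ⟨g1, g2, g3, g4⟩ := h1 ℓ (Finset.mem_coe.1 hℓ)
    refine ⟨g1, ?_, fun hs => g3 (Small.mono ?_ hs)⟩
    · obtain ⟨v, hv⟩ := vs_nonempty g1
      refine ⟨v, hv, ?_⟩
      have h5 := box_of_small g2 hv
      rw [← hL, g4] at h5
      obtain ⟨b1, b2, b3, b4⟩ := h5
      have h6 : nm (v - gp L z) ≤ 2 * L := by
        rw [nm_le]
        simp only [gp, Prod.fst_sub, Prod.snd_sub, abs_le]
        refine ⟨⟨?_, ?_⟩, ?_, ?_⟩ <;> linarith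
      exact_mod_cast h6
    · have h5 : (L : ℝ) ≤ 2 * (x / 2 ^ j) := by
        have := Int.ceil_lt_add_one (x / 2 ^ j)
        rw [← hL] at this
        linarith
      have h6 : x / 2 ^ (j + 1) = x / 2 ^ j / 2 := by rw [pow_succ]; field_simp
      rw [h6]; linarith
  calc |YY A x φ j z ω| ≤ F.card * a := h2
    _ ≤ ((BL (gp L z) (2 * (L : ℝ)) (1 / 8 * (2 * (L : ℝ))) ω).ncard : ℝ) * a :=
        mul_le_mul_of_nonneg_right (by exact_mod_cast h3) ha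
    _ = _ := by ring

/-- The constant in the number of the boxes. -/
noncomputable def bet (R κ : ℝ) : ℝ := ((2 * R + 2 * κ) / κ + 8) ^ 2

/-- The boxes of scale `j` which matter, and their number. -/
theorem grid_scale {R κ ρ : ℝ} (hR : 0 ≤ R) (hκ : 0 < κ) (hρ : 1 ≤ ρ) (x : ℤ × ℤ)
    (A : Finset (ℤ × ℤ)) (hA : ∀ v ∈ A, (nm (v - x) : ℝ) ≤ R * ρ) :
    ∃ Ig : ℕ → Finset (ℤ × ℤ),
    ∀ j : ℕ, 1 ≤ κ * ρ / 2 ^ j → ((Ig j).card : ℝ) ≤ bet R κ * 4 ^ j ∧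
      ∀ ω, ∀ ℓ ∈ smf A (κ * ρ) ω, zz ⌈κ * ρ / 2 ^ j⌉ ℓ ∈ Ig j := by
  classical
  have hex : ∀ j : ℕ, ∃ I : Finset (ℤ × ℤ), 1 ≤ κ * ρ / 2 ^ j →
      (I.card : ℝ) ≤ bet R κ * 4 ^ j ∧
      ∀ ω, ∀ ℓ ∈ smf A (κ * ρ) ω, zz ⌈κ * ρ / 2 ^ j⌉ ℓ ∈ I := by
    intro j
    by_cases hj : 1 ≤ κ * ρ / 2 ^ j
    · set y : ℝ := κ * ρ / 2 ^ j with hy
      set L : ℤ := ⌈y⌉ with hL
      have hρ0 : 0 < ρ := by linarith
      have hL1 : 1 ≤ L := Int.one_le_ceil_iff.2 (by linarith)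
      have hyL : y ≤ L := Int.le_ceil y
      have hLy : (L : ℝ) ≤ 2 * y := by
        have := Int.ceil_lt_add_one y
        rw [← hL] at this
        linarith
      have hRρ : 0 ≤ R * ρ := mul_nonneg hR hρ0.le
      have hκρ : 0 ≤ κ * ρ := mul_nonneg hκ.le hρ0.le
      set P : ℤ := ⌈R * ρ⌉ + ⌈κ * ρ⌉ + L with hP
      have hP0 : 0 ≤ P := by
        have h1 : 0 ≤ ⌈R * ρ⌉ := Int.ceil_nonneg hRρ
        have h2 : 0 ≤ ⌈κ * ρ⌉ := Int.ceil_nonneg hκρ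
        omega
      obtain ⟨I, hI1, hI2⟩ := grid_fin x hL1 hP0
      refine ⟨I, fun _ => ⟨?_, ?_⟩⟩
      · have h1 : ((I.card : ℤ) : ℝ) ≤ ((2 * P / L + 2 : ℤ) : ℝ) ^ 2 := by exact_mod_cast hI2
        have h2 : ((2 * P / L : ℤ) : ℝ) ≤ 2 * P / L := by
          have hLR : (0 : ℝ) < L := by exact_mod_cast (by omega : 0 < L)
          rw [le_div_iff₀ hLR]
          exact_mod_cast Int.ediv_mul_le (2 * P) (by omega : L ≠ 0)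
        have h3 : (P : ℝ) ≤ R * ρ + 1 + (κ * ρ + 1) + L := by
          rw [hP]; push_cast
          linarith [Int.ceil_lt_add_one (R * ρ), Int.ceil_lt_add_one (κ * ρ)]
        have hLR : (0 : ℝ) < L := by exact_mod_cast (by omega : 0 < L)
        have hy0 : 0 < y := by linarith
        have h4 : (2 * P : ℝ) / L ≤ (2 * R + 2 * κ) * (ρ / y) + 6 := by
          rw [div_le_iff₀ hLR]
          have h5 : (2 * R + 2 * κ) * ρ ≤ (2 * R + 2 * κ) * (ρ / y) * L := by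
            rw [mul_assoc]
            refine mul_le_mul_of_nonneg_left ?_ (by positivity)
            rw [div_mul_eq_mul_div, le_div_iff₀ hy0]
            exact mul_le_mul_of_nonneg_left hyL hρ0.le
          nlinarith
        have h5 : ρ / y = 2 ^ j / κ := by
          rw [hy]; field_simp
        have h2j : (1 : ℝ) ≤ 2 ^ j := one_le_pow₀ (by norm_num)
        have h7 : ((2 * P / L + 2 : ℤ) : ℝ) ≤ ((2 * R + 2 * κ) / κ + 8) * 2 ^ j := by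
          push_cast
          have e4 : (2 * R + 2 * κ) * (2 ^ j / κ) = (2 * R + 2 * κ) / κ * 2 ^ j := by
            field_simp
          rw [h5, e4] at h4
          nlinarith
        have h8 : (0 : ℝ) ≤ ((2 * P / L + 2 : ℤ) : ℝ) := by
          have : 0 ≤ 2 * P / L := Int.ediv_nonneg (by omega) (by omega)
          exact_mod_cast (by omega : (0 : ℤ) ≤ 2 * P / L + 2)
        have h9 : ((I.card : ℤ) : ℝ) = (I.card : ℝ) := by norm_cast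
        rw [h9] at h1
        calc (I.card : ℝ) ≤ ((2 * P / L + 2 : ℤ) : ℝ) ^ 2 := h1
          _ ≤ (((2 * R + 2 * κ) / κ + 8) * 2 ^ j) ^ 2 := pow_le_pow_left₀ h8 h7 2
          _ = bet R κ * 4 ^ j := by
              have : (4 : ℝ) ^ j = (2 ^ j) ^ 2 := by
                rw [← pow_mul, mul_comm, pow_mul]; norm_num
              rw [this, bet]; ring
      · intro ω ℓ hℓ
        rw [mem_smf] at hℓ
        obtain ⟨g1, ⟨u, hu, g2⟩, g3⟩ := hℓ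
        apply hI1
        obtain ⟨b1, b2, b3, b4⟩ := zz_box (by omega : 0 < L) ℓ
        obtain ⟨c1, c2⟩ := small_box g3 hu
        obtain ⟨e1, e2⟩ := bs_le hu
        have f1 : nm (u - x) ≤ ⌈R * ρ⌉ := by
          have : (nm (u - x) : ℝ) ≤ ⌈R * ρ⌉ := (hA u g2).trans (Int.le_ceil _)
          exact_mod_cast this
        have c1' : u.1 - (bs ℓ).1 < ⌈κ * ρ⌉ := Int.lt_ceil.2 c1
        have c2' : u.2 - (bs ℓ).2 < ⌈κ * ρ⌉ := Int.lt_ceil.2 c2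
        rw [nm_le] at f1 ⊢
        simp only [Prod.fst_sub, Prod.snd_sub, abs_le] at f1
        simp only [gp, Prod.fst_sub, Prod.snd_sub, abs_le]
        obtain ⟨⟨k1, k2⟩, k3, k4⟩ := f1
        refine ⟨⟨?_, ?_⟩, ?_, ?_⟩ <;> rw [hP] <;> linarith
    · exact ⟨∅, fun h => absurd h hj⟩
  choose Ig hIg using hex
  exact ⟨Ig, hIg⟩

/-- The decomposition. -/
theorem decomp {A : Finset (ℤ × ℤ)} {x : ℝ} {J : ℕ} (hJ : x / 2 ^ J ≤ 1)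
    (hJ' : ∀ j < J, 1 ≤ x / 2 ^ j) {Ig : ℕ → Finset (ℤ × ℤ)}
    (hIg : ∀ j, 1 ≤ x / 2 ^ j → ∀ ω, ∀ ℓ ∈ smf A x ω, zz ⌈x / 2 ^ j⌉ ℓ ∈ Ig j)
    (φ : Finset Ed → ℝ) (ω : Cfg) :
    ∑ ℓ ∈ smf A x ω, φ ℓ = ∑ j ∈ Finset.range J, ∑ z ∈ Ig j, YY A x φ j z ω := by
  classical
  have h1 : ∑ ℓ ∈ smf A x ω, φ ℓ =
      ∑ j ∈ Finset.range J, ∑ ℓ ∈ (smf A x ω).filter (fun ℓ => cl x ℓ = j), φ ℓ := by
    rw [Finset.sum_fiberwise_of_maps_to]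
    intro ℓ hℓ
    exact Finset.mem_range.2 (scale_of hJ hℓ).1
  rw [h1]
  refine Finset.sum_congr rfl fun j hj => ?_
  unfold YY
  have h2 : ∑ ℓ ∈ (smf A x ω).filter (fun ℓ => cl x ℓ = j), φ ℓ =
      ∑ z ∈ Ig j, ∑ ℓ ∈ ((smf A x ω).filter (fun ℓ => cl x ℓ = j)).filter
        (fun ℓ => zz ⌈x / 2 ^ j⌉ ℓ = z), φ ℓ := by
    rw [Finset.sum_fiberwise_of_maps_to]
    intro ℓ hℓ
    exact hIg j (hJ' j (Finset.mem_range.1 hj)) ω ℓ (Finset.mem_filter.1 hℓ).1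
  rw [h2]
  refine Finset.sum_congr rfl fun z _ => ?_
  rw [Finset.filter_filter]

theorem bet_nonneg (R κ : ℝ) : 0 ≤ bet R κ := sq_nonneg _

theorem exists_J {κ ρ : ℝ} (hκ : 0 < κ) (hρ : 1 ≤ ρ) : ∃ J : ℕ, κ * ρ / 2 ^ J ≤ 1 ∧
    ∀ j < J, 1 ≤ κ * ρ / 2 ^ j := by
  classical
  have hex : ∃ J : ℕ, κ * ρ / 2 ^ J ≤ 1 := by
    obtain ⟨J, hJ⟩ := pow_unbounded_of_one_lt (κ * ρ) (by norm_num : (1 : ℝ) < 2)
    exact ⟨J, by rw [div_le_one (by positivity)]; exact hJ.le⟩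
  exact ⟨Nat.find hex, Nat.find_spec hex, fun j hj => (not_le.1 (Nat.find_min hex hj)).le⟩

theorem Bd.at {κ ρ α : ℝ} {φ : Finset Ed → ℝ} (h : Bd κ ρ α φ) (hκ : 0 < κ) (hρ : 1 ≤ ρ) (j : ℕ)
    {ω : Cfg} {ℓ : Finset Ed} (h1 : IsLoop ω ℓ) (h2 : Small (κ * ρ / 2 ^ j) ℓ) :
    |φ ℓ| ≤ α * κ ^ 2 * (1 / 4) ^ j := by
  have hρ0 : 0 < ρ := by linarith
  have h3 : κ * ρ / 2 ^ j ≤ κ * ρ := div_le_self (by positivity) (one_le_pow₀ (by norm_num))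
  refine (h ω ℓ _ h1 h3 h2).trans (le_of_eq ?_)
  have : ((1 : ℝ) / 4) ^ j = 1 / (2 ^ j) ^ 2 := by
    rw [← pow_mul, mul_comm j 2, pow_mul, one_div, inv_pow]; norm_num
  rw [this]; field_simp

/-- **Linear statistics of the small loops.** -/
theorem sml_lin' (hX : S_crossL) {R κ T : ℝ} (hR : 0 ≤ R) (hκ : 0 < κ) : ∃ C : ℝ, 0 ≤ C ∧
    ∀ ρ : ℝ, 1 ≤ ρ → ∀ (x : ℤ × ℤ) (A : Finset (ℤ × ℤ)), (∀ v ∈ A, (nm (v - x) : ℝ) ≤ R * ρ) →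
    ∀ (φ : Finset Ed → ℝ) (α : ℝ), 0 ≤ α → Bd κ ρ α φ → ∀ t : ℝ, |t| * α ≤ T →
      Em μ (fun ω => t * (∑ ℓ ∈ smf A (κ * ρ) ω, φ ℓ -
        ∫ ω', ∑ ℓ ∈ smf A (κ * ρ) ω', φ ℓ ∂μ)) ≤
        ENNReal.ofReal (Real.exp (C * α ^ 2 * t ^ 2)) := by
  classical
  set s1 : ℝ := 8 * κ ^ 2 * |T| with hs1
  have hs0 : 0 ≤ s1 := by positivity
  obtain ⟨C, hC⟩ := large_gen hX s_con s_two (1 / 8) (s1 + 1) (by norm_num)
  set M : ℝ := max C 0 with hM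
  have hM0 : 0 ≤ M := le_max_right _ _
  refine ⟨8 * M * Real.exp ((s1 + 1) * M) * (4 : ℕ) ^ 2 * (κ ^ 2) ^ 2 * |bet R κ|, by positivity,
    fun ρ hρ x A hA φ α hα0 hφ t ht => ?_⟩
  have hρ0 : 0 < ρ := by linarith
  obtain ⟨Ig, hIg⟩ := grid_scale hR hκ hρ x A hA
  obtain ⟨J, hJ, hJ'⟩ := exists_J hκ hρ
  have hmain := multiscale (μ := μ) J 4 (by norm_num)
    (fun j k => (Ig j).filter (fun z => code z = k))
    (X := fun j z ω => YY A (κ * ρ) φ j z ω)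
    (K := fun j z ω => ((BL (gp ⌈κ * ρ / 2 ^ j⌉ z) (2 * (⌈κ * ρ / 2 ^ j⌉ : ℝ))
      (1 / 8 * (2 * (⌈κ * ρ / 2 ^ j⌉ : ℝ))) ω).ncard : ℝ))
    (fun j _ k z _ => by
      obtain ⟨F, hF⟩ := Bq_fin ⌈κ * ρ / 2 ^ j⌉ z
      exact meas_locfun F fun ω ω' hw => YY_loc hJ φ j z ω ω' fun v hv => hw v (hF v hv))
    (fun j _ k z _ => BL_measR _ _ _)
    (fun j _ k => by
      refine iIndepFun_of_local iInd
        (S := fun z : ((Ig j).filter (fun z => code z = k) : Finset (ℤ × ℤ)) =>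
          Bq ⌈κ * ρ / 2 ^ j⌉ (z : ℤ × ℤ)) ?_ (fun z => ?_) (fun z => YY_loc hJ φ j z)
      · intro z z' hzz
        have h1 : code (z : ℤ × ℤ) = k := (Finset.mem_filter.1 z.2).2
        have h2 : code (z' : ℤ × ℤ) = k := (Finset.mem_filter.1 z'.2).2
        obtain ⟨h3, h4⟩ := code_eq (h1.trans h2.symm)
        exact Bq_disj (fun h => hzz (Subtype.ext h)) h3 h4
      · obtain ⟨F, hF⟩ := Bq_fin ⌈κ * ρ / 2 ^ j⌉ (z : ℤ × ℤ)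
        exact meas_locfun F fun ω ω' hw => YY_loc hJ φ j z ω ω' fun v hv => hw v (hF v hv))
    (α := α * κ ^ 2) (β := bet R κ) (s := s1) (t := t) (M := M) (by positivity) hs0 hM0
    (fun j _ k z _ ω => by positivity)
    (fun j hj k z _ ω => YY_le hJ (hJ' j hj) z ω (by positivity)
      (fun ℓ h1 h2 => hφ.at hκ hρ j h1 h2))
    (fun j hj k => by
      refine le_trans ?_ (hIg j (hJ' j hj)).1
      exact_mod_cast Finset.card_filter_le _ _)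
    (by
      rw [hs1]
      have h1 : |t| * α ≤ |T| := ht.trans (le_abs_self T)
      have h2 : κ ^ 2 * (|t| * α) ≤ κ ^ 2 * |T| := mul_le_mul_of_nonneg_left h1 (sq_nonneg _)
      push_cast
      nlinarith)
    (fun j hj k z _ => by
      refine (hC _ (2 * (⌈κ * ρ / 2 ^ j⌉ : ℝ)) ?_).trans (ENNReal.ofReal_le_ofReal (le_max_left _ _))
      have : (1 : ℝ) ≤ ⌈κ * ρ / 2 ^ j⌉ := (hJ' j hj).trans (Int.le_ceil _)
      linarith)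
  have hint : ∀ j z, Integrable (fun ω => YY A (κ * ρ) φ j z ω) μ := by
    intro j z
    obtain ⟨F, hF⟩ := Bq_fin ⌈κ * ρ / 2 ^ j⌉ z
    exact loc_int F fun ω ω' hw => YY_loc hJ φ j z ω ω' fun v hv => hw v (hF v hv)
  have hdec := fun ω => decomp hJ hJ' (fun j hj => (hIg j hj).2) φ ω
  have hI : ∫ ω', ∑ ℓ ∈ smf A (κ * ρ) ω', φ ℓ ∂μ =
      ∑ j ∈ Finset.range J, ∑ z ∈ Ig j, ∫ ω', YY A (κ * ρ) φ j z ω' ∂μ := by
    simp only [hdec]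
    rw [integral_finsetSum _ fun j _ => integrable_finsetSum _ fun z _ => hint j z]
    refine Finset.sum_congr rfl fun j _ => ?_
    rw [integral_finsetSum _ fun z _ => hint j z]
  have heq : (fun ω => t * (∑ ℓ ∈ smf A (κ * ρ) ω, φ ℓ -
      ∫ ω', ∑ ℓ ∈ smf A (κ * ρ) ω', φ ℓ ∂μ)) =
      fun ω => t * ∑ j ∈ Finset.range J, ∑ k : Fin 4, ∑ i ∈ (Ig j).filter (fun z => code z = k),
        (YY A (κ * ρ) φ j i ω - ∫ x, YY A (κ * ρ) φ j i x ∂μ) := by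
    ext ω
    congr 1
    rw [hI, hdec, ← Finset.sum_sub_distrib]
    refine Finset.sum_congr rfl fun j _ => ?_
    rw [← Finset.sum_sub_distrib]
    exact (Finset.sum_fiberwise (Ig j) code _).symm
  rw [heq]
  refine hmain.trans (ENNReal.ofReal_le_ofReal (Real.exp_le_exp.2 (le_of_eq ?_)))
  push_cast
  ring

/-- **Quadratic statistics of the small loops.** -/
theorem sml_quad' (hX : S_crossL) {R κ T : ℝ} (hR : 0 ≤ R) (hκ : 0 < κ) : ∃ C : ℝ, 0 ≤ C ∧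
    ∀ ρ : ℝ, 1 ≤ ρ → ∀ (x : ℤ × ℤ) (A : Finset (ℤ × ℤ)), (∀ v ∈ A, (nm (v - x) : ℝ) ≤ R * ρ) →
    ∀ (φ : Finset Ed → ℝ) (α : ℝ), 0 ≤ α → Bd κ ρ α φ → ∀ lam : ℝ, 0 ≤ lam → lam * α ^ 2 ≤ T →
      Em μ (fun ω => lam * ∑ ℓ ∈ smf A (κ * ρ) ω, (φ ℓ) ^ 2) ≤
        ENNReal.ofReal (Real.exp (C * (lam * α ^ 2))) := by
  classical
  set T' : ℝ := |T| + 1 with hT'
  have hT0 : 0 < T' := by positivity
  set β : ℝ := bet R κ + 1 with hβ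
  have hβ0 : 0 < β := by linarith [bet_nonneg R κ]
  obtain ⟨C, hC⟩ := large_gen hX s_con s_two (1 / 8) (2 * β * T' * (κ ^ 2) ^ 2) (by norm_num)
  set M : ℝ := max C 1 with hM
  have hM1 : 1 ≤ M := le_max_right _ _
  have hlogM : 0 ≤ Real.log M := Real.log_nonneg hM1
  refine ⟨Real.log M / T', by positivity, fun ρ hρ x A hA φ α hα0 hφ lam hlam0 hlam => ?_⟩
  have hρ0 : 0 < ρ := by linarith
  obtain ⟨Ig, hIg⟩ := grid_scale hR hκ hρ x A hA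
  obtain ⟨J, hJ, hJ'⟩ := exists_J hκ hρ
  set u : ℝ := lam * α ^ 2 with hu
  have hu0 : 0 ≤ u := by positivity
  have huT : u ≤ T' := by rw [hT']; linarith [le_abs_self T]
  -- bound of the square
  have hGb : ∀ j : ℕ, ∀ ω ℓ, IsLoop ω ℓ → Small (κ * ρ / 2 ^ j) ℓ →
      |(φ ℓ) ^ 2| ≤ (α * κ ^ 2 * (1 / 4) ^ j) ^ 2 := by
    intro j ω ℓ h1 h2
    rw [abs_of_nonneg (sq_nonneg _), ← sq_abs (φ ℓ)]
    exact pow_le_pow_left₀ (abs_nonneg _) (hφ.at hκ hρ j h1 h2) 2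
  rcases hu0.eq_or_lt with hu1 | hu1
  · -- everything vanishes
    have h0 : ∀ ω, lam * ∑ ℓ ∈ smf A (κ * ρ) ω, (φ ℓ) ^ 2 ≤ 0 := by
      intro ω
      rw [Finset.mul_sum]
      refine Finset.sum_nonpos fun ℓ hℓ => ?_
      rw [mem_smf] at hℓ
      have h1 := hGb 0 ω ℓ hℓ.1 (by simpa using hℓ.2.2)
      rw [abs_of_nonneg (sq_nonneg _)] at h1
      calc lam * (φ ℓ) ^ 2 ≤ lam * (α * κ ^ 2 * (1 / 4) ^ 0) ^ 2 :=
            mul_le_mul_of_nonneg_left h1 hlam0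
        _ = u * (κ ^ 2) ^ 2 := by rw [hu]; ring
        _ = 0 := by rw [← hu1]; ring
    refine (Em_mono h0).trans ?_
    unfold Em
    rw [← hu1]
    simp
  let K : ℕ → ℤ × ℤ → Cfg → ℝ := fun j z ω => ((BL (gp ⌈κ * ρ / 2 ^ j⌉ z)
    (2 * (⌈κ * ρ / 2 ^ j⌉ : ℝ)) (1 / 8 * (2 * (⌈κ * ρ / 2 ^ j⌉ : ℝ))) ω).ncard : ℝ)
  have hKm : ∀ j z, Measurable (K j z) := fun j z => BL_measR _ _ _
  let I : Finset (Σ _ : ℕ, ℤ × ℤ) := (Finset.range J).sigma Ig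
  let θ : (Σ _ : ℕ, ℤ × ℤ) → ℝ := fun p => (1 / 2) ^ (p.1 + 1) * (1 / 4) ^ p.1 / β * (u / T')
  have hθ : ∀ p, 0 < θ p := fun p => by positivity
  have hsum : ∑ p ∈ I, θ p ≤ u / T' := by
    rw [Finset.sum_sigma]
    calc ∑ j ∈ Finset.range J, ∑ z ∈ Ig j, θ ⟨j, z⟩
        ≤ ∑ j ∈ Finset.range J, ((1 : ℝ) / 2) ^ (j + 1) * (u / T') := by
          refine Finset.sum_le_sum fun j hj => ?_
          simp only [θ, Finset.sum_const, nsmul_eq_mul]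
          have h1 := (hIg j (hJ' j (Finset.mem_range.1 hj))).1
          have h2 : ((Ig j).card : ℝ) ≤ β * 4 ^ j := h1.trans
            (mul_le_mul_of_nonneg_right (by linarith) (by positivity))
          calc ((Ig j).card : ℝ) * ((1 / 2) ^ (j + 1) * (1 / 4) ^ j / β * (u / T'))
              ≤ (β * 4 ^ j) * ((1 / 2) ^ (j + 1) * (1 / 4) ^ j / β * (u / T')) :=
                mul_le_mul_of_nonneg_right h2 (by positivity)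
            _ = (1 / 2) ^ (j + 1) * ((4 : ℝ) ^ j * (1 / 4) ^ j) * (u / T') := by field_simp
            _ = (1 / 2) ^ (j + 1) * (u / T') := by rw [← mul_pow]; norm_num
      _ ≤ 1 * (u / T') := by
          rw [← Finset.sum_mul]
          exact mul_le_mul_of_nonneg_right (geom_half J) (by positivity)
      _ = u / T' := one_mul _
  have hsum1 : ∑ p ∈ I, θ p ≤ 1 := hsum.trans ((div_le_one hT0).2 huT)
  have hB : ∀ p ∈ I, Em μ (fun ω => (θ p)⁻¹ *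
      (lam * ((α * κ ^ 2 * (1 / 4) ^ p.1) ^ 2 * K p.1 p.2 ω))) ≤
      ENNReal.ofReal (Real.exp (Real.log M)) := by
    rintro ⟨j, z⟩ hp
    have hj : j < J := Finset.mem_range.1 (Finset.mem_sigma.1 hp).1
    have h1 : (1 : ℝ) ≤ ⌈κ * ρ / 2 ^ j⌉ := (hJ' j hj).trans (Int.le_ceil _)
    have h2 := hC (gp ⌈κ * ρ / 2 ^ j⌉ z) (2 * (⌈κ * ρ / 2 ^ j⌉ : ℝ)) (by linarith)
    rw [Real.exp_log (by linarith)]
    refine le_trans (Em_mono fun ω => ?_) (h2.trans (ENNReal.ofReal_le_ofReal (le_max_left _ _)))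
    have hK0 : 0 ≤ K j z ω := by simp only [K]; positivity
    have e1 : (θ ⟨j, z⟩)⁻¹ * (lam * ((α * κ ^ 2 * (1 / 4) ^ j) ^ 2 * K j z ω)) =
        (2 * β * T' * (κ ^ 2) ^ 2) * ((1 / 2) ^ j * K j z ω) := by
      simp only [θ]
      have e2 : ((1 : ℝ) / 4) ^ j = (1 / 2) ^ j * (1 / 2) ^ j := by rw [← mul_pow]; norm_num
      have e3 : ((1 : ℝ) / 2) ^ j ≠ 0 := by positivity
      have e4 : lam * ((α * κ ^ 2 * (1 / 4) ^ j) ^ 2 * K j z ω) =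
          u * ((κ ^ 2 * (1 / 4) ^ j) ^ 2 * K j z ω) := by rw [hu]; ring
      rw [e4, e2, pow_succ]
      field_simp
    show (θ ⟨j, z⟩)⁻¹ * (lam * ((α * κ ^ 2 * (1 / 4) ^ j) ^ 2 * K j z ω)) ≤ _
    rw [e1]
    have h3 : ((1 : ℝ) / 2) ^ j * K j z ω ≤ 1 * K j z ω :=
      mul_le_mul_of_nonneg_right (pow_le_one₀ (by norm_num) (by norm_num)) hK0
    rw [one_mul] at h3
    exact mul_le_mul_of_nonneg_left h3 (by positivity)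
  have hfin := Em_holder (μ := μ) I
    (Y := fun p ω => lam * ((α * κ ^ 2 * (1 / 4) ^ p.1) ^ 2 * K p.1 p.2 ω))
    (fun p _ => ((hKm p.1 p.2).const_mul _).const_mul _) (fun p _ => hθ p) hsum1 hB
  have hle : ∀ ω, lam * ∑ ℓ ∈ smf A (κ * ρ) ω, (φ ℓ) ^ 2 ≤
      ∑ p ∈ I, lam * ((α * κ ^ 2 * (1 / 4) ^ p.1) ^ 2 * K p.1 p.2 ω) := by
    intro ω
    rw [decomp hJ hJ' (fun j hj => (hIg j hj).2) (fun ℓ => (φ ℓ) ^ 2) ω, ← Finset.mul_sum,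
      Finset.sum_sigma]
    refine mul_le_mul_of_nonneg_left (Finset.sum_le_sum fun j hj => Finset.sum_le_sum fun z _ => ?_)
      hlam0
    exact (le_abs_self _).trans (YY_le hJ (hJ' j (Finset.mem_range.1 hj)) z ω (by positivity)
      (fun ℓ h1 h2 => hGb j ω ℓ h1 h2))
  refine (Em_mono hle).trans (hfin.trans (ENNReal.ofReal_le_ofReal (Real.exp_le_exp.2 ?_)))
  rw [← Finset.sum_mul]
  calc (∑ p ∈ I, θ p) * Real.log M ≤ u / T' * Real.log M :=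
        mul_le_mul_of_nonneg_right hsum hlogM
    _ = Real.log M / T' * u := by ring

theorem crossL : S_crossL := H166.crossL s_nx s_jump s_step s_two

/-- **Linear statistics of the small loops.** -/
theorem sml_lin {R κ : ℝ} (T : ℝ) (hR : 0 ≤ R) (hκ : 0 < κ) : ∃ C : ℝ, 0 ≤ C ∧
    ∀ ρ : ℝ, 1 ≤ ρ → ∀ (x : ℤ × ℤ) (A : Finset (ℤ × ℤ)), (∀ v ∈ A, (nm (v - x) : ℝ) ≤ R * ρ) →
    ∀ (φ : Finset Ed → ℝ) (α : ℝ), 0 ≤ α → Bd κ ρ α φ → ∀ t : ℝ, |t| * α ≤ T →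
      Em μ (fun ω => t * (∑ ℓ ∈ smf A (κ * ρ) ω, φ ℓ -
        ∫ ω', ∑ ℓ ∈ smf A (κ * ρ) ω', φ ℓ ∂μ)) ≤
        ENNReal.ofReal (Real.exp (C * α ^ 2 * t ^ 2)) :=
  sml_lin' crossL hR hκ

/-- **Quadratic statistics of the small loops.** -/
theorem sml_quad {R κ : ℝ} (T : ℝ) (hR : 0 ≤ R) (hκ : 0 < κ) : ∃ C : ℝ, 0 ≤ C ∧
    ∀ ρ : ℝ, 1 ≤ ρ → ∀ (x : ℤ × ℤ) (A : Finset (ℤ × ℤ)), (∀ v ∈ A, (nm (v - x) : ℝ) ≤ R * ρ) →
    ∀ (φ : Finset Ed → ℝ) (α : ℝ), 0 ≤ α → Bd κ ρ α φ → ∀ lam : ℝ, 0 ≤ lam → lam * α ^ 2 ≤ T →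
      Em μ (fun ω => lam * ∑ ℓ ∈ smf A (κ * ρ) ω, (φ ℓ) ^ 2) ≤
        ENNReal.ofReal (Real.exp (C * (lam * α ^ 2))) :=
  sml_quad' crossL hR hκ

/-- The number of the sites surrounded by a small loop. -/
theorem ins_card {ω : Cfg} {ℓ : Finset Ed} (hℓ : IsLoop ω ℓ) {d : ℝ} (hs : Small d ℓ) :
    0 < d ∧ ((ins ℓ).ncard : ℝ) ≤ d ^ 2 := by
  classical
  have hne := vs_nonempty hℓ
  obtain ⟨v0, hv0⟩ := hne
  have hd0 : 0 < d := by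
    have := hs v0 hv0 v0 hv0
    simpa [nm] using this
  set a := bs ℓ with ha
  obtain ⟨n1, hn1⟩ : ∃ n1 : ℤ, n1 = ⌈d⌉ - 1 := ⟨_, rfl⟩
  have hn1' : (n1 : ℝ) < d := by
    rw [hn1]; push_cast; linarith [Int.ceil_lt_add_one d]
  have hn0 : 0 ≤ n1 := by
    rw [hn1]; have := Int.ceil_pos.2 hd0; omega
  have hbox : ∀ v ∈ vs ℓ, a.1 ≤ v.1 ∧ v.1 ≤ a.1 + n1 ∧ a.2 ≤ v.2 ∧ v.2 ≤ a.2 + n1 := by
    intro v hv
    obtain ⟨h1, h2⟩ := small_box hs hv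
    obtain ⟨h3, h4⟩ := bs_le hv
    have h5 : v.1 - a.1 < ⌈d⌉ := Int.lt_ceil.2 h1
    have h6 : v.2 - a.2 < ⌈d⌉ := Int.lt_ceil.2 h2
    refine ⟨h3, by omega, h4, by omega⟩
  set F : Finset (ℤ × ℤ) := (Finset.Ioc a.1 (a.1 + n1)) ×ˢ (Finset.Ioc a.2 (a.2 + n1)) with hF
  have hins : ins ℓ ⊆ (F : Set (ℤ × ℤ)) := by
    intro s hs'
    have := s_out ω ℓ hℓ _ _ _ _ hbox s hs'
    rw [Finset.mem_coe, hF, Finset.mem_product, Finset.mem_Ioc, Finset.mem_Ioc]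
    exact ⟨⟨this.1, this.2.1⟩, this.2.2.1, this.2.2.2⟩
  refine ⟨hd0, ?_⟩
  have h2 : (ins ℓ).ncard ≤ F.card := by
    rw [← Set.ncard_coe_finset]
    exact Set.ncard_le_ncard hins (Finset.finite_toSet F)
  have h3 : (F.card : ℝ) = (n1 : ℝ) ^ 2 := by
    rw [hF, Finset.card_product, Int.card_Ioc, Int.card_Ioc]
    have e1 : a.1 + n1 - a.1 = n1 := by ring
    have e2 : a.2 + n1 - a.2 = n1 := by ring
    rw [e1, e2, Nat.cast_mul, ← sq]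
    have : ((n1.toNat : ℕ) : ℤ) = n1 := Int.toNat_of_nonneg hn0
    have : ((n1.toNat : ℕ) : ℝ) = n1 := by exact_mod_cast this
    rw [this]
  calc ((ins ℓ).ncard : ℝ) ≤ (F.card : ℝ) := by exact_mod_cast h2
    _ = (n1 : ℝ) ^ 2 := h3
    _ ≤ d ^ 2 := pow_le_pow_left₀ (by exact_mod_cast hn0) hn1'.le 2

/-- Masses of bounded charges are bounded statistics. -/
theorem bd_G {κ ρ Cm : ℝ} (hρ : 1 ≤ ρ) (hC : 0 ≤ Cm) {m : ℤ × ℤ → ℝ}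
    (hm : ∀ v, |m v| ≤ Cm / ρ ^ 2) : Bd κ ρ Cm (fun ℓ => G m ℓ) := by
  intro ω ℓ d hℓ hd hs
  have hρ0 : 0 < ρ := by linarith
  have hfin := ins_fin s_out hℓ
  obtain ⟨h1, h2⟩ := ins_card hℓ hs
  show |G m ℓ| ≤ _
  unfold G
  rw [finsum_mem_eq_finite_toFinset_sum _ hfin]
  calc |∑ s ∈ hfin.toFinset, m s| ≤ ∑ s ∈ hfin.toFinset, |m s| := Finset.abs_sum_le_sum_abs _ _
    _ ≤ ∑ _s ∈ hfin.toFinset, Cm / ρ ^ 2 := Finset.sum_le_sum fun s _ => hm s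
    _ = (hfin.toFinset.card : ℝ) * (Cm / ρ ^ 2) := by rw [Finset.sum_const, nsmul_eq_mul]
    _ = ((ins ℓ).ncard : ℝ) * (Cm / ρ ^ 2) := by rw [Set.ncard_eq_toFinset_card _ hfin]
    _ ≤ d ^ 2 * (Cm / ρ ^ 2) := mul_le_mul_of_nonneg_right h2 (by positivity)
    _ = _ := by field_simp

end Vale.Agent.P167.H562.SML
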