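import Vale.Agent.P167.H562.GLg

/-!
# P167, general `q`: `G_ring`, `G_mom`, `G_large` for the infinite-volume measure
-/

namespace Vale.Agent.P167.H562.GL

open MeasureTheory Vale.Agent.P167.FK Vale.Agent.P167.FKA
open Vale.Agent.P167.H519 (IsLim)

/-- `G_ring`, `G_mom` and `G_large` from the finite-volume bounds. -/
theorem g_rml {Q : ℝ} {P : Measure Cfg} (hP : IsLim Q P) {α C : ℝ} (hα : 0 < α) (hC : 0 < C)
    (h1 : ArmDec Q α C) (h2 : ArmDecD Q α C) (h3 : CrossFK Q) :
    G_ring P ∧ G_mom P ∧ G_large P := by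
  have : IsProbabilityMeasure P := hP.1
  have hX := crossP hP h3
  exact ⟨g_ring (armPr hP hα hC h1 h2), mom_main hX s_con s_two s_loc s_out,
    large_main hX s_con s_two s_loc⟩

/-- `G_ring`, `G_mom` and `G_large` from the RSW property. -/
theorem g_rml' {Q : ℝ} (hQ : 1 ≤ Q) (h : RSW Q) {P : Measure Cfg} (hP : IsLim Q P) :
    G_ring P ∧ G_mom P ∧ G_large P := by
  obtain ⟨α, C, hα, hC, h1, h2⟩ := arm_fk hQ h
  exact g_rml hP hα hC h1 h2 (crossFK hQ h)

end Vale.Agent.P167.H562.GL
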