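import Vale.Agent.P167.H562.SML
import Vale.Agent.P167.H167.Crs
import Vale.Agent.P167.BR.Join
import Vale.Agent.P167.H945.Macro

/-!
# P167, SLE_6: majorants of the products over the pieces of a domain (deterministic part)

`J` is a finite set of bumps `f j`, `Z j` is a zone which contains the support of `f j`, `Zb j` a larger
zone which is visited by all loops of the domain which surround sites of `Z j`. The small pieces which
visit `Z j` are loops. `maj_det`: the product of the weights over a family of pieces which contains the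
small loops is at most `∏ j, 2 ^ (number of the big pieces which visit Zb j) * exp (- √3 S_j)`, `S_j` the
sum of the masses of the small loops.
-/

namespace Vale.Agent.P167.H562.MAJ

open Finset Vale.Agent.P167.BR Vale.Agent.P167.H562.SML Vale.Agent.P167.H45 Relation
open Vale.Agent.P167.H167 (tot abs_wp_le wl_zero ws_zero isSeg)

variable {ω : Cfg} {D : Finset (ℤ × ℤ)} {p : ℤ × ℤ} {A : Finset Ed}

/-! ### loops of the domain -/

/-- A loop with all heads in `D` is a piece of `D`. -/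
theorem loop_mem_pcs {ℓ : Finset Ed} (h : IsLoop ω ℓ) (hD : ∀ e ∈ ℓ, hdv e ∈ D) : ℓ ∈ pcs ω D := by
  obtain ⟨e0, he0⟩ := id h
  have h0 : e0 ∈ ℓ := (he0 e0).2 ⟨0, rfl⟩
  have heq : ℓ = piece ω D e0 := by
    ext e
    rw [mem_piece]
    constructor
    · intro he
      refine ⟨mem_eds.2 (Or.inl (hD e he)), eqvGen_iff.2 ?_⟩
      obtain ⟨n, hn⟩ := (he0 e).1 he
      exact ⟨n, Or.inl ⟨hn, fun j _ => hD _ ((he0 _).2 ⟨j, rfl⟩)⟩⟩
    · rintro ⟨_, h1⟩
      obtain ⟨k, hk | hk⟩ := eqvGen_iff.1 h1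
      · exact (he0 e).2 ⟨k, hk.1⟩
      · have h2 : ∀ (k : ℕ) (e : Ed), (nx ω)^[k] e ∈ ℓ → e ∈ ℓ := by
          intro k
          induction k with
          | zero => intro e he; exact he
          | succ k ih =>
            intro e he
            rw [Function.iterate_succ_apply] at he
            have h3 := ih _ he
            have h4 := h.pv_mem_iff.2 h3
            rwa [pv_nx] at h4
        exact h2 k e (by rw [hk.1]; exact h0)
  rw [heq]
  exact piece_mem_pcs (mem_eds.2 (Or.inl (hD e0 h0)))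

/-- The winding number is a potential. -/
theorem potD_W (h : IsLoop ω A) : PotD D A (W A) := fun e _ => s_jump ω A h e

/-- Two potentials differ by a constant along connected sites. -/
theorem pot_sub {u u' : ℤ × ℤ → ℤ} (hu : PotD D A u) (hu' : PotD D A u') {s t : ℤ × ℤ}
    (h : ReflTransGen (Ec D) s t) : u s - u' s = u t - u' t := by
  induction h with
  | refl => rfl
  | tail _ h ih =>
    rw [ih]
    obtain ⟨e, he, h1⟩ := h
    have h2 := hu e he
    have h3 := hu' e he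
    rcases h1 with ⟨h1, h4⟩ | ⟨h1, h4⟩ <;> rw [h1, h4] at h2 h3 <;> omega

theorem sep_loop_iff (hA : IsLoop ω A) {z : ℤ × ℤ} (hz : ReflTransGen (Ec D) z p) :
    Sep D A z p ↔ W A z ≠ W A p := by
  constructor
  · rintro ⟨u, hu, h⟩ hW
    have := pot_sub hu (potD_W (D := D) hA) hz
    apply h
    omega
  · intro h
    exact ⟨W A, potD_W hA, h⟩

/-- The mass of a loop. -/
theorem mass_loop (hA : IsLoop ω A) (hp : W A p = 0) {f : ℤ × ℤ → ℝ}
    (hf : ∀ z, f z ≠ 0 → z ∈ sites D ∧ ReflTransGen (Ec D) z p) : mass D p f A = G f A := by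
  classical
  have hfin := ins_fin s_out hA
  unfold mass G
  rw [finsum_mem_eq_finite_toFinset_sum _ hfin]
  have h1 : ∑ z ∈ sites D, (if Sep D A z p then f z else 0) =
      ∑ z ∈ sites D, (if W A z ≠ 0 then f z else 0) := by
    refine sum_congr rfl fun z _ => ?_
    by_cases hfz : f z = 0
    · simp [hfz]
    · have h2 : Sep D A z p ↔ W A z ≠ 0 := by rw [sep_loop_iff hA (hf z hfz).2, hp]
      by_cases h3 : W A z = 0
      · rw [if_neg (by simpa [h2] using h3), if_neg (by simpa using h3)]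
      · rw [if_pos (h2.2 h3), if_pos h3]
  rw [h1, ← sum_filter]
  refine sum_subset_zero_on_sdiff ?_ ?_ fun _ _ => rfl
  · intro z hz
    rw [mem_filter] at hz
    exact hfin.mem_toFinset.2 hz.2
  · intro z hz
    rw [mem_sdiff, hfin.mem_toFinset, mem_filter] at hz
    by_contra h
    exact hz.2 ⟨(hf z h).1, hz.1⟩

/-! ### bounding boxes -/

/-- The bounding box of a small loop. -/
theorem bbox {d : ℝ} (hA : IsLoop ω A) (hs : Small d A) : ∃ x0 x1 y0 y1 : ℤ,
    ((x1 - x0 : ℤ) : ℝ) < d ∧ ((y1 - y0 : ℤ) : ℝ) < d ∧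
    (∀ v ∈ vs A, x0 ≤ v.1 ∧ v.1 ≤ x1 ∧ y0 ≤ v.2 ∧ v.2 ≤ y1) ∧
    ∀ z, W A z ≠ 0 → x0 < z.1 ∧ z.1 ≤ x1 ∧ y0 < z.2 ∧ z.2 ≤ y1 := by
  classical
  have hne := vs_nonempty hA
  set X : Finset ℤ := (vs A).image Prod.fst with hX
  set Y : Finset ℤ := (vs A).image Prod.snd with hY
  have hXn : X.Nonempty := hne.image _
  have hYn : Y.Nonempty := hne.image _
  have hbox : ∀ v ∈ vs A, X.min' hXn ≤ v.1 ∧ v.1 ≤ X.max' hXn ∧ Y.min' hYn ≤ v.2 ∧
      v.2 ≤ Y.max' hYn := fun v hv =>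
    ⟨X.min'_le _ (mem_image_of_mem _ hv), X.le_max' _ (mem_image_of_mem _ hv),
      Y.min'_le _ (mem_image_of_mem _ hv), Y.le_max' _ (mem_image_of_mem _ hv)⟩
  refine ⟨_, _, _, _, ?_, ?_, hbox, fun z hz => s_out ω A hA _ _ _ _ hbox z hz⟩
  · obtain ⟨a, ha, ha'⟩ := mem_image.1 (X.min'_mem hXn)
    obtain ⟨b, hb, hb'⟩ := mem_image.1 (X.max'_mem hXn)
    rw [← ha', ← hb']
    refine lt_of_le_of_lt ?_ (hs b hb a ha)
    exact_mod_cast (le_abs_self _).trans (le_max_left _ _)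
  · obtain ⟨a, ha, ha'⟩ := mem_image.1 (Y.min'_mem hYn)
    obtain ⟨b, hb, hb'⟩ := mem_image.1 (Y.max'_mem hYn)
    rw [← ha', ← hb']
    refine lt_of_le_of_lt ?_ (hs b hb a ha)
    exact_mod_cast (le_abs_self _).trans (le_max_right _ _)

theorem nm_lt {v : ℤ × ℤ} {X Y : ℤ} {d : ℝ} (h1 : |v.1| ≤ X) (h2 : |v.2| ≤ Y) (hX : (X : ℝ) < d)
    (hY : (Y : ℝ) < d) : (nm v : ℝ) < d := by
  unfold nm
  rcases le_total |v.1| |v.2| with h | h
  · rw [max_eq_right h]
    exact lt_of_le_of_lt (by exact_mod_cast h2) hY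
  · rw [max_eq_left h]
    exact lt_of_le_of_lt (by exact_mod_cast h1) hX

/-- A site surrounded by a small loop is near all its squares. -/
theorem near_of_ins {d : ℝ} (hA : IsLoop ω A) (hs : Small d A) {z : ℤ × ℤ} (hz : W A z ≠ 0)
    {v : ℤ × ℤ} (hv : v ∈ vs A) : (nm (v - z) : ℝ) < d := by
  obtain ⟨x0, x1, y0, y1, h1, h2, h3, h4⟩ := bbox hA hs
  have h5 := h3 v hv
  have h6 := h4 z hz
  exact nm_lt (by simp only [Prod.fst_sub, abs_le]; omega)
    (by simp only [Prod.snd_sub, abs_le]; omega) h1 h2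

/-- Two sites surrounded by a small loop. -/
theorem near_ins {d : ℝ} (hA : IsLoop ω A) (hs : Small d A) {z z' : ℤ × ℤ} (hz : W A z ≠ 0)
    (hz' : W A z' ≠ 0) : (nm (z - z') : ℝ) < d := by
  obtain ⟨x0, x1, y0, y1, h1, h2, h3, h4⟩ := bbox hA hs
  have h5 := h4 z hz
  have h6 := h4 z' hz'
  exact nm_lt (by simp only [Prod.fst_sub, abs_le]; omega)
    (by simp only [Prod.snd_sub, abs_le]; omega) h1 h2

theorem exists_ins_of_G {f : ℤ × ℤ → ℝ} (h : G f A ≠ 0) : ∃ z, W A z ≠ 0 ∧ f z ≠ 0 := by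
  by_contra hcon
  push Not at hcon
  exact h (finsum_mem_eq_zero_of_forall_eq_zero hcon)

/-- Triangle inequality. -/
theorem nm_tri (a b c : ℤ × ℤ) : nm (a - c) ≤ nm (a - b) + nm (b - c) := by
  simp only [nm, Prod.fst_sub, Prod.snd_sub, max_def, abs_eq_max_neg]
  split_ifs <;> omega

theorem nm_comm' (a b : ℤ × ℤ) : nm (a - b) = nm (b - a) := by
  simp only [nm, Prod.fst_sub, Prod.snd_sub]
  rw [abs_sub_comm a.1, abs_sub_comm a.2]

theorem near_site {Z : Finset (ℤ × ℤ)} {z : ℤ × ℤ} (hz : z ∈ sites Z) :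
    ∃ v ∈ Z, nm (z - v) ≤ 1 := by
  obtain ⟨v, hv, h1, h2⟩ := mem_sites.1 hz
  refine ⟨v, hv, ?_⟩
  simp only [nm, Prod.fst_sub, Prod.snd_sub, max_le_iff, abs_le]
  omega

/-! ### the weight of a loop -/

/-- `wl t ≤ exp (- √3 t)`. -/
theorem wl_le_exp {t : ℝ} (ht : |t| ≤ 1 / 2) : wl t ≤ Real.exp (-(√3 * t)) := by
  have h3 : √3 ^ 2 = 3 := Real.sq_sqrt (by norm_num)
  have h30 : 0 ≤ √3 := Real.sqrt_nonneg _
  have h3a : √3 ≤ 1.74 := by
    rw [Real.sqrt_le_left (by norm_num)]; norm_num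
  have h3b : 1.73 ≤ √3 := Real.le_sqrt_of_sq_le (by norm_num)
  have hw : wl t = Real.cos t - √3 * Real.sin t := by
    unfold wl
    rw [Real.cos_add, Real.cos_pi_div_three, Real.sin_pi_div_three]
    ring
  rw [hw]
  rcases le_total t 0 with h | h
  · -- `t ≤ 0`
    have h1 := Real.cos_le_one t
    have h2 : t ≤ Real.sin t := by
      have := Real.sin_le (x := -t) (by linarith)
      rw [Real.sin_neg] at this
      linarith
    have h4 := Real.add_one_le_exp (-(√3 * t))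
    nlinarith
  · rcases eq_or_lt_of_le h with h0 | h0
    · rw [← h0]; simp
    have ht2 : t ≤ 1 / 2 := (abs_le.1 ht).2
    have h1 := Real.cos_le_one t
    have h2 := Real.sin_gt_sub_cube h0
    set y := √3 * t with hy
    have hy0 : 0 ≤ y := by positivity
    have hy1 : y ≤ 0.87 := by rw [hy]; nlinarith
    have h5 := Real.exp_bound (x := -y) (by rw [abs_neg, abs_of_nonneg hy0]; linarith)
      (n := 3) (by norm_num)
    rw [abs_neg, abs_of_nonneg hy0] at h5
    have h6 : ∑ m ∈ Finset.range 3, (-y) ^ m / (Nat.factorial m : ℝ) = 1 - y + y ^ 2 / 2 := by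
      norm_num [Finset.sum_range_succ, Nat.factorial]
      ring
    rw [h6] at h5
    have h7 := (abs_le.1 h5).1
    norm_num [Nat.factorial] at h7
    have h8 : √3 * (t - t ^ 3 / 6) ≤ √3 * Real.sin t := mul_le_mul_of_nonneg_left h2.le h30
    have h9 : y ^ 2 = 3 * t ^ 2 := by rw [hy, mul_pow, h3]
    have h10 : y ^ 3 = 3 * √3 * t ^ 3 := by
      rw [hy, mul_pow, show √3 ^ 3 = √3 ^ 2 * √3 by ring, h3]
    have h11 : 0 ≤ t ^ 3 := by positivity
    have h12 : t ^ 3 ≤ t ^ 2 * (1 / 2) := by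
      rw [pow_succ]; exact mul_le_mul_of_nonneg_left ht2 (by positivity)
    have h13 : √3 * t ^ 3 ≤ 1.74 * (t ^ 2 * (1 / 2)) := mul_le_mul h3a h12 h11 (by norm_num)
    have h14 : 0 ≤ t ^ 2 := by positivity
    nlinarith

theorem wl_nonneg' {t : ℝ} (ht : |t| ≤ 1 / 2) : 0 ≤ wl t := by
  unfold wl
  have h := Real.pi_gt_three
  have h' := Real.pi_gt_d2
  have h2 := abs_le.1 ht
  refine div_nonneg (Real.cos_nonneg_of_mem_Icc ⟨by linarith, by linarith⟩) ?_
  rw [Real.cos_pi_div_three]; norm_num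

theorem one_le_prodR {κ : Type*} {s : Finset κ} {g : κ → ℝ} (h : ∀ i ∈ s, 1 ≤ g i) :
    1 ≤ ∏ i ∈ s, g i := by
  classical
  induction s using Finset.induction_on with
  | empty => simp
  | @insert a s ha ih =>
    rw [prod_insert ha]
    have h1 := h a (mem_insert_self _ _)
    have h2 := ih fun i hi => h i (mem_insert_of_mem hi)
    nlinarith

/-! ### bumps -/

/-- Bumps `f j` in the zones `Z j` of `D`, small means diameter less than `d j`; `Q` is a class of
pieces. -/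
structure Bumps {ι : Type*} (J : Finset ι) (D : Finset (ℤ × ℤ)) (p : ℤ × ℤ)
    (Z Zb : ι → Finset (ℤ × ℤ)) (f : ι → ℤ × ℤ → ℝ) (d : ι → ℝ) (Q : Finset Ed → Prop) :
    Prop where
  sub : ∀ j ∈ J, Z j ⊆ D
  zb : ∀ j ∈ J, Z j ⊆ Zb j
  econ : ∀ j ∈ J, ECon (Z j)
  supp : ∀ j ∈ J, ∀ z, f j z ≠ 0 → z ∈ sites (Z j)
  nbhd : ∀ j ∈ J, ∀ v ∈ Z j, ∀ w, (nm (w - v) : ℝ) ≤ d j + 1 → w ∈ D
  small : ∀ j ∈ J, ∀ (ω : Cfg) (ℓ : Finset Ed), IsLoop ω ℓ → Small (d j) ℓ → |G (f j) ℓ| ≤ 1 / 2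
  sep : ∀ i ∈ J, ∀ j ∈ J, i ≠ j → ∀ u ∈ Z i, ∀ v ∈ Z j, d i + 2 ≤ (nm (u - v) : ℝ)
  base : ∀ (ω : Cfg), ∀ A ∈ pcs ω D, Q A → IsLp D A → W A p = 0
  conn : ∀ j ∈ J, ∀ z ∈ sites (Z j), ReflTransGen (Ec D) z p
  loop : ∀ j ∈ J, ∀ (ω : Cfg), ∀ A ∈ pcs ω D, Q A → IsLp D A → G (f j) A ≠ 0 → Vz (Zb j) A
  tots : ∀ s, s ⊆ J → |ws (∑ j ∈ s, tot D (f j))| ≤ 1

/-- The squares near the zone. -/
noncomputable def nb1 {ι : Type*} (Z : ι → Finset (ℤ × ℤ)) (d : ι → ℝ) (j : ι) :
    Finset (ℤ × ℤ) := fat (Z j) (d j + 1)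

open Classical in
/-- The pieces which visit `Z` and are not small. -/
noncomputable def bigs (D Z : Finset (ℤ × ℤ)) (d : ℝ) (ω : Cfg) : Finset (Finset Ed) :=
  (pcs ω D).filter fun A => Vz Z A ∧ ¬ Small d A

section

variable {ι : Type*} {J : Finset ι} {Z Zb : ι → Finset (ℤ × ℤ)} {f : ι → ℤ × ℤ → ℝ} {d : ι → ℝ}
  {Q : Finset Ed → Prop}

/-- A loop of small diameter which surrounds charge is near the zone. -/
theorem Bumps.near (hB : Bumps J D p Z Zb f d Q) {j : ι} (hj : j ∈ J) (hA : IsLoop ω A)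
    (hs : Small (d j) A) (hG : G (f j) A ≠ 0) :
    ∃ v ∈ Z j, ∀ w ∈ vs A, (nm (w - v) : ℝ) ≤ d j + 1 := by
  obtain ⟨z, hz, hfz⟩ := exists_ins_of_G hG
  obtain ⟨v, hv, h1⟩ := near_site (hB.supp j hj z hfz)
  refine ⟨v, hv, fun w hw => ?_⟩
  have h2 := near_of_ins hA hs hz hw
  have h3 := nm_tri w z v
  have h4 : (nm (w - v) : ℝ) ≤ nm (w - z) + nm (z - v) := by exact_mod_cast h3
  have h5 : (nm (z - v) : ℝ) ≤ 1 := by exact_mod_cast h1
  linarith

theorem Bumps.mem_pcs (hB : Bumps J D p Z Zb f d Q) {j : ι} (hj : j ∈ J) (hA : IsLoop ω A)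
    (hs : Small (d j) A) (hG : G (f j) A ≠ 0) : A ∈ pcs ω D ∧ IsLp D A := by
  obtain ⟨v, hv, h⟩ := hB.near hj hA hs hG
  have h1 : ∀ e ∈ A, hdv e ∈ D := fun e he =>
    hB.nbhd j hj v hv _ (h _ (mem_image_of_mem _ he))
  exact ⟨loop_mem_pcs hA h1, h1⟩

theorem Bumps.mem_smf (hB : Bumps J D p Z Zb f d Q) {j : ι} (hj : j ∈ J) (hA : IsLoop ω A)
    (hs : Small (d j) A) (hG : G (f j) A ≠ 0) : A ∈ smf (nb1 Z d j) (d j) ω := by
  obtain ⟨v, hv, h⟩ := hB.near hj hA hs hG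
  obtain ⟨w, hw⟩ := vs_nonempty hA
  rw [SML.mem_smf]
  exact ⟨hA, ⟨w, hw, mem_fat hv (h w hw)⟩, hs⟩

/-- The other masses of a small loop vanish. -/
theorem Bumps.other (hB : Bumps J D p Z Zb f d Q) {i j : ι} (hi : i ∈ J) (hj : j ∈ J) (hij : i ≠ j)
    (hA : IsLoop ω A) (hs : Small (d i) A) (hG : G (f i) A ≠ 0) : G (f j) A = 0 := by
  by_contra hG'
  obtain ⟨z, hz, hfz⟩ := exists_ins_of_G hG
  obtain ⟨z', hz', hfz'⟩ := exists_ins_of_G hG'
  obtain ⟨u, hu, h1⟩ := near_site (hB.supp i hi z hfz)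
  obtain ⟨v, hv, h2⟩ := near_site (hB.supp j hj z' hfz')
  have h3 : (nm (z - z') : ℝ) < d i := near_ins hA hs hz hz'
  have h4 := hB.sep i hi j hj hij u hu v hv
  have h5 := nm_tri u z v
  have h6 := nm_tri z z' v
  have h7 := nm_comm' u z
  have h8 : (nm (u - v) : ℝ) ≤ 1 + nm (z - z') + 1 := by
    have : nm (u - v) ≤ 1 + nm (z - z') + 1 := by omega
    exact_mod_cast this
  linarith

/-- A strand which visits the zone is not small. -/
theorem Bumps.strand (hB : Bumps J D p Z Zb f d Q) {j : ι} (hj : j ∈ J) (_hA : A ∈ pcs ω D)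
    (hl : ¬ IsLp D A) (hV : Vz (Z j) A) : ¬ Small (d j) A := by
  intro hs
  apply hl
  obtain ⟨e, he, heZ⟩ := hV
  intro a ha
  have h1 := hs _ (mem_image_of_mem hdv ha) _ (mem_image_of_mem hdv he)
  rcases mem_eds.1 heZ with h | h
  · exact hB.nbhd j hj _ h _ (by linarith)
  · refine hB.nbhd j hj _ h _ ?_
    have h2 := nm_tri (hdv a) (hdv e) (tlv e)
    have h3 := H945.nm_step e
    have h4 : (nm (hdv a - tlv e) : ℝ) ≤ nm (hdv a - hdv e) + nm (hdv e - tlv e) := by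
      exact_mod_cast h2
    have h5 : (nm (hdv e - tlv e) : ℝ) ≤ 1 := by exact_mod_cast h3
    linarith

/-- The mass of a piece which does not visit the zone. -/
theorem Bumps.mass_off (hB : Bumps J D p Z Zb f d Q) {j : ι} (hj : j ∈ J) (hV : ¬ Vz (Z j) A) :
    mass D p (f j) A = 0 ∨ mass D p (f j) A = tot D (f j) := by
  classical
  by_cases hf : ∃ z, f j z ≠ 0
  · obtain ⟨z0, hz0⟩ := hf
    have hs0 := hB.supp j hj z0 hz0
    have key : ∀ z ∈ sites (Z j), (Sep D A z p ↔ Sep D A z0 p) := by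
      intro z hz
      constructor
      · rintro ⟨u, hu, h⟩
        exact ⟨u, hu, by rwa [← pot_zone hu (hB.sub j hj) hV (hB.econ j hj z hz z0 hs0)]⟩
      · rintro ⟨u, hu, h⟩
        exact ⟨u, hu, by rwa [pot_zone hu (hB.sub j hj) hV (hB.econ j hj z hz z0 hs0)]⟩
    by_cases h : Sep D A z0 p
    · right
      unfold mass tot
      refine sum_congr rfl fun z _ => ?_
      by_cases hfz : f j z = 0
      · simp [hfz]
      · rw [if_pos ((key z (hB.supp j hj z hfz)).2 h)]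
    · left
      unfold mass
      refine sum_eq_zero fun z _ => ?_
      by_cases hfz : f j z = 0
      · simp [hfz]
      · rw [if_neg (fun h' => h ((key z (hB.supp j hj z hfz)).1 h'))]
  · push Not at hf
    left
    unfold mass
    exact sum_eq_zero fun z _ => by simp [hf z]

theorem mass_sum (J : Finset ι) (f : ι → ℤ × ℤ → ℝ) (A : Finset Ed) :
    mass D p (fun z => ∑ j ∈ J, f j z) A = ∑ j ∈ J, mass D p (f j) A := by
  classical
  unfold mass
  rw [sum_comm]
  refine sum_congr rfl fun z _ => ?_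
  split_ifs
  · rfl
  · rw [sum_const_zero]

theorem G_sum (hA : IsLoop ω A) (J : Finset ι) (f : ι → ℤ × ℤ → ℝ) :
    G (fun z => ∑ j ∈ J, f j z) A = ∑ j ∈ J, G (f j) A := by
  classical
  have hfin := ins_fin s_out hA
  unfold G
  rw [finsum_mem_eq_finite_toFinset_sum _ hfin, sum_comm]
  refine sum_congr rfl fun j _ => ?_
  rw [finsum_mem_eq_finite_toFinset_sum _ hfin]

/-- The mass of a loop of the domain. -/
theorem Bumps.mass_lp (hB : Bumps J D p Z Zb f d Q) (hA : A ∈ pcs ω D) (hQ : Q A)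
    (hl : IsLp D A) :
    mass D p (fun z => ∑ j ∈ J, f j z) A = ∑ j ∈ J, G (f j) A := by
  have h1 := BR.IsLp.isLoop hA hl
  rw [mass_sum]
  refine sum_congr rfl fun j hj => ?_
  refine mass_loop h1 (hB.base ω A hA hQ hl) fun z hz => ?_
  have h2 := hB.supp j hj z hz
  exact ⟨sites_mono (hB.sub j hj) h2, hB.conn j hj z h2⟩

/-- The weight of a strand which visits no zone. -/
theorem Bumps.wp_off (hB : Bumps J D p Z Zb f d Q) (hl : ¬ IsLp D A) (hV : ∀ j ∈ J, ¬ Vz (Z j) A) :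
    |wp D A (mass D p (fun z => ∑ j ∈ J, f j z) A)| ≤ 1 := by
  classical
  rw [mass_sum]
  unfold wp
  rw [if_neg hl]
  have h1 : ∑ j ∈ J, mass D p (f j) A =
      ∑ j ∈ J.filter (fun j => mass D p (f j) A ≠ 0), tot D (f j) := by
    rw [sum_filter]
    refine sum_congr rfl fun j hj => ?_
    rcases hB.mass_off hj (hV j hj) with h | h
    · rw [if_neg (by simpa using h), h]
    · split_ifs with h'
      · exact h
      · push Not at h'
        exact h'
  rw [h1]
  exact hB.tots _ (filter_subset _ _)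

open Classical in
/-- The factor of the bump `j` of the majorant of the weight of the piece `A`. -/
noncomputable def fac (D Zb : Finset (ℤ × ℤ)) (f : ℤ × ℤ → ℝ) (d : ℝ) (A : Finset Ed) : ℝ :=
  (if Vz Zb A ∧ ¬ Small d A then 2 else 1) *
    Real.exp (-(√3 * if IsLp D A ∧ Small d A then G f A else 0))

theorem Bumps.wp_le (hB : Bumps J D p Z Zb f d Q) (hA : A ∈ pcs ω D) (hQ : Q A) :
    |wp D A (mass D p (fun z => ∑ j ∈ J, f j z) A)| ≤ ∏ j ∈ J, fac D (Zb j) (f j) (d j) A := by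
  classical
  have hge : ∀ j ∈ J, (IsLp D A → Small (d j) A → G (f j) A = 0) →
      1 ≤ fac D (Zb j) (f j) (d j) A := by
    intro j _ h
    unfold fac
    have : (if IsLp D A ∧ Small (d j) A then G (f j) A else 0) = 0 := by
      split_ifs with h'
      · exact h h'.1 h'.2
      · rfl
    rw [this, mul_zero, neg_zero, Real.exp_zero, mul_one]
    split_ifs <;> norm_num
  by_cases hex : ∃ i ∈ J, IsLp D A ∧ Small (d i) A ∧ G (f i) A ≠ 0
  · obtain ⟨i, hi, hl, hs, hG⟩ := hex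
    have hL := BR.IsLp.isLoop hA hl
    have h1 : mass D p (fun z => ∑ j ∈ J, f j z) A = G (f i) A := by
      rw [hB.mass_lp hA hQ hl]
      rw [sum_eq_single i]
      · intro j hj hji
        exact hB.other hi hj (Ne.symm hji) hL hs hG
      · intro h; exact absurd hi h
    rw [h1]
    have h2 := hB.small i hi ω A hL hs
    have h3 : |wp D A (G (f i) A)| ≤ Real.exp (-(√3 * G (f i) A)) := by
      unfold wp
      rw [if_pos hl, abs_of_nonneg (wl_nonneg' h2)]
      exact wl_le_exp h2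
    refine h3.trans ?_
    rw [← mul_prod_erase J _ hi]
    have h4 : Real.exp (-(√3 * G (f i) A)) ≤ fac D (Zb i) (f i) (d i) A := by
      unfold fac
      rw [if_pos (⟨hl, hs⟩ : IsLp D A ∧ Small (d i) A)]
      rw [if_neg (fun h => h.2 hs), one_mul]
    have h5 : 1 ≤ ∏ j ∈ J.erase i, fac D (Zb j) (f j) (d j) A := by
      refine one_le_prodR ?_
      intro j hj
      rw [mem_erase] at hj
      refine hge j hj.2 fun _ _ => hB.other hi hj.2 (Ne.symm hj.1) hL hs hG
    calc Real.exp (-(√3 * G (f i) A)) ≤ fac D (Zb i) (f i) (d i) A := h4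
      _ ≤ fac D (Zb i) (f i) (d i) A * ∏ j ∈ J.erase i, fac D (Zb j) (f j) (d j) A :=
        le_mul_of_one_le_right ((Real.exp_pos _).le.trans h4) h5
  · push Not at hex
    have hge' : ∀ j ∈ J, 1 ≤ fac D (Zb j) (f j) (d j) A := fun j hj => hge j hj fun h1 h2 =>
      hex j hj h1 h2
    have hfac2 : ∀ j ∈ J, Vz (Zb j) A → ¬ Small (d j) A → fac D (Zb j) (f j) (d j) A = 2 := by
      intro j _ h1 h2
      unfold fac
      rw [if_pos ⟨h1, h2⟩, if_neg (fun h => h2 h.2), mul_zero, neg_zero, Real.exp_zero, mul_one]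
    by_cases hbig : ∃ i ∈ J, Vz (Zb i) A ∧ ¬ Small (d i) A
    · obtain ⟨i, hi, h1, h2⟩ := hbig
      refine (abs_wp_le _ _ _).trans ?_
      rw [← mul_prod_erase J _ hi, hfac2 i hi h1 h2]
      have h5 : 1 ≤ ∏ j ∈ J.erase i, fac D (Zb j) (f j) (d j) A := by
        refine one_le_prodR ?_
        intro j hj
        exact hge' j (mem_of_mem_erase hj)
      linarith
    · push Not at hbig
      have h5 : 1 ≤ ∏ j ∈ J, fac D (Zb j) (f j) (d j) A := by
        refine one_le_prodR ?_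
        intro j hj
        exact hge' j hj
      refine le_trans ?_ h5
      by_cases hl : IsLp D A
      · -- a loop
        have hz : ∀ j ∈ J, G (f j) A = 0 := by
          intro j hj
          by_contra hG
          have h1 := hB.loop j hj ω A hA hQ hl hG
          exact hG (hex j hj hl (hbig j hj h1))
        rw [hB.mass_lp hA hQ hl, sum_eq_zero hz]
        unfold wp
        rw [if_pos hl, wl_zero]
        simp
      · refine hB.wp_off hl fun j hj hV => ?_
        have h1 := hB.strand hj hA hl hV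
        obtain ⟨e, he, heZ⟩ := hV
        exact h1 (hbig j hj ⟨e, he, eds_mono (hB.zb j hj) heZ⟩)

theorem fac_pos (D Zb : Finset (ℤ × ℤ)) (f : ℤ × ℤ → ℝ) (d : ℝ) (A : Finset Ed) :
    0 < fac D Zb f d A := by
  unfold fac
  split_ifs <;> positivity

theorem Bumps.fac_ge (hB : Bumps J D p Z Zb f d Q) (hA : A ∈ pcs ω D) :
    1 / 3 ≤ ∏ j ∈ J, fac D (Zb j) (f j) (d j) A := by
  classical
  have hge : ∀ j ∈ J, (IsLp D A → Small (d j) A → G (f j) A = 0) →
      1 ≤ fac D (Zb j) (f j) (d j) A := by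
    intro j _ h
    unfold fac
    have : (if IsLp D A ∧ Small (d j) A then G (f j) A else 0) = 0 := by
      split_ifs with h'
      · exact h h'.1 h'.2
      · rfl
    rw [this, mul_zero, neg_zero, Real.exp_zero, mul_one]
    split_ifs <;> norm_num
  by_cases hex : ∃ i ∈ J, IsLp D A ∧ Small (d i) A ∧ G (f i) A ≠ 0
  · obtain ⟨i, hi, hl, hs, hG⟩ := hex
    have hL := BR.IsLp.isLoop hA hl
    rw [← mul_prod_erase J _ hi]
    have h4 : 1 / 3 ≤ fac D (Zb i) (f i) (d i) A := by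
      unfold fac
      rw [if_pos (⟨hl, hs⟩ : IsLp D A ∧ Small (d i) A)]
      rw [if_neg (fun h => h.2 hs), one_mul]
      have h2 := (abs_le.1 (hB.small i hi ω A hL hs)).2
      have h3a : √3 ≤ 1.74 := by
        rw [Real.sqrt_le_left (by norm_num)]; norm_num
      have h5 : -1 ≤ -(√3 * G (f i) A) := by
        have : 0 ≤ √3 := Real.sqrt_nonneg _
        nlinarith
      refine le_trans ?_ (Real.exp_le_exp.2 h5)
      rw [Real.exp_neg, one_div]
      exact inv_anti₀ (Real.exp_pos _) (by linarith [Real.exp_one_lt_d9])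
    have h5 : 1 ≤ ∏ j ∈ J.erase i, fac D (Zb j) (f j) (d j) A := by
      refine one_le_prodR ?_
      intro j hj
      rw [mem_erase] at hj
      refine hge j hj.2 fun _ _ => hB.other hi hj.2 (Ne.symm hj.1) hL hs hG
    exact h4.trans (le_mul_of_one_le_right ((by norm_num : (0 : ℝ) ≤ 1 / 3).trans h4) h5)
  · push Not at hex
    have h5 : 1 ≤ ∏ j ∈ J, fac D (Zb j) (f j) (d j) A :=
      one_le_prodR fun j hj => hge j hj fun h1 h2 => hex j hj h1 h2
    linarith

theorem Bumps.fac_prod (hB : Bumps J D p Z Zb f d Q) {T : Finset (Finset Ed)} (hT : T ⊆ pcs ω D)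
    (hT' : ∀ A ∈ pcs ω D, IsLp D A → ∀ j ∈ J, Small (d j) A → G (f j) A ≠ 0 → A ∈ T) :
    ∏ A ∈ T, ∏ j ∈ J, fac D (Zb j) (f j) (d j) A ≤
      ∏ j ∈ J, (2 : ℝ) ^ (bigs D (Zb j) (d j) ω).card *
        Real.exp (-(√3 * ∑ ℓ ∈ smf (nb1 Z d j) (d j) ω, G (f j) ℓ)) := by
  classical
  rw [prod_comm]
  refine prod_le_prod (fun j _ => prod_nonneg fun A _ => ?_) fun j hj => ?_
  · unfold fac
    split_ifs <;> positivity
  · unfold fac
    rw [prod_mul_distrib]
    have h1 : ∏ A ∈ T, (if Vz (Zb j) A ∧ ¬ Small (d j) A then (2 : ℝ) else 1) ≤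
        (2 : ℝ) ^ (bigs D (Zb j) (d j) ω).card := by
      rw [← prod_filter, prod_const]
      refine pow_le_pow_right₀ (by norm_num) (card_le_card ?_)
      intro A hA
      rw [mem_filter] at hA
      exact mem_filter.2 ⟨hT hA.1, hA.2⟩
    have h2 : ∏ A ∈ T, Real.exp (-(√3 * if IsLp D A ∧ Small (d j) A then G (f j) A else 0)) =
        Real.exp (-(√3 * ∑ ℓ ∈ smf (nb1 Z d j) (d j) ω, G (f j) ℓ)) := by
      rw [← Real.exp_sum, sum_neg_distrib, ← mul_sum]
      congr 3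
      rw [← sum_filter]
      -- both sums are over the loops with non zero mass
      have e1 : ∑ A ∈ T.filter (fun A => IsLp D A ∧ Small (d j) A), G (f j) A =
          ∑ A ∈ (T.filter (fun A => IsLp D A ∧ Small (d j) A)).filter (fun A => G (f j) A ≠ 0),
            G (f j) A := by
        rw [sum_filter_ne_zero]
      have e2 : ∑ A ∈ smf (nb1 Z d j) (d j) ω, G (f j) A =
          ∑ A ∈ (smf (nb1 Z d j) (d j) ω).filter (fun A => G (f j) A ≠ 0), G (f j) A := by
        rw [sum_filter_ne_zero]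
      rw [e1, e2]
      refine sum_congr ?_ fun _ _ => rfl
      ext A
      simp only [mem_filter]
      constructor
      · rintro ⟨⟨h3, h4, h5⟩, h6⟩
        exact ⟨hB.mem_smf hj (BR.IsLp.isLoop (hT h3) h4) h5 h6, h6⟩
      · rintro ⟨h3, h6⟩
        obtain ⟨k1, -, k3⟩ := SML.mem_smf.1 h3
        obtain ⟨k4, k5⟩ := hB.mem_pcs hj k1 k3 h6
        exact ⟨⟨hT' A k4 k5 j hj k3 h6, k5, k3⟩, h6⟩
    rw [h2]
    exact mul_le_mul_of_nonneg_right h1 (Real.exp_pos _).le

/-- **The deterministic majorant.** -/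
theorem Bumps.maj_det (hB : Bumps J D p Z Zb f d Q) {T : Finset (Finset Ed)} (hT : T ⊆ pcs ω D)
    (hQ : ∀ A ∈ T, Q A)
    (hT' : ∀ A ∈ pcs ω D, IsLp D A → ∀ j ∈ J, Small (d j) A → G (f j) A ≠ 0 → A ∈ T) :
    ∏ A ∈ T, |wp D A (mass D p (fun z => ∑ j ∈ J, f j z) A)| ≤
      ∏ j ∈ J, (2 : ℝ) ^ (bigs D (Zb j) (d j) ω).card *
        Real.exp (-(√3 * ∑ ℓ ∈ smf (nb1 Z d j) (d j) ω, G (f j) ℓ)) :=
  (prod_le_prod (fun A _ => abs_nonneg _) fun A hA => hB.wp_le (hT hA) (hQ A hA)).trans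
    (hB.fac_prod hT hT')

/-- The deterministic majorant, with missing pieces. -/
theorem Bumps.maj_det' (hB : Bumps J D p Z Zb f d Q) {T T' : Finset (Finset Ed)} (hTT : T ⊆ T')
    (hT : T' ⊆ pcs ω D) (hQ : ∀ A ∈ T, Q A)
    (hT' : ∀ A ∈ pcs ω D, IsLp D A → ∀ j ∈ J, Small (d j) A → G (f j) A ≠ 0 → A ∈ T') :
    ∏ A ∈ T, |wp D A (mass D p (fun z => ∑ j ∈ J, f j z) A)| ≤
      3 ^ (T' \ T).card * ∏ j ∈ J, (2 : ℝ) ^ (bigs D (Zb j) (d j) ω).card *
        Real.exp (-(√3 * ∑ ℓ ∈ smf (nb1 Z d j) (d j) ω, G (f j) ℓ)) := by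
  classical
  refine (prod_le_prod (fun A _ => abs_nonneg _)
    fun A hA => hB.wp_le (hT (hTT hA)) (hQ A hA)).trans ?_
  refine le_trans ?_ (mul_le_mul_of_nonneg_left (hB.fac_prod hT hT') (by positivity))
  rw [← prod_sdiff hTT, ← mul_assoc]
  have h0 : 0 ≤ ∏ A ∈ T, ∏ j ∈ J, fac D (Zb j) (f j) (d j) A :=
    prod_nonneg fun _ _ => prod_nonneg fun j _ => (fac_pos _ _ _ _ _).le
  refine le_mul_of_one_le_left h0 ?_
  rw [← prod_const, ← prod_mul_distrib]
  refine one_le_prodR fun A hA => ?_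
  have := hB.fac_ge (hT (mem_sdiff.1 hA).1)
  linarith

/-- The number of the big pieces. -/
theorem bigs_card_le {Z : Finset (ℤ × ℤ)} {c : ℤ × ℤ} {a d : ℝ}
    (hZ : ∀ v ∈ Z, (nm (v - c) : ℝ) + 1 ≤ a) {N : ℕ} (hN : H945.Maj c a d ω N) :
    (bigs D Z d ω).card ≤ N := by
  classical
  refine hN _ ?_ ?_ ?_
  · intro A hA
    exact isSeg (mem_filter.1 hA).1
  · intro A hA B hB hne
    rw [Finset.disjoint_left]
    intro e he he'
    exact hne (eq_of_mem_pcs (mem_filter.1 hA).1 (mem_filter.1 hB).1 he he')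
  · intro A hA
    obtain ⟨-, ⟨e, he, heZ⟩, hs⟩ := mem_filter.1 hA
    constructor
    · refine ⟨e, he, ?_⟩
      rcases mem_eds.1 heZ with h | h
      · linarith [hZ _ h]
      · have h1 := hZ _ h
        have h2 := nm_tri (hdv e) (tlv e) c
        have h3 := H945.nm_step e
        have h4 : (nm (hdv e - c) : ℝ) ≤ nm (hdv e - tlv e) + nm (tlv e - c) := by exact_mod_cast h2
        have h5 : (nm (hdv e - tlv e) : ℝ) ≤ 1 := by exact_mod_cast h3
        linarith
    · unfold Small at hs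
      push Not at hs
      obtain ⟨u, hu, v, hv, h⟩ := hs
      obtain ⟨a1, ha1, rfl⟩ := mem_image.1 hu
      obtain ⟨a2, ha2, rfl⟩ := mem_image.1 hv
      exact ⟨a1, ha1, a2, ha2, h⟩

end

end Vale.Agent.P167.H562.MAJ
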