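import Vale.Agent.P167.H562.MAJ4
import Vale.Agent.P167.LOC.Far

/-!
# P167, SLE_6: moments of the functionals of a bump at the base site and of a macroscopic charge
-/

namespace Vale.Agent.P167.H562.MAJ

open Finset MeasureTheory Vale.Agent.P167.BR Vale.Agent.P167.H562.SML Vale.Agent.P167.H45 Relation
open Vale.Agent.P167.E6 (IsPolygon Encloses dir face)
open Vale.Agent.P167.H562 (Em Em_mono)
open Vale.Agent.P167.H167 (Fd tot wl_zero ws_zero)
open Vale.Agent.P167.LOC (XL ZO m6 ray_ind)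

variable {ω : Cfg} {D : Finset (ℤ × ℤ)} {p b : ℤ × ℤ} {A : Finset Ed} {K : ℝ} {r : ℤ}
  {f : ℤ × ℤ → ℝ} {n : ℕ} {q : ZMod n → ℤ × ℤ}

/-! ### polygon domains -/

/-- All sites of the domain are joined to the boundary, hence to `q 0`. -/
theorem conn_poly (hq : IsPolygon q) (hD : Encloses q D) {z : ℤ × ℤ} (hz : z ∈ sites D) :
    ReflTransGen (Ec D) z (q 0) := by
  have hn : NeZero n := ⟨by have := hq.1; omega⟩
  have hb : ∀ j : ℕ, ReflTransGen (Ec D) (q (j : ZMod n)) (q 0) := by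
    intro j
    induction j with
    | zero => rw [Nat.cast_zero]
    | succ j ih =>
      refine ReflTransGen.head ?_ ih
      have h1 := be_sides hq (j : ZMod n)
      refine ⟨be q (j : ZMod n), be_mem hq hD _, ?_⟩
      push_cast
      rcases h1 with ⟨h1, h2⟩ | ⟨h1, h2⟩
      · exact Or.inr ⟨h1, h2⟩
      · exact Or.inl ⟨h2, h1⟩
  refine ray_ind (r := 1) (G := fun _ => True) (P := fun z => ReflTransGen (Ec D) z (q 0)) hD
    (fun _ _ => trivial) (fun i _ => ?_) (fun z _ h1 h2 => ?_) hz trivial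
  · have := hb i.val
    rwa [ZMod.natCast_zmod_val] at this
  · exact ReflTransGen.head (ec_of (Or.inl (h1 1))) h2

/-- No loop of the domain surrounds a boundary site. -/
theorem W_poly (hq : IsPolygon q) (hD : Encloses q D) (hA : A ∈ pcs ω D) (hl : IsLp D A) :
    W A (q 0) = 0 := by
  classical
  have hn : NeZero n := ⟨by have := hq.1; omega⟩
  have hL := BR.IsLp.isLoop hA hl
  -- the top of the loop
  obtain ⟨e0, he0, hmax⟩ := A.exists_max_image (fun e => (hdv e).2) (pcs_nonempty hA)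
  set m := (hdv e0).2 with hm
  have hv0 : hdv e0 ∈ D := hl e0 he0
  obtain ⟨i, hi⟩ : ∃ i : ZMod n, m < (q i).2 := by
    refine ray_ind (r := 1) (G := fun z => m < z.2) (P := fun _ => ∃ i : ZMod n, m < (q i).2) hD
      (fun z hz => ?_) (fun i hi => ⟨i, hi⟩) (fun _ _ _ h => h)
      (z := ((hdv e0).1, (hdv e0).2 + 1)) (mem_sites.2 ⟨_, hv0, Or.inl rfl, Or.inr rfl⟩)
      (by simp only; omega)
    rw [E2.dir1]
    simp only [Prod.snd_add]
    omega
  have h1 : W A (q i) = 0 := W_above hL (y := m + 1)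
    (fun e he => by have := hmax e he; omega) (by omega)
  have h2 := pot_arc hq hD (potD_W (D := D) hL) (i := 0) (j := i.val) (Nat.zero_le _)
    (fun k _ _ hk => by
      rcases be_bd hq hD (k : ZMod n) with h | h
      · exact h.2 (BR.IsLp.tl hA hl hk)
      · exact h.2 (hl _ hk))
  rw [ZMod.natCast_zmod_val] at h2
  rw [← h1]
  simpa using h2.symm

/-! ### the majorant of a family of bumps -/

section

variable {ι : Type*} {J J' : Finset ι} {Z Zb : ι → Finset (ℤ × ℤ)} {F : ι → ℤ × ℤ → ℝ}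
  {d : ι → ℝ} {Q : Finset Ed → Prop}

theorem Bumps.mono (hB : Bumps J D p Z Zb F d Q) (h : J' ⊆ J) : Bumps J' D p Z Zb F d Q where
  sub j hj := hB.sub j (h hj)
  zb j hj := hB.zb j (h hj)
  econ j hj := hB.econ j (h hj)
  supp j hj := hB.supp j (h hj)
  nbhd j hj := hB.nbhd j (h hj)
  small j hj := hB.small j (h hj)
  sep i hi j hj := hB.sep i (h hi) j (h hj)
  base := hB.base
  conn j hj := hB.conn j (h hj)
  loop j hj := hB.loop j (h hj)
  tots s hs := hB.tots s (hs.trans h)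

/-- Totals which are multiples of `π / 3`. -/
theorem tots_of {t : ι → ℝ} (h : ∀ j ∈ J, ∃ c : ℤ, t j = c * (Real.pi / 3)) (s : Finset ι)
    (hs : s ⊆ J) : |ws (∑ j ∈ s, t j)| ≤ 1 := by
  classical
  obtain ⟨c, hc⟩ : ∃ c : ℤ, ∑ j ∈ s, t j = c * (Real.pi / 3) := by
    choose! c hc using h
    refine ⟨∑ j ∈ s, c j, ?_⟩
    push_cast
    rw [sum_mul]
    exact sum_congr rfl fun j hj => hc j (hs hj)
  rw [hc]
  exact ws_third c

theorem sum_nb1 {j : ι} (hs : ∀ z, F j z ≠ 0 → z ∈ sites (Z j)) (ω : Cfg) :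
    ∑ ℓ ∈ smf (nb1 Z d j) (d j) ω, G (F j) ℓ = Sm (F j) (d j) ω := by
  refine sum_G (F := sites (Z j)) hs ?_ ω
  intro s hs' v hv
  obtain ⟨w, hw, h4⟩ := near_site (hs s hs')
  refine mem_fat hw ?_
  have h5 : (nm (v - w) : ℝ) ≤ nm (v - s) + nm (s - w) := by exact_mod_cast nm_tri v s w
  have h6 : (nm (s - w) : ℝ) ≤ 1 := by exact_mod_cast h4
  linarith

theorem fac_le_YN {j : ι} (hs : ∀ z, F j z ≠ 0 → z ∈ sites (Z j)) {N : Cfg → ℕ}
    (hN : (bigs D (Zb j) (d j) ω).card ≤ N ω) :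
    (2 : ℝ) ^ (bigs D (Zb j) (d j) ω).card *
        Real.exp (-(√3 * ∑ ℓ ∈ smf (nb1 Z d j) (d j) ω, G (F j) ℓ)) ≤ YN N (F j) (d j) ω := by
  rw [sum_nb1 hs]
  unfold YN
  refine mul_le_mul_of_nonneg_right ?_ (Real.exp_pos _).le
  calc (2 : ℝ) ^ (bigs D (Zb j) (d j) ω).card ≤ 2 ^ N ω := pow_le_pow_right₀ (by norm_num) hN
    _ ≤ 8 ^ N ω := pow_le_pow_left₀ (by norm_num) (by norm_num) _

theorem Bumps.XD_le (hB : Bumps J D p Z Zb F d (fun _ => True)) {N : ι → Cfg → ℕ}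
    (hN : ∀ j ∈ J, (bigs D (Zb j) (d j) ω).card ≤ N j ω) :
    |XD D p (fun z => ∑ j ∈ J, F j z) ω| ≤ ∏ j ∈ J, YN (N j) (F j) (d j) ω := by
  unfold XD
  rw [abs_prod]
  refine (hB.maj_det (T := pcs ω D) subset_rfl (fun _ _ => trivial)
    (fun A hA _ _ _ _ _ => hA)).trans ?_
  exact prod_le_prod (fun _ _ => by positivity) fun j hj => fac_le_YN (hB.supp j hj) (hN j hj)

end

/-! ### moments -/

theorem six {Y : Cfg → ℝ} {X : Cfg → ℝ} (hY : Fd Y) (hX : Fd X) (h : ∀ ω, |X ω| ≤ Y ω) :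
    m6 X ≤ ∫ ω, Y ω ^ 6 ∂μ := by
  unfold m6
  exact integral_mono ((hX.abs).pow 6).int (hY.pow 6).int fun ω =>
    pow_le_pow_left₀ (abs_nonneg _) (h ω) 6

theorem six_two {Y1 Y2 : Cfg → ℝ} (h1 : Fd Y1) (h2 : Fd Y2) {C a b : ℝ} (hC : 1 ≤ C) (ha : 0 ≤ a)
    (hb : 0 ≤ b) (k1 : ∫ ω, Y1 ω ^ 12 ∂μ ≤ C * a ^ 12) (k2 : ∫ ω, Y2 ω ^ 12 ∂μ ≤ C * b ^ 12) :
    ∫ ω, (Y1 ω * Y2 ω) ^ 6 ∂μ ≤ C ^ 2 * (a * b) ^ 6 := by
  have h := H167.cs_le (X := fun ω => Y1 ω ^ 6) (Y := fun ω => Y2 ω ^ 6) (h1.pow 6) (h2.pow 6)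
    (a := C * a ^ 6) (b := C * b ^ 6) (by positivity) (by positivity) ?_ ?_
  · have h3 := (le_abs_self _).trans h
    simp only [← mul_pow] at h3
    refine h3.trans (le_of_eq ?_)
    ring
  · have e1 : ∀ ω, (Y1 ω ^ 6) ^ 2 = Y1 ω ^ 12 := fun ω => by rw [← pow_mul]
    simp only [e1]
    refine k1.trans ?_
    rw [mul_pow, ← pow_mul]
    refine mul_le_mul_of_nonneg_right ?_ (by positivity)
    nlinarith
  · have e1 : ∀ ω, (Y2 ω ^ 6) ^ 2 = Y2 ω ^ 12 := fun ω => by rw [← pow_mul]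
    simp only [e1]
    refine k2.trans ?_
    rw [mul_pow, ← pow_mul]
    refine mul_le_mul_of_nonneg_right ?_ (by positivity)
    nlinarith

/-! ### the bump at the base site and the macroscopic charge -/

/-- A macroscopic charge with a connected zone. -/
structure MacZ (K : ℝ) (N : ℤ) (D Z : Finset (ℤ × ℤ)) (g : ℤ × ℤ → ℝ) : Prop where
  nonneg : ∀ z, 0 ≤ g z
  le : ∀ z, g z ≤ K / (N : ℝ) ^ 2
  sum : ∑ᶠ z, g z = Real.pi / 3
  econ : ECon Z
  supp : ∀ z, g z ≠ 0 → z ∈ sites Z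
  nbhd : ∀ v ∈ Z, ∀ w : ℤ × ℤ, (nm (w - v) : ℝ) ≤ N / K → w ∈ D

/-- The zones. -/
noncomputable def z2 (Z1 Z2 : Finset (ℤ × ℤ)) : Bool → Finset (ℤ × ℤ)
  | true => Z1
  | false => Z2

/-- The charges. -/
noncomputable def f2 (F1 F2 : ℤ × ℤ → ℝ) : Bool → ℤ × ℤ → ℝ
  | true => F1
  | false => F2

/-- The scales. -/
noncomputable def d2 (d1 d2 : ℝ) : Bool → ℝ
  | true => d1
  | false => d2

/-- Small loops have small mass. -/
theorem G_small {κ ρ Cm : ℝ} (hρ : 1 ≤ ρ) (hC : 0 ≤ Cm) (hκ : Cm * κ ^ 2 ≤ 1 / 2)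
    {g : ℤ × ℤ → ℝ} (hg : ∀ z, |g z| ≤ Cm / ρ ^ 2) {ℓ : Finset Ed} (hℓ : IsLoop ω ℓ)
    (hs : Small (κ * ρ) ℓ) : |G g ℓ| ≤ 1 / 2 := by
  have h := bd_G (κ := κ) hρ hC hg ω ℓ (κ * ρ) hℓ le_rfl hs
  refine h.trans (le_trans (le_of_eq ?_) hκ)
  have : ρ ≠ 0 := by linarith
  field_simp

theorem two_bumps (hq : IsPolygon q) (hD : Encloses q D) (h : Sc K r) (hF : Flt D (q 0) (2 * r))
    {Z : Finset (ℤ × ℤ)} {N : ℤ} (hN : 16 * K ≤ N) (hrN : 2 * r ≤ (N : ℝ) / K)
    (hZ : ECon Z) (hZn : ∀ v ∈ Z, ∀ w : ℤ × ℤ, (nm (w - v) : ℝ) ≤ N / K → w ∈ D)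
    {F1 F2 : ℤ × ℤ → ℝ} (h1 : ∀ z, |F1 z| ≤ K / (r : ℝ) ^ 2)
    (h1s : ∀ z, F1 z ≠ 0 → z ∈ sites (core K (q 0) r)) (h2 : ∀ z, |F2 z| ≤ K / (N : ℝ) ^ 2)
    (h2s : ∀ z, F2 z ≠ 0 → z ∈ sites Z) (h1t : ∃ c : ℤ, tot D F1 = c * (Real.pi / 3))
    (h2t : ∃ c : ℤ, tot D F2 = c * (Real.pi / 3)) :
    Bumps (univ : Finset Bool) D (q 0) (z2 (core K (q 0) r) Z) (z2 (hbox (q 0) r) D) (f2 F1 F2)
      (d2 (dl K r) (1 / (8 * K) * N)) (fun _ => True) := by
  have hK := h.one_le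
  have h8 : (8 : ℝ) ≤ r := by exact_mod_cast h.r8
  have hZD : Z ⊆ D := fun v hv => hZn v hv v (by
    rw [sub_self]
    have : ((nm (0 : ℤ × ℤ) : ℤ) : ℝ) = 0 := by simp [nm]
    rw [this]
    have : (0 : ℝ) ≤ N := by linarith
    positivity)
  have hcD : core K (q 0) r ⊆ D :=
    h.core_sub.trans ((hbox_mono (by have := h.r8; omega)).trans (hbox_sub hF))
  have hNK : (16 : ℝ) ≤ N / K := by rw [le_div_iff₀ (by linarith)]; exact hN
  have hdN : 1 / (8 * K) * (N : ℝ) = N / K / 8 := by field_simp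
  -- the distance of the zones
  have hfar : ∀ u ∈ core K (q 0) r, ∀ v ∈ Z, (N : ℝ) / K / 2 ≤ nm (u - v) := by
    intro u hu v hv
    have hu' := mem_hbox.1 (h.core_sub hu)
    set w : ℤ × ℤ := ((q 0).1, (q 0).2 - 1) with hw
    have hwD : w ∉ D := by
      intro hwD
      have := (hF w (by simp only [hw]; have := h.r8; omega) (by simp only [hw]; have := h.r8; omega)
        (by simp only [hw]; have := h.r8; omega) (by simp only [hw]; have := h.r8; omega)).1 hwD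
      simp only [hw] at this
      omega
    have k1 : (N : ℝ) / K < nm (w - v) := by
      by_contra hcon
      exact hwD (hZn v hv w (not_lt.1 hcon))
    have k2 : nm (w - u) ≤ r := by
      simp only [hw, nm, Prod.fst_sub, Prod.snd_sub, max_le_iff, abs_le]
      omega
    have k3 : (nm (w - v) : ℝ) ≤ nm (w - u) + nm (u - v) := by exact_mod_cast nm_tri w u v
    have k4 : (nm (w - u) : ℝ) ≤ r := by exact_mod_cast k2
    linarith
  refine
    { sub := ?_, zb := ?_, econ := ?_, supp := ?_, nbhd := ?_, small := ?_, sep := ?_,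
      base := ?_, conn := ?_, loop := ?_, tots := ?_ }
  · rintro (_ | _) _
    · exact hZD
    · exact hcD
  · rintro (_ | _) _
    · exact hZD
    · exact h.core_sub
  · rintro (_ | _) _
    · exact hZ
    · exact h.econ _
  · rintro (_ | _) _
    · exact h2s
    · exact h1s
  · rintro (_ | _) _ v hv w hw
    · refine hZn v hv w (hw.trans ?_)
      show 1 / (8 * K) * (N : ℝ) + 1 ≤ N / K
      rw [hdN]
      linarith
    · exact hbox_sub hF (h.near hv (hw.trans (by simp only [d2]; linarith)))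
  · rintro (_ | _) _ ω ℓ hℓ hs
    · refine G_small (ρ := N) (κ := 1 / (8 * K)) (by linarith) (by linarith) ?_ h2 hℓ hs
      rw [div_pow, one_pow, mul_one_div, div_le_iff₀ (by positivity)]
      nlinarith
    · exact (h.small h1 hℓ hs).trans (by norm_num)
  · have hdl := h.dl_le
    rintro (_ | _) _ (_ | _) _ hij u hu v hv
    · exact absurd rfl hij
    · have := hfar v hv u hu
      rw [nm_comm'] at this
      refine le_trans ?_ this
      show 1 / (8 * K) * (N : ℝ) + 2 ≤ N / K / 2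
      rw [hdN]
      linarith
    · have := hfar u hu v hv
      refine le_trans ?_ this
      show dl K r + 2 ≤ (N : ℝ) / K / 2
      linarith
    · exact absurd rfl hij
  · intro ω A hA _ hl
    exact W_poly hq hD hA hl
  · rintro (_ | _) _ z hz
    · exact conn_poly hq hD (sites_mono hZD hz)
    · exact conn_poly hq hD (sites_mono hcD hz)
  · rintro (_ | _) _ ω A hA _ hl hG
    · obtain ⟨e, he⟩ := pcs_nonempty hA
      exact ⟨e, he, subset_eds hA he⟩
    · by_contra hV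
      obtain ⟨z, hz, hfz⟩ := exists_ins_of_G hG
      have hr1 : 1 ≤ r := by have := h.r8; omega
      have hz' : z ∈ sites (hbox (q 0) r) := sites_mono h.core_sub (h1s z hfz)
      have hb' : q 0 ∈ sites (hbox (q 0) r) := by
        rw [mem_sites_hbox hr1]
        omega
      have h3 := W_zone (BR.IsLp.isLoop hA hl) hV (econ_hbox hr1 z hz' _ hb')
      rw [h3] at hz
      exact hz (W_poly hq hD hA hl)
  · intro s hs
    refine tots_of (J := univ) (t := fun j => tot D (f2 F1 F2 j)) ?_ s hs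
    rintro (_ | _) _
    · exact h2t
    · exact h1t

end Vale.Agent.P167.H562.MAJ
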