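import Vale.Agent.P167.H519.GLim
import Vale.Agent.P167.FKA.All
import Vale.Agent.P167.H562.GDefs
import Vale.Agent.P167.H45.Cross

/-!
# P167, general `q`: the conditional bounds for the infinite-volume measure
-/

namespace Vale.Agent.P167.H562.GL

open Finset Filter Topology MeasureTheory Vale.Agent.P167.FK Vale.Agent.P167.FKA
open Vale.Agent.P167.H519 (IsLim loc_cont Bq_mono exists_Bq)
open Vale.Agent.P167.H259 (f_markov f_fkg f_comp)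
open Vale.Agent.P167.H166 (bxx mem_bxx)

variable {Q : ℝ} {P : Measure Cfg}

theorem loc_integrable [IsFiniteMeasure P] {B : Finset (ℤ × ℤ)} {F : Cfg → ℝ} (hF : Loc B F) :
    Integrable F P := by
  have hc := loc_cont hF
  exact (BoundedContinuousFunction.mkOfCompact ⟨F, hc⟩).integrable P

theorem Loc.mono {A B : Finset (ℤ × ℤ)} (h : A ⊆ B) {F : Cfg → ℝ} (hF : Loc A F) : Loc B F :=
  fun ω ω' h' => hF ω ω' fun v hv => h' v (h hv)

theorem Loc.mul {A : Finset (ℤ × ℤ)} {F G : Cfg → ℝ} (hF : Loc A F) (hG : Loc A G) :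
    Loc A (fun ω => F ω * G ω) := fun ω ω' h => by
  show F ω * G ω = F ω' * G ω'
  rw [hF ω ω' h, hG ω ω' h]

/-- Transfer of the linear inequalities to the limit. -/
theorem lim_le (hP : IsLim Q P) {A B : Finset (ℤ × ℤ)} {F G : Cfg → ℝ} (hF : Loc A F)
    (hG : Loc B G) {a : ℝ} {D0 : Finset (ℤ × ℤ)}
    (h : ∀ D, D0 ⊆ D → Ex Q D eta0 F ≤ a * Ex Q D eta0 G) :
    ∫ ω, F ω ∂P ≤ a * ∫ ω, G ω ∂P := by
  refine le_of_forall_pos_le_add fun ε hε => ?_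
  set δ : ℝ := ε / (1 + |a|) with hδ
  have hδ0 : 0 < δ := by positivity
  obtain ⟨R1, h1⟩ := hP.2 A F hF δ hδ0
  obtain ⟨R2, h2⟩ := hP.2 B G hG δ hδ0
  obtain ⟨r, -, hr⟩ := exists_Bq D0
  set R := max (max R1 R2) r with hR
  have k1 := h1 (Bq 0 R) eta0 (Bq_mono ((le_max_left _ _).trans (le_max_left _ _))) f_good.2.1
  have k2 := h2 (Bq 0 R) eta0 (Bq_mono ((le_max_right _ _).trans (le_max_left _ _))) f_good.2.1
  have k3 := h (Bq 0 R) (hr.trans (Bq_mono (le_max_right _ _)))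
  rw [abs_le] at k1
  have k4 : a * (Ex Q (Bq 0 R) eta0 G - ∫ ω, G ω ∂P) ≤ |a| * δ := by
    refine (le_abs_self _).trans ?_
    rw [abs_mul]
    exact mul_le_mul_of_nonneg_left k2 (abs_nonneg a)
  have k5 : δ + |a| * δ = ε := by rw [hδ]; field_simp
  nlinarith [k1.1]

/-- Uniform decay of the arms for `P`, conditionally on the outside of the annulus. -/
def ArmPr (P : Measure Cfg) : Prop := ∃ α C : ℝ, 0 < α ∧ 0 < C ∧
  ∀ (x : ℤ × ℤ) (r R : ℤ) (B : Finset (ℤ × ℤ)) (G : Cfg → ℝ), 1 ≤ r → r ≤ R → (∀ ω, 0 ≤ G ω) →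
    Loc B G → Ind (Bq x R \ Bq x r) G →
    ∫ ω, G ω * {ω | ArmPx x r R ω}.indicator 1 ω ∂P ≤ C * ((r : ℝ) / R) ^ α * ∫ ω, G ω ∂P ∧
    ∫ ω, G ω * {ω | ArmDx x r R ω}.indicator 1 ω ∂P ≤ C * ((r : ℝ) / R) ^ α * ∫ ω, G ω ∂P

/-- The number of the crossing loops, conditionally on the outside of the box. -/
def CrossP (P : Measure Cfg) : Prop := ∃ (k : ℤ) (l C : ℝ), 2 ≤ k ∧ 0 < l ∧ 0 < C ∧
  ∀ (x : ℤ × ℤ) (r : ℤ), 1 ≤ r → ∃ Z : Cfg → ℕ,
    (∀ ω ω' : Cfg, (∀ v, nm (v - x) ≤ k * r → ω v = ω' v) → Z ω = Z ω') ∧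
    (∀ ω, Set.ncard {ℓ | IsLoop ω ℓ ∧ (∃ v ∈ vs ℓ, nm (v - x) ≤ r) ∧
      ∃ v ∈ vs ℓ, k * r ≤ nm (v - x)} ≤ Z ω) ∧
    ∀ (B : Finset (ℤ × ℤ)) (G : Cfg → ℝ), (∀ ω, 0 ≤ G ω) → Loc B G → Ind (bxx x (k * r)) G →
      ∫ ω, G ω * Real.exp (l * (Z ω : ℝ)) ∂P ≤ C * ∫ ω, G ω ∂P

/-- Locality of the dual arms. -/
theorem loc_armD (x : ℤ × ℤ) (r R : ℤ) : Loc (Bq x R) ({ω | ArmDx x r R ω}.indicator 1) := by
  have key : ∀ ω ω' : Cfg, (∀ v ∈ Bq x R, ω v = ω' v) → ArmDx x r R ω → ArmDx x r R ω' := by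
    intro ω ω' h h1
    rw [arm_dual] at h1 ⊢
    refine arm_loc (FKA.sh x) r R (fun v hv => ?_) h1
    rw [mem_Bq_sh] at hv
    show (!(ω (shi v))) = !(ω' (shi v))
    rw [h _ hv]
  intro ω ω' h
  by_cases h1 : ω ∈ {ω | ArmDx x r R ω}
  · have h2 : ω' ∈ {ω | ArmDx x r R ω} := key ω ω' h h1
    rw [Set.indicator_of_mem h1, Set.indicator_of_mem h2]
    rfl
  · have h2 : ω' ∉ {ω | ArmDx x r R ω} :=
      fun h2 => h1 (key ω' ω (fun v hv => (h v hv).symm) h2)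
    rw [Set.indicator_of_notMem h1, Set.indicator_of_notMem h2]

theorem armPr (hP : IsLim Q P) {α C : ℝ} (hα : 0 < α) (hC : 0 < C) (h1 : ArmDec Q α C)
    (h2 : ArmDecD Q α C) : ArmPr P := by
  refine ⟨α, C, hα, hC, fun x r R B G hr hR hG0 hG hI => ⟨?_, ?_⟩⟩
  · refine lim_le hP (A := B ∪ Bq x R) (B := B) (D0 := Bq x R \ Bq x r)
      (Loc.mul (Loc.mono Finset.subset_union_left hG)
        (Loc.mono Finset.subset_union_right (loc_arm x r R))) hG fun D hD => ?_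
    exact h1 x r R D eta0 G hr hR f_good.2.1 hD hG0 hI
  · refine lim_le hP (A := B ∪ Bq x R) (B := B) (D0 := Bq x R \ Bq x r)
      (Loc.mul (Loc.mono Finset.subset_union_left hG)
        (Loc.mono Finset.subset_union_right (loc_armD x r R))) hG fun D hD => ?_
    exact h2 x r R D eta0 G hr hR f_good.2.1 hD hG0 hI

theorem crossP (hP : IsLim Q P) (h : CrossFK Q) : CrossP P := by
  obtain ⟨k, l, C, hk, hl, hC, h⟩ := h
  refine ⟨k, l, C, hk, hl, hC, fun x r hr => ?_⟩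
  obtain ⟨Z, h1, h2, h3⟩ := h x r hr
  refine ⟨Z, h1, h2, fun B G hG0 hG hI => ?_⟩
  have hZ : Loc (bxx x (k * r)) (fun ω => Real.exp (l * (Z ω : ℝ))) := fun ω ω' hw => by
    show Real.exp (l * (Z ω : ℝ)) = Real.exp (l * (Z ω' : ℝ))
    rw [h1 ω ω' fun v hv => hw v (mem_bxx.2 hv)]
  refine lim_le hP (A := B ∪ bxx x (k * r)) (B := B) (D0 := bxx x (k * r))
      (Loc.mul (Loc.mono Finset.subset_union_left hG)
        (Loc.mono Finset.subset_union_right hZ)) hG fun D hD => ?_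
  exact h3 D eta0 G f_good.2.1 hD hG0 hI

end Vale.Agent.P167.H562.GL
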