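import Vale.Agent.P167.H562.GDefs
import Vale.Agent.P167.H259.Fin

/-!
# P167: classification of the loops for a general angle

The proofs are those of `H259/Main.lean` (helper259), with the weight `wt a` instead of `wf`.
-/

namespace Vale.Agent.P167.H562.GQ

open Finset
open Vale.Agent.P167 Vale.Agent.P167.H259

lemma wt0 {a : ℝ} (ha0 : 0 < a) (ha1 : a < Real.pi / 2) : wt a 0 = 1 := by
  rw [wt, add_zero, div_self (cos_pos' ha0 ha1).ne']

lemma abs_wt_le {a : ℝ} (ha0 : 0 < a) (ha1 : a < Real.pi / 2) (t : ℝ) :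
    |wt a t| ≤ 1 / Real.cos a := by
  unfold wt
  rw [abs_div, abs_of_pos (cos_pos' ha0 ha1)]
  exact div_le_div_of_nonneg_right (Real.abs_cos_le_one _) (cos_pos' ha0 ha1).le

lemma one_le_inv_cos {a : ℝ} (ha0 : 0 < a) (ha1 : a < Real.pi / 2) : 1 ≤ 1 / Real.cos a := by
  rw [le_div_iff₀ (cos_pos' ha0 ha1), one_mul]
  exact Real.cos_le_one a

section

variable {a κ Cm : ℝ} {ρ b : Fin 3 → ℝ} {m : Fin 3 → ℤ × ℤ → ℝ} {ω : Cfg} {ℓ : Finset Ed}

open Classical in
/-- Classification of one loop. -/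
lemma cls_one (ha0 : 0 < a) (ha1 : a < Real.pi / 2) (T : Top) (D : Dat κ Cm ρ b m) (h : IsLoop ω ℓ) :
    wt a (G (fun x => ∑ j, b j * m j x) ℓ) =
      (∏ j, if PY κ ρ j ℓ then wt a (G (fun x => b j * m j x) ℓ) else 1) *
      (if PK κ ρ ℓ then wt a (G (fun x => ∑ j, b j * m j x) ℓ) else 1) *
      (if Btw (ρ 0) (ρ 1) ℓ then wt a (b 0) else 1) *
      (if Btw (ρ 1) (ρ 2) ℓ then wt a (b 0 + b 1) else 1) := by
  have h0 := D.r0
  have hr1 := D.r1
  have hr2 := D.r2
  have hb := D.hb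
  rw [Fin.sum_univ_three] at hb
  by_cases hV : ∃ j, Vj ρ j ℓ
  · obtain ⟨j, hj⟩ := hV
    obtain ⟨n1, n2⟩ := btw_not_vis D h hj
    rw [if_neg n1, if_neg n2, mul_one, mul_one]
    by_cases hs : ∃ j, PY κ ρ j ℓ
    · obtain ⟨j, hj, hs⟩ := hs
      have hK : ¬ PK κ ρ ℓ := by
        rintro ⟨i, hi, hi'⟩
        by_cases hij : i = j
        · subst hij; exact hi' hs
        · exact (small_one T D h hj hs hij).1 hi
      rw [if_neg hK, mul_one, Finset.prod_eq_single j]
      · rw [if_pos ⟨hj, hs⟩, D.G_smul, G_lin b m ℓ D.mem, Finset.sum_eq_single j]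
        · intro i _ hij
          rw [(small_one T D h hj hs hij).2, mul_zero]
        · intro hh; exact absurd (Finset.mem_univ j) hh
      · intro i _ hij
        rw [if_neg]
        rintro ⟨hi, _⟩
        exact (small_one T D h hj hs hij).1 hi
      · intro hh; exact absurd (Finset.mem_univ j) hh
    · push Not at hs
      have hK : PK κ ρ ℓ := ⟨j, hj, fun h' => hs j ⟨hj, h'⟩⟩
      rw [if_pos hK, Finset.prod_eq_one, one_mul]
      intro i _
      rw [if_neg (hs i)]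
  · push Not at hV
    have hY : ∀ j, ¬ PY κ ρ j ℓ := fun j hj => hV j hj.1
    have hK : ¬ PK κ ρ ℓ := fun ⟨j, hj, _⟩ => hV j hj
    rw [if_neg hK, mul_one, Finset.prod_eq_one (fun j _ => if_neg (hY j)), one_mul, D.G_eq]
    obtain ⟨v0, hv0⟩ := vs_nonempty h
    have c0 := in_or_out T h (by linarith) (hV 0)
    have c1 := in_or_out T h (by linarith) (hV 1)
    have c2 := in_or_out T h (by linarith) (hV 2)
    rcases c2 with c2 | c2
    · rw [G_in T D h (i := 2) (by linarith) c2]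
      rcases c1 with c1 | c1
      · rw [G_in T D h (i := 1) (by linarith) c1]
        have nb : ¬ Btw (ρ 1) (ρ 2) ℓ := fun hh => by
          have := (hh.1 v0 hv0).1
          have := c1 v0 hv0
          linarith
        rw [if_neg nb]
        rcases c0 with c0 | c0
        · rw [G_in T D h (i := 0) (by linarith) c0]
          have na : ¬ Btw (ρ 0) (ρ 1) ℓ := fun hh => by
            have := (hh.1 v0 hv0).1
            have := c0 v0 hv0
            linarith
          rw [if_neg na]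
          simp [(wt0 ha0 ha1)]
        · rw [G_out T D h (i := 0) (by linarith) c0]
          by_cases hW : W ℓ 0 = 0
          · have na : ¬ Btw (ρ 0) (ρ 1) ℓ := fun hh => hh.2 hW
            rw [if_neg na, if_neg (by simp [hW])]
            simp [(wt0 ha0 ha1)]
          · have na : Btw (ρ 0) (ρ 1) ℓ := ⟨fun v hv => ⟨c0 v hv, c1 v hv⟩, hW⟩
            rw [if_pos na, if_pos hW]
            simp
      · have na : ¬ Btw (ρ 0) (ρ 1) ℓ := fun hh => by
          have := (hh.1 v0 hv0).2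
          have := c1 v0 hv0
          linarith
        rw [if_neg na, G_out T D h (i := 0) (by linarith) c1, G_out T D h (i := 1) (by linarith) c1]
        by_cases hW : W ℓ 0 = 0
        · have nb : ¬ Btw (ρ 1) (ρ 2) ℓ := fun hh => hh.2 hW
          rw [if_neg nb, if_neg (by simp [hW])]
          simp [(wt0 ha0 ha1)]
        · have nb : Btw (ρ 1) (ρ 2) ℓ := ⟨fun v hv => ⟨c1 v hv, c2 v hv⟩, hW⟩
          rw [if_pos nb, if_pos hW]
          simp
    · have na : ¬ Btw (ρ 0) (ρ 1) ℓ := fun hh => by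
        have := (hh.1 v0 hv0).2
        have := c2 v0 hv0
        linarith
      have nb : ¬ Btw (ρ 1) (ρ 2) ℓ := fun hh => by
        have := (hh.1 v0 hv0).2
        have := c2 v0 hv0
        linarith
      rw [if_neg na, if_neg nb, G_out T D h (i := 0) (by linarith) c2,
        G_out T D h (i := 1) (by linarith) c2, G_out T D h (i := 2) (by linarith) c2,
        ← add_mul, ← add_mul, hb, zero_mul, (wt0 ha0 ha1)]
      simp

lemma X_prod (ha0 : 0 < a) (ha1 : a < Real.pi / 2) (T : Top) (D : Dat κ Cm ρ b m) (ω : Cfg) :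
    Xa a (fun x => ∑ j, b j * m j x) ω =
      ∏ ℓ ∈ SS T ρ ω, wt a (G (fun x => ∑ j, b j * m j x) ℓ) := by
  unfold Xa
  apply finprod_mem_eq_prod_of_inter_mulSupport_eq
  ext ℓ
  simp only [Set.mem_inter_iff, Function.mem_mulSupport, Finset.mem_coe, mem_SS]
  constructor
  · rintro ⟨h, hne⟩
    refine ⟨⟨h, ?_⟩, hne⟩
    by_contra hc
    push Not at hc
    apply hne
    have hb := D.hb
    rw [Fin.sum_univ_three] at hb
    have h0 := D.r0
    have hr1 := D.r1
    have hr2 := D.r2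
    have hl : IsLoop ω ℓ := h
    rw [D.G_eq, G_out T D hl (i := 0) (by linarith) hc,
        G_out T D hl (i := 1) (by linarith) hc, G_out T D hl (i := 2) (by linarith) hc,
        ← add_mul, ← add_mul, hb, zero_mul, (wt0 ha0 ha1)]
  · rintro ⟨⟨h, _⟩, hne⟩
    exact ⟨h, hne⟩

open Classical in
lemma Yn_prod (T : Top) (D : Dat κ Cm ρ b m) (ω : Cfg) (j : Fin 3) :
    Yna a (ρ j - 2) (2 * ρ j + 2) (κ * ρ j) (fun x => b j * m j x) ω =
      ∏ ℓ ∈ SS T ρ ω, if PY κ ρ j ℓ then wt a (G (fun x => b j * m j x) ℓ) else 1 := by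
  unfold Yna
  rw [← Finset.prod_filter]
  apply finprod_mem_eq_prod_of_inter_mulSupport_eq
  congr 1
  ext ℓ
  simp only [Finset.coe_filter, Set.mem_setOf_eq]
  constructor
  · rintro ⟨h, hv, hs⟩
    exact ⟨vj_mem_SS T D h hv, hv, hs⟩
  · rintro ⟨h, hv, hs⟩
    exact ⟨(mem_SS.1 h).1, hv, hs⟩

open Classical in
/-- Exact classification identity. -/
theorem X_eq (ha0 : 0 < a) (ha1 : a < Real.pi / 2) (T : Top) (D : Dat κ Cm ρ b m) (ω : Cfg) :
    Xa a (fun x => ∑ j, b j * m j x) ω =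
      (∏ j, Yna a (ρ j - 2) (2 * ρ j + 2) (κ * ρ j) (fun x => b j * m j x) ω) *
      (∏ ℓ ∈ (SS T ρ ω).filter (PK κ ρ), wt a (G (fun x => ∑ j, b j * m j x) ℓ)) *
      wt a (b 0) ^ (Nn (2 * ρ 0 + 2) (ρ 1 - 2) ω) * wt a (b 0 + b 1) ^ (Nn (2 * ρ 1 + 2) (ρ 2 - 2) ω) := by
  have h0 := D.r0
  have hr1 := D.r1
  have hr2 := D.r2
  rw [X_prod ha0 ha1 T D, Finset.prod_congr rfl (fun ℓ hℓ => cls_one ha0 ha1 T D (mem_SS.1 hℓ).1),
    Finset.prod_mul_distrib, Finset.prod_mul_distrib, Finset.prod_mul_distrib, Finset.prod_comm]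
  congr 1
  · congr 1
    · congr 1
      · exact Finset.prod_congr rfl fun j _ => (Yn_prod T D ω j).symm
      · rw [Finset.prod_filter]
    · rw [← Finset.prod_filter, Finset.prod_const, Nn_card T (by linarith) (by linarith)]
  · rw [← Finset.prod_filter, Finset.prod_const, Nn_card T le_rfl (by linarith)]

end

/-- E3. -/
theorem cls_up {a : ℝ} (ha0 : 0 < a) (ha1 : a < Real.pi / 2) (T : Top) : G_cls_up a := by
  intro κ Cm hκ hκ'
  refine ⟨32, fun ω ρ b m h0 h1 h2 hm hb => ?_⟩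
  classical
  have D : Dat κ Cm ρ b m := ⟨hκ, hκ', h0, h1, h2, hm, hb⟩
  rw [X_eq ha0 ha1 T D, abs_mul, abs_mul, abs_mul, Finset.abs_prod, abs_pow, abs_pow]
  apply mul_le_mul_of_nonneg_right _ (by positivity)
  apply mul_le_mul_of_nonneg_right _ (by positivity)
  apply mul_le_mul_of_nonneg_left _ (Finset.prod_nonneg fun _ _ => abs_nonneg _)
  rw [Finset.abs_prod]
  calc ∏ ℓ ∈ (SS T ρ ω).filter (PK κ ρ), |wt a (G (fun x => ∑ j, b j * m j x) ℓ)|
      ≤ ∏ _ℓ ∈ (SS T ρ ω).filter (PK κ ρ), (1 / Real.cos a) :=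
        Finset.prod_le_prod (fun _ _ => abs_nonneg _) (fun _ _ => (abs_wt_le ha0 ha1 _))
    _ = (1 / Real.cos a) ^ ((SS T ρ ω).filter (PK κ ρ)).card := Finset.prod_const _
    _ ≤ (1 / Real.cos a) ^ (∑ j, Kn (ρ j - 2) (2 * ρ j + 2) (κ * ρ j) ω) :=
        pow_le_pow_right₀ (one_le_inv_cos ha0 ha1) (PK_card T D ω)

/-- E4. -/
theorem cls_lo {a : ℝ} (ha0 : 0 < a) (ha1 : a < Real.pi / 2) (T : Top) : G_cls_lo a := by
  intro κ Cm hκ hκ'
  refine ⟨32, fun ω ρ b m w₀ h0 h1 h2 hm hb hw0 hw1 hY hw01 hw2 hw2' hcase => ?_⟩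
  classical
  have D : Dat κ Cm ρ b m := ⟨hκ, hκ', h0, h1, h2, hm, hb⟩
  have hb3 := hb
  rw [Fin.sum_univ_three] at hb3
  rw [X_eq ha0 ha1 T D]
  have p0 : 0 < wt a (b 0) := by
    have := hY 0 1 ⟨zero_le_one, le_rfl⟩
    rwa [one_mul] at this
  have p1 : 0 < wt a (b 0 + b 1) := by
    have := hw01 1 ⟨zero_le_one, le_rfl⟩ 1 ⟨zero_le_one, le_rfl⟩
    rw [one_mul, one_mul] at this
    linarith
  have pY : ∀ j, 0 ≤ Yna a (ρ j - 2) (2 * ρ j + 2) (κ * ρ j) (fun x => b j * m j x) ω := by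
    intro j
    rw [Yn_prod T D]
    apply Finset.prod_nonneg
    intro ℓ _
    split_ifs
    · rw [D.G_smul, mul_comm]
      exact (hY j _ (G_mem (hm j) ℓ)).le
    · exact zero_le_one
  apply mul_le_mul_of_nonneg_right _ (by positivity)
  apply mul_le_mul_of_nonneg_right _ (by positivity)
  apply mul_le_mul_of_nonneg_left _ (Finset.prod_nonneg fun j _ => pY j)
  have key : ∀ ℓ ∈ (SS T ρ ω).filter (PK κ ρ), w₀ ≤ wt a (G (fun x => ∑ j, b j * m j x) ℓ) := by
    intro ℓ hℓ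
    obtain ⟨hS, j, hj, _⟩ := Finset.mem_filter.1 hℓ
    have hl := (mem_SS.1 hS).1
    rw [D.G_eq]
    rcases hcase with hc | hc
    · rw [hc, zero_mul, add_zero, mul_comm (b 0), mul_comm (b 1)]
      exact hw01 _ (G_mem (hm 0) ℓ) _ (G_mem (hm 1) ℓ)
    · obtain ⟨ℓ₀, hl0, hb0⟩ : ∃ ℓ₀, IsLoop ω ℓ₀ ∧ Btw (ρ 1) (ρ 2) ℓ₀ := by
        by_contra hcon
        push Not at hcon
        apply hc
        rw [Nn_card T le_rfl (by linarith), Finset.card_eq_zero, Finset.filter_eq_empty_iff]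
        intro ℓ' hℓ'
        exact hcon ℓ' (mem_SS.1 hℓ').1
      by_cases hj2 : j = 2
      · subst hj2
        rw [outside_G T D hl0 hb0 hl hj (i := 0) (by decide),
          outside_G T D hl0 hb0 hl hj (i := 1) (by decide)]
        split_ifs with hW
        · have h3 : b 0 * 1 + b 1 * 1 + b 2 * G (m 2) ℓ = -((1 - G (m 2) ℓ) * b 2) := by
            linear_combination hb3
          rw [h3]
          have := G_mem (hm 2) ℓ
          exact hw2' _ ⟨by linarith [this.2], by linarith [this.1]⟩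
        · rw [mul_zero, mul_zero, zero_add, zero_add, mul_comm]
          exact hw2 _ (G_mem (hm 2) ℓ)
      · obtain ⟨v, hv, hv1, hv2⟩ := hj
        have hv3 : (nm v : ℝ) ≤ 2 * ρ 1 + 2 := by
          fin_cases j
          · simp only [Fin.zero_eta] at hv2; linarith
          · simpa using hv2
          · exact absurd rfl hj2
        rw [inside_G T D hl0 hb0 hl hv hv3, mul_zero, add_zero, mul_comm (b 0), mul_comm (b 1)]
        exact hw01 _ (G_mem (hm 0) ℓ) _ (G_mem (hm 1) ℓ)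
  calc w₀ ^ (∑ j, Kn (ρ j - 2) (2 * ρ j + 2) (κ * ρ j) ω)
      ≤ w₀ ^ ((SS T ρ ω).filter (PK κ ρ)).card :=
        pow_le_pow_of_le_one hw0.le hw1 (PK_card T D ω)
    _ = ∏ _ℓ ∈ (SS T ρ ω).filter (PK κ ρ), w₀ := (Finset.prod_const _).symm
    _ ≤ ∏ ℓ ∈ (SS T ρ ω).filter (PK κ ρ), wt a (G (fun x => ∑ j, b j * m j x) ℓ) :=
        Finset.prod_le_prod (fun _ _ => hw0.le) key

end Vale.Agent.P167.H562.GQ
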