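import Vale.Agent.P167.H562.GLin
import Vale.Agent.P167.H45.Small3

/-!
# P167, general `q`: linear statistics of the small loops, conclusion
-/

namespace Vale.Agent.P167.H562.GL

open Finset Filter Topology MeasureTheory Vale.Agent.P167.FK
open Vale.Agent.P167.FKA (Loc Ind ArmDec)
open Vale.Agent.P167.H519 (IsLim loc_cont Bq_mono exists_Bq)
open Vale.Agent.P167.H45 (gp BL BL_fin sf mem_sf zz zz_box XX XX_loc XX_le decomp small_box bs_le
  grid_fin nm_le nm_sub_le G_bound)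

/-- Linear statistics of the small loops. -/
def LinP (P : Measure Cfg) : Prop := ∀ Cm κ : ℝ, 0 < Cm → 0 < κ → κ ≤ 1 / 8 → ∀ T1 : ℝ, ∃ B : ℝ,
  ∀ ρ : ℝ, 4 ≤ ρ → ∀ m, Chg Cm ρ m → ∀ t : ℝ, |t| ≤ T1 →
    Em P (fun ω => t * (∑ ℓ ∈ sf ρ (κ * ρ) ω, G m ℓ -
      ∫ ω', ∑ ℓ ∈ sf ρ (κ * ρ) ω', G m ℓ ∂P)) ≤ ENNReal.ofReal (Real.exp B)

theorem geom_two {x : ℝ} (h0 : 0 ≤ x) (h1 : x < 1) (J : ℕ) :
    ∑ j ∈ Finset.range J, x ^ (j / 2) ≤ 2 / (1 - x) := by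
  have h2 : ∀ m : ℕ, ∑ j ∈ Finset.range (2 * m), x ^ (j / 2) = 2 * ∑ i ∈ Finset.range m, x ^ i := by
    intro m
    induction m with
    | zero => simp
    | succ m ih =>
      rw [show 2 * (m + 1) = 2 * m + 1 + 1 by ring, Finset.sum_range_succ, Finset.sum_range_succ,
        ih, Finset.sum_range_succ]
      have e1 : 2 * m / 2 = m := by omega
      have e2 : (2 * m + 1) / 2 = m := by omega
      rw [e1, e2]; ring
  calc ∑ j ∈ Finset.range J, x ^ (j / 2) ≤ ∑ j ∈ Finset.range (2 * J), x ^ (j / 2) :=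
        Finset.sum_le_sum_of_subset_of_nonneg (Finset.range_mono (by omega))
          fun _ _ _ => pow_nonneg h0 _
    _ = 2 * ∑ i ∈ Finset.range J, x ^ i := h2 J
    _ ≤ 2 * (1 / (1 - x)) := by linarith [geom_le h0 h1 J]
    _ = _ := by ring

theorem four_half (j : ℕ) : (4 : ℝ) ^ (j / 2) ≤ 2 ^ j := by
  have : (4 : ℝ) ^ (j / 2) = 2 ^ (2 * (j / 2)) := by rw [pow_mul]; norm_num
  rw [this]
  exact pow_le_pow_right₀ (by norm_num) (by omega)

theorem lin_P {Q : ℝ} (hQ : 1 ≤ Q) {al Ca : ℝ} (hal : 0 < al) (hCa : 0 < Ca)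
    (hA : ArmDec Q al Ca) {P : Measure Cfg} (hP : IsLim Q P) (hX : CrossP P) : LinP P := by
  classical
  have hPp : IsProbabilityMeasure P := hP.1
  intro Cm κ hCm hκ hκ1 T1
  set α : ℝ := Cm * κ ^ 2 with hα
  have hα0 : 0 < α := by positivity
  set s1 : ℝ := 4 * (9 : ℕ) * (16 * α) * |T1| with hs1
  have hs0 : 0 ≤ s1 := by positivity
  obtain ⟨C, hC⟩ := large_genU hX s_con s_two (1 / 8) (s1 + 1) (by norm_num)
  set M : ℝ := Real.log (max C 1) with hM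
  have hM0 : 0 ≤ M := Real.log_nonneg (le_max_right _ _)
  have heM : Real.exp M = max C 1 := Real.exp_log (by positivity)
  -- mixing rate
  set x : ℝ := Real.sqrt ((1 / 2) ^ al) with hx
  have hx0 : 0 < x := Real.sqrt_pos.2 (by positivity)
  have hxx : x ^ 2 = (1 / 2) ^ al := Real.sq_sqrt (by positivity)
  have hx1 : x < 1 := by
    have h1 : ((1 : ℝ) / 2) ^ al < 1 := Real.rpow_lt_one (by norm_num) (by norm_num) hal
    rw [← hxx] at h1
    nlinarith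
  set C1 : ℝ := Real.sqrt (2 * Ca) with hC1
  have hC10 : 0 < C1 := Real.sqrt_pos.2 (by positivity)
  have hC11 : C1 ^ 2 = 2 * Ca := Real.sq_sqrt (by positivity)
  set B0 : ℝ := 16 * α * (C1 * (2 + 4 * Real.exp M)) with hB0
  set Gc : ℝ := 2 * Real.exp M * Real.exp ((s1 + 1) * Real.exp M) with hGc
  refine ⟨50 / κ ^ 2 * ((9 : ℕ) * |T1| * B0 * (2 / (1 - x)) +
    12 * Gc * (9 : ℕ) ^ 2 * |T1| ^ 2 * (16 * α) ^ 2), fun ρ hρ m hm t ht => ?_⟩
  have ht' : |t| ≤ |T1| := ht.trans (le_abs_self _)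
  have hρ0 : 0 < ρ := by linarith
  obtain ⟨W, hW⟩ := grid_super hκ hκ1 hρ
  -- number of scales
  have hex : ∃ J : ℕ, κ * ρ / 2 ^ J ≤ 1 := by
    obtain ⟨J, hJ⟩ := pow_unbounded_of_one_lt (κ * ρ) (by norm_num : (1 : ℝ) < 2)
    exact ⟨J, by rw [div_le_one (by positivity)]; exact hJ.le⟩
  obtain ⟨J, hJ, hJ'⟩ : ∃ J : ℕ, κ * ρ / 2 ^ J ≤ 1 ∧ ∀ j < J, 1 ≤ κ * ρ / 2 ^ j :=
    ⟨Nat.find hex, Nat.find_spec hex, fun j hj => (not_le.1 (Nat.find_min hex hj)).le⟩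
  have hGb : ∀ j : ℕ, ∀ ω ℓ, IsLoop ω ℓ → Small (κ * ρ / 2 ^ j) ℓ →
      |G m ℓ| ≤ α * (1 / 4) ^ j := by
    intro j ω ℓ h1 h2
    obtain ⟨g1, g2⟩ := G_bound s_out hCm.le hm h1 h2
    rw [abs_of_nonneg g1]
    refine g2.trans (le_of_eq ?_)
    rw [hα]
    have : ((1 : ℝ) / 4) ^ j = 1 / (2 ^ j) ^ 2 := by
      rw [← pow_mul, mul_comm j 2, pow_mul, one_div, inv_pow]; norm_num
    rw [this]; field_simp
  set Lj : ℕ → ℤ := fun j => ⌈κ * ρ / 2 ^ j⌉ with hLj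
  have hL1 : ∀ j < J, 1 ≤ Lj j := fun j hj =>
    Int.one_le_ceil_iff.2 (by linarith [hJ' j hj])
  have hXl : ∀ j < J, ∀ w ∈ W j, ∀ z ∈ sS j w,
      Loc (Bq (gp (Lj j) z) (2 * Lj j)) (XX ρ (κ * ρ) (G m) j z) := by
    intro j hj w _ z _ ω ω' hω
    refine XX_loc hJ (G m) j z ω ω' fun v hv => hω v ?_
    obtain ⟨h1, h2, h3, h4⟩ := hv
    have := hL1 j hj
    simp only [Bq, gp, Finset.mem_product, Finset.mem_Ico]
    simp only [hLj] at this ⊢
    refine ⟨⟨?_, ?_⟩, ?_, ?_⟩ <;> linarith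
  have hXK : ∀ j < J, ∀ w ∈ W j, ∀ z ∈ sS j w, ∀ ω, |XX ρ (κ * ρ) (G m) j z ω| ≤
      α * (1 / 4) ^ j * ((BL (gp (Lj j) z) (2 * (Lj j : ℝ)) (1 / 8 * (2 * (Lj j : ℝ))) ω).ncard :
        ℝ) := fun j hj w _ z _ ω =>
    XX_le hJ (hJ' j hj) z ω (by positivity) (fun ℓ h1 h2 => hGb j ω ℓ h1 h2)
  have hMK : ∀ j < J, ∀ w ∈ W j, ∀ z ∈ sS j w, ∀ ν, Nu P ν (sU (Lj j) j w) →
      Em ν (fun ω => (s1 + 1) * ((BL (gp (Lj j) z) (2 * (Lj j : ℝ))
        (1 / 8 * (2 * (Lj j : ℝ))) ω).ncard : ℝ)) ≤ ENNReal.ofReal (Real.exp M) := by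
    intro j hj w _ z hz ν hν
    have h1 : (1 : ℝ) ≤ Lj j := by exact_mod_cast hL1 j hj
    rw [heM]
    exact (hC ν _ hν (gp (Lj j) z) (2 * (Lj j : ℝ)) (by linarith)
      (fun v hv => near_sub_sU (hL1 j hj) hz hv)).trans (ENNReal.ofReal_le_ofReal (le_max_left _ _))
  set b : ℕ → ℝ := fun j => α * (1 / 4) ^ j * (C1 * x ^ (j / 2)) * (2 + 4 * Real.exp M) with hb
  have hbias : ∀ j < J, ∀ w ∈ W j, ∀ z ∈ sS j w, ∀ ν, Nu P ν (sU (Lj j) j w) →
      |∫ ω, XX ρ (κ * ρ) (G m) j z ω ∂ν - ∫ ω, XX ρ (κ * ρ) (G m) j z ω ∂P| ≤ b j := by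
    intro j hj w hw z hz ν hν
    have hνp := hν.prob
    have hmono : ∀ η : Measure Cfg, Em η (fun ω => (s1 + 1) * ((BL (gp (Lj j) z)
        (2 * (Lj j : ℝ)) (1 / 8 * (2 * (Lj j : ℝ))) ω).ncard : ℝ)) ≤
          ENNReal.ofReal (Real.exp M) → Em η (fun ω => ((BL (gp (Lj j) z)
        (2 * (Lj j : ℝ)) (1 / 8 * (2 * (Lj j : ℝ))) ω).ncard : ℝ)) ≤
          ENNReal.ofReal (Real.exp M) := by
      intro η h
      refine (Em_mono fun ω => ?_).trans h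
      have : (0 : ℝ) ≤ ((BL (gp (Lj j) z) (2 * (Lj j : ℝ))
        (1 / 8 * (2 * (Lj j : ℝ))) ω).ncard : ℝ) := by positivity
      nlinarith
    refine bias (hXl j hj w hw z hz) (H45.BL_measR _ _ _) (fun ω => by positivity)
      (by positivity) (Real.exp_pos M).le (by positivity) (hXK j hj w hw z hz)
      (hmono ν (hMK j hj w hw z hz ν hν)) (hmono P (hMK j hj w hw z hz P (nu_self _)))
      fun F hF0 hF1 hF => ?_
    have hN := sN_pos j
    have hLpos := hL1 j hj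
    refine (nu_mix hQ hA hP (x := gp (Lj j) z) (r := 2 * Lj j) (R := sN j * Lj j) (by omega)
      (by nlinarith) (Bq_sub_sU (hL1 j hj) hz) hν (Finset.Subset.refl _) hF0 hF1 hF).trans ?_
    have hLR : (0 : ℝ) < Lj j := by exact_mod_cast (by omega : 0 < Lj j)
    have e1 : ((2 * Lj j : ℤ) : ℝ) / ((sN j * Lj j : ℤ) : ℝ) = (1 / 2) * (1 / 2) ^ (j / 2) := by
      unfold sN
      push_cast
      rw [one_div, inv_pow]
      field_simp
      norm_num
    rw [e1, Real.mul_rpow (by norm_num) (by positivity), mul_pow, hC11]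
    have e2 : (((1 : ℝ) / 2) ^ (j / 2)) ^ al = (x ^ (j / 2)) ^ 2 := by
      rw [← pow_mul, mul_comm, pow_mul, hxx, ← Real.rpow_natCast, ← Real.rpow_mul (by norm_num),
        ← Real.rpow_natCast, ← Real.rpow_mul (by norm_num), mul_comm]
    rw [e2]
    have h3 : ((1 : ℝ) / 2) ^ al ≤ 1 := Real.rpow_le_one (by norm_num) (by norm_num) hal.le
    have h4 : 0 ≤ (x ^ (j / 2)) ^ 2 := by positivity
    have h5 : ((1 : ℝ) / 2) ^ al * (x ^ (j / 2)) ^ 2 ≤ 1 * (x ^ (j / 2)) ^ 2 :=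
      mul_le_mul_of_nonneg_right h3 h4
    nlinarith
  have hna : ∀ j < J, (sn j : ℝ) * (α * (1 / 4) ^ j) ≤ 16 * α * (1 / 2) ^ j := by
    intro j _
    have h1 := four_half j
    have e1 : ((1 : ℝ) / 4) ^ j = (1 / 2) ^ j * (1 / 2) ^ j := by rw [← mul_pow]; norm_num
    have e2 : (2 : ℝ) ^ j * (1 / 2) ^ j = 1 := by rw [← mul_pow]; norm_num
    unfold sn
    push_cast
    rw [e1]
    have h2 : (0 : ℝ) < (1 / 2) ^ j := by positivity
    have h3 : (4 : ℝ) ^ (j / 2) * (1 / 2) ^ j ≤ 1 :=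
      (mul_le_mul_of_nonneg_right h1 h2.le).trans e2.le
    calc 16 * (4 : ℝ) ^ (j / 2) * (α * ((1 / 2) ^ j * (1 / 2) ^ j))
        = 16 * α * (1 / 2) ^ j * ((4 : ℝ) ^ (j / 2) * (1 / 2) ^ j) := by ring
      _ ≤ 16 * α * (1 / 2) ^ j * 1 := mul_le_mul_of_nonneg_left h3 (by positivity)
      _ = _ := by ring
  have hmain := multi (P := P) J 9 (by norm_num) W code3 sS
    (X := fun j z ω => XX ρ (κ * ρ) (G m) j z ω)
    (K := fun j z ω => ((BL (gp (Lj j) z) (2 * (Lj j : ℝ)) (1 / 8 * (2 * (Lj j : ℝ))) ω).ncard : ℝ))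
    (A := fun j z => Bq (gp (Lj j) z) (2 * Lj j)) (U := fun j w => sU (Lj j) j w)
    hXl (fun j _ w _ z _ => H45.BL_measR _ _ _) (fun j _ w _ z _ ω => by positivity)
    (fun j hj w _ w' _ hne hcol z hz => by
      refine Finset.disjoint_of_subset_left ?_ (sU_disj (hL1 j hj) hne hcol)
      refine Finset.Subset.trans ?_ (Bq_sub_sU (hL1 j hj) hz)
      have hN := sN_pos j
      have hLpos := hL1 j hj
      have h1 : 2 * Lj j ≤ sN j * Lj j := by nlinarith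
      intro v hv
      simp only [Bq, Finset.mem_product, Finset.mem_Ico] at hv ⊢
      refine ⟨⟨?_, ?_⟩, ?_, ?_⟩ <;> linarith [hv.1.1, hv.1.2, hv.2.1, hv.2.2])
    (s := s1) (M := M) (A0 := 16 * α) (B0 := B0) (β := 50 / κ ^ 2) (Γ := 2 / (1 - x)) (t := t)
    (a := fun j => α * (1 / 4) ^ j) (b := b) (g := fun j => x ^ (j / 2)) (n := sn)
    hs0 hM0 (fun j => by unfold sn; positivity) (fun j _ w _ => (sS_card j w).le)
    (fun j => by simp only [hb]; positivity) (fun j => by positivity) (by positivity)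
    (by positivity) (by positivity) (fun j => by positivity) hXK hMK hbias hna
    (fun j hj => by
      have h1 := hna j hj
      simp only [hb, hB0]
      have h2 : 0 ≤ C1 * x ^ (j / 2) * (2 + 4 * Real.exp M) := by positivity
      have h3 := mul_le_mul_of_nonneg_right h1 h2
      linarith)
    (fun j hj => (hW j (hJ' j hj)).1) (geom_two hx0.le hx1 J)
    (by
      rw [hs1]
      exact mul_le_mul_of_nonneg_left ht' (by positivity))
  have hint : ∀ j < J, ∀ w ∈ W j, ∀ z ∈ sS j w,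
      Integrable (fun ω => XX ρ (κ * ρ) (G m) j z ω) P :=
    fun j hj w hw z hz => loc_integrable (hXl j hj w hw z hz)
  have hdec : ∀ ω, ∑ ℓ ∈ sf ρ (κ * ρ) ω, G m ℓ = ∑ j ∈ Finset.range J, ∑ w ∈ W j,
      ∑ z ∈ sS j w, XX ρ (κ * ρ) (G m) j z ω := by
    intro ω
    rw [decomp hJ hJ' (Ig := fun j => (W j).biUnion (sS j)) (fun j hj ω ℓ hℓ => by
      obtain ⟨w, hw, hz⟩ := (hW j hj).2 ω ℓ hℓ
      exact Finset.mem_biUnion.2 ⟨w, hw, hz⟩) (G m) ω]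
    refine Finset.sum_congr rfl fun j _ => ?_
    rw [Finset.sum_biUnion]
    intro w _ w' _ hne
    exact sS_disj hne
  have hI : ∫ ω', ∑ ℓ ∈ sf ρ (κ * ρ) ω', G m ℓ ∂P =
      ∑ j ∈ Finset.range J, ∑ w ∈ W j, ∑ z ∈ sS j w, ∫ ω', XX ρ (κ * ρ) (G m) j z ω' ∂P := by
    simp only [hdec]
    rw [integral_finsetSum _ fun j hj => integrable_finsetSum _ fun w hw =>
      integrable_finsetSum _ fun z hz => hint j (Finset.mem_range.1 hj) w hw z hz]
    refine Finset.sum_congr rfl fun j hj => ?_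
    rw [integral_finsetSum _ fun w hw =>
      integrable_finsetSum _ fun z hz => hint j (Finset.mem_range.1 hj) w hw z hz]
    refine Finset.sum_congr rfl fun w hw => ?_
    rw [integral_finsetSum _ fun z hz => hint j (Finset.mem_range.1 hj) w hw z hz]
  have heq : (fun ω => t * (∑ ℓ ∈ sf ρ (κ * ρ) ω, G m ℓ -
      ∫ ω', ∑ ℓ ∈ sf ρ (κ * ρ) ω', G m ℓ ∂P)) =
      fun ω => t * ∑ j ∈ Finset.range J, ∑ w ∈ W j, ∑ z ∈ sS j w,
        (XX ρ (κ * ρ) (G m) j z ω - ∫ x, XX ρ (κ * ρ) (G m) j z x ∂P) := by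
    ext ω
    congr 1
    rw [hI, hdec, ← Finset.sum_sub_distrib]
    refine Finset.sum_congr rfl fun j _ => ?_
    rw [← Finset.sum_sub_distrib]
    refine Finset.sum_congr rfl fun w _ => ?_
    rw [← Finset.sum_sub_distrib]
  rw [heq]
  refine hmain.trans (ENNReal.ofReal_le_ofReal (Real.exp_le_exp.2 ?_))
  have ht2 : t ^ 2 ≤ |T1| ^ 2 := by
    rw [← sq_abs t]; exact pow_le_pow_left₀ (abs_nonneg _) ht' 2
  have hx2 : 0 ≤ 2 / (1 - x) := div_nonneg (by norm_num) (by linarith)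
  have hB00 : 0 ≤ B0 := by positivity
  have hGc0 : 0 ≤ Gc := by positivity
  refine mul_le_mul_of_nonneg_left ?_ (by positivity)
  refine add_le_add ?_ ?_
  · refine mul_le_mul_of_nonneg_right ?_ hx2
    refine mul_le_mul_of_nonneg_right ?_ hB00
    exact mul_le_mul_of_nonneg_left ht' (by positivity)
  · refine mul_le_mul_of_nonneg_right ?_ (by positivity)
    exact mul_le_mul_of_nonneg_left ht2 (by positivity)

end Vale.Agent.P167.H562.GL
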