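import Vale.Agent.P167.H562.GXp

/-!
# P167, general `q`: large loops (`G_large`) and the a priori bound (`G_mom`)

Adapted from `H45/Large.lean` and `H45/Mom.lean`.
-/

namespace Vale.Agent.P167.H562.GL

open Finset Filter Topology MeasureTheory
open Vale.Agent.P167.H45 (gp BL BL_fin BL_eq BL_meas exists_pq grid_fin count_le cross_many nm_sub_le
  nm_sub_comm nm_add_le nm_le LV LV_fin LV_ncard Kn_le Kn_meas far_point NS NS_fin NS_meas scales
  IsLoop.nonempty)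

variable {P : Measure Cfg}

/-- Uniform bound for the exponential moments of the number of large loops. -/
theorem large_gen [IsProbabilityMeasure P] (hX : CrossP P) (hcon : S_con) (h2 : S_two) (κ s : ℝ)
    (hκ : 0 < κ) :
    ∃ C : ℝ, ∀ (c : ℤ × ℤ) (ρ : ℝ), 1 ≤ ρ →
      Em P (fun ω => s * ((BL c ρ (κ * ρ) ω).ncard : ℝ)) ≤ ENNReal.ofReal C := by
  classical
  obtain ⟨k, l, C0, hk, hl, hC0, h⟩ := hX
  choose! Z hZ1 hZ2 hZ3 using h
  obtain ⟨θ, b, hθ, hb, hEm⟩ := Em_crossP hk hl hC0 hZ1 hZ3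
  obtain ⟨n, hn⟩ := exists_nat_ge (|s| / θ)
  have hsn : |s| ≤ θ * (n + 1 : ℕ) := by
    rw [div_le_iff₀ hθ] at hn
    push_cast
    nlinarith
  set N : ℕ := n + 1 with hN
  have hN1 : (1 : ℝ) ≤ N := by rw [hN]; push_cast; linarith [Nat.cast_nonneg (α := ℝ) n]
  have hkR : (2 : ℝ) ≤ k := by exact_mod_cast hk
  set a : ℝ := 4 * (k + 3) * N with ha
  have ha0 : 0 < a := by positivity
  set ρ1 : ℝ := a / κ with hρ1
  set D : ℝ := (4 * (1 + κ) * (a / κ) + 2) ^ 2 with hD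
  refine ⟨max (Real.exp (D * b)) (Real.exp (|s| * (4 * (2 * ρ1 + 1) ^ 2))), fun c ρ hρ => ?_⟩
  by_cases hρ1' : ρ1 ≤ ρ
  · -- the main case
    refine le_trans ?_ (ENNReal.ofReal_le_ofReal (le_max_left _ _))
    have hxa : 1 ≤ κ * ρ / a := by
      rw [hρ1, div_le_iff₀ hκ] at hρ1'
      rw [one_le_div ha0]; linarith
    set r : ℤ := ⌊κ * ρ / a⌋ with hr
    have hr1 : 1 ≤ r := by rw [hr, Int.le_floor]; exact_mod_cast hxa
    have hrle : (r : ℝ) ≤ κ * ρ / a := Int.floor_le _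
    have hrge : κ * ρ / a ≤ 2 * r := by
      have := Int.lt_floor_add_one (κ * ρ / a)
      have h1 : (1 : ℝ) ≤ r := by exact_mod_cast hr1
      rw [← hr] at this
      linarith
    have hrle' : a * r ≤ κ * ρ := by
      rw [le_div_iff₀ ha0] at hrle; linarith
    have hr1' : (1 : ℝ) ≤ r := by exact_mod_cast hr1
    set P1 : ℤ := ⌊(1 + κ) * ρ⌋ with hP
    have hP0 : 0 ≤ P1 := by
      rw [hP]; exact Int.floor_nonneg.2 (by positivity)
    obtain ⟨J, hJ1, hJ2⟩ := grid_fin c hr1 hP0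
    have hJcard : (J.card : ℝ) ≤ D := by
      have h1 : ((J.card : ℤ) : ℝ) ≤ ((2 * P1 / r + 2 : ℤ) : ℝ) ^ 2 := by exact_mod_cast hJ2
      have h3 : ((2 * P1 / r : ℤ) : ℝ) ≤ 4 * (1 + κ) * (a / κ) := by
        have h4 : ((2 * P1 / r : ℤ) : ℝ) * r ≤ 2 * P1 := by
          exact_mod_cast Int.ediv_mul_le (2 * P1) (by omega : r ≠ 0)
        have h5 : (P1 : ℝ) ≤ (1 + κ) * ρ := Int.floor_le _
        have h6 : (2 * P1 : ℝ) ≤ 4 * (1 + κ) * (a / κ) * r := by
          have h7 : κ * ρ ≤ 2 * r * a := by rw [div_le_iff₀ ha0] at hrge; linarith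
          have h8 : ρ ≤ 2 * r * (a / κ) := by
            rw [mul_div_assoc', le_div_iff₀ hκ]; linarith
          nlinarith
        have h9 : ((2 * P1 / r : ℤ) : ℝ) * r ≤ 4 * (1 + κ) * (a / κ) * r := by linarith
        exact le_of_mul_le_mul_right h9 (by linarith)
      have h4 : (0 : ℝ) ≤ ((2 * P1 / r : ℤ) : ℝ) := by
        exact_mod_cast Int.ediv_nonneg (by omega : (0 : ℤ) ≤ 2 * P1) (by omega)
      have h5 : ((2 * P1 / r + 2 : ℤ) : ℝ) = ((2 * P1 / r : ℤ) : ℝ) + 2 := by push_cast; rfl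
      rw [h5] at h1
      rw [hD]
      have h6 : ((J.card : ℤ) : ℝ) = (J.card : ℝ) := by norm_cast
      rw [h6] at h1
      refine h1.trans ?_
      exact pow_le_pow_left₀ (by linarith) (by linarith) 2
    set I : Finset (ℕ × (ℤ × ℤ)) := {0} ×ˢ J with hI
    have hEmI := hEm (fun _ => r) (fun _ => hr1) I (fun i hi i' hi' hne => by
      rw [hI, Finset.mem_product, Finset.mem_singleton] at hi hi'
      exact absurd (hi.1.trans hi'.1.symm) hne)
    have hIcard : (I.card : ℝ) = J.card := by rw [hI, Finset.card_product]; simp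
    rw [hIcard] at hEmI
    refine le_trans ?_ (hEmI.trans (ENNReal.ofReal_le_ofReal (Real.exp_le_exp.2
      (mul_le_mul_of_nonneg_right hJcard hb))))
    refine Em_mono fun ω => ?_
    have hcount := count_le h2 (k := k) I (fun i => gp r i.2) (fun _ => r)
      (fun i => Z (gp r i.2) r ω) (ω := ω) (fun i _ => hZ2 (gp r i.2) r hr1 ω)
      (BL_fin h2 c ρ (κ * ρ) ω) (fun ℓ hℓ => hℓ.1) (n := N) (fun ℓ hℓ => by
        obtain ⟨p, hp, q, hq, h5, h6⟩ := exists_pq hℓ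
        have h7 : (k + 3) * r * (N : ℕ) < nm (q - p) := by
          have h8 : ((k : ℝ) + 3) * r * N < nm (q - p) := by
            have h9 : 4 * (((k : ℝ) + 3) * r * N) ≤ κ * ρ := by
              have : a * r = 4 * (((k : ℝ) + 3) * r * N) := by rw [ha]; ring
              linarith
            have : 0 < κ * ρ := by positivity
            linarith
          exact_mod_cast h8
        obtain ⟨T, hT1, hT2⟩ := cross_many hcon hℓ.1 hp hq (by omega) hr1 h7
        refine ⟨T.map ⟨fun z => ((0 : ℕ), z), fun z z' hz => (Prod.ext_iff.1 hz).2⟩, ?_, ?_, ?_⟩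
        · intro i hi
          rw [Finset.mem_map] at hi
          obtain ⟨z, hz, rfl⟩ := hi
          rw [hI, Finset.mem_product]
          refine ⟨Finset.mem_singleton.2 rfl, hJ1 z ?_⟩
          have h8 := (hT2 z hz).2
          have h9 : nm (gp r z - c) ≤ nm (gp r z - p) + nm (p - c) := nm_sub_le _ _ _
          rw [hP, Int.le_floor]
          have h10 : (nm (gp r z - c) : ℝ) ≤ ((k + 3) * r * (N : ℕ) + r) + nm (p - c) := by
            have : nm (gp r z - c) ≤ ((k + 3) * r * (N : ℕ) + r) + nm (p - c) := by linarith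
            exact_mod_cast this
          have h11 : 4 * (((k : ℝ) + 3) * r * N) ≤ κ * ρ := by
            have : a * r = 4 * (((k : ℝ) + 3) * r * N) := by rw [ha]; ring
            linarith
          have h12 : (r : ℝ) ≤ ((k : ℝ) + 3) * r * N := by
            calc (r : ℝ) = 1 * r * 1 := by ring
              _ ≤ ((k : ℝ) + 3) * r * N := by gcongr; linarith
          have h13 : 0 < κ * ρ := by positivity
          have h14 : (1 + κ) * ρ = ρ + κ * ρ := by ring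
          push_cast at h10
          linarith
        · rw [Finset.card_map]; exact hT1
        · intro i hi
          rw [Finset.mem_map] at hi
          obtain ⟨z, hz, rfl⟩ := hi
          exact (hT2 z hz).1)
    have h5 : (N : ℝ) * ((BL c ρ (κ * ρ) ω).ncard : ℝ) ≤ ∑ i ∈ I, (Z (gp r i.2) r ω : ℝ) := by
      exact_mod_cast hcount
    have h6 : (0 : ℝ) ≤ ((BL c ρ (κ * ρ) ω).ncard : ℝ) := by positivity
    calc s * ((BL c ρ (κ * ρ) ω).ncard : ℝ) ≤ |s| * ((BL c ρ (κ * ρ) ω).ncard : ℝ) :=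
          mul_le_mul_of_nonneg_right (le_abs_self s) h6
      _ ≤ θ * N * ((BL c ρ (κ * ρ) ω).ncard : ℝ) := mul_le_mul_of_nonneg_right hsn h6
      _ = θ * (N * ((BL c ρ (κ * ρ) ω).ncard : ℝ)) := by ring
      _ ≤ _ := mul_le_mul_of_nonneg_left h5 hθ.le
  · -- bounded scales
    push Not at hρ1'
    refine le_trans ?_ (ENNReal.ofReal_le_ofReal (le_max_right _ _))
    have hbd : ∀ ω, ((BL c ρ (κ * ρ) ω).ncard : ℝ) ≤ 4 * (2 * ρ1 + 1) ^ 2 := by
      intro ω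
      obtain ⟨J, hJ1, hJ2⟩ := grid_fin c (le_refl (1 : ℤ)) (P := ⌊ρ⌋)
        (Int.floor_nonneg.2 (by linarith))
      obtain ⟨B, hB, hBe⟩ := BL_eq c ρ (κ * ρ)
      have hBe' : B = (Finset.Icc (c.1 - ⌊ρ⌋) (c.1 + ⌊ρ⌋)) ×ˢ
          (Finset.Icc (c.2 - ⌊ρ⌋) (c.2 + ⌊ρ⌋)) := by
        ext v
        rw [hB, nm_le, Finset.mem_product, Finset.mem_Icc, Finset.mem_Icc]
        simp only [Prod.fst_sub, Prod.snd_sub, abs_le]
        omega
      have h1 : (BL c ρ (κ * ρ) ω).ncard ≤ 4 * B.card := by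
        rw [hBe]
        exact (Set.ncard_le_ncard (fun ℓ hl => hl.1) (LV_fin h2 B ω)).trans (LV_ncard h2 B ω)
      have h3 : (B.card : ℝ) ≤ (2 * ρ1 + 1) ^ 2 := by
        rw [hBe', Finset.card_product, Int.card_Icc, Int.card_Icc]
        have h4 : (0 : ℤ) ≤ ⌊ρ⌋ := Int.floor_nonneg.2 (by linarith)
        have h5 : c.1 + ⌊ρ⌋ + 1 - (c.1 - ⌊ρ⌋) = 2 * ⌊ρ⌋ + 1 := by ring
        have h6 : c.2 + ⌊ρ⌋ + 1 - (c.2 - ⌊ρ⌋) = 2 * ⌊ρ⌋ + 1 := by ring
        rw [h5, h6, Nat.cast_mul, ← sq]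
        have h7 : (((2 * ⌊ρ⌋ + 1).toNat : ℕ) : ℝ) = 2 * (⌊ρ⌋ : ℝ) + 1 := by
          have : (((2 * ⌊ρ⌋ + 1).toNat : ℕ) : ℤ) = 2 * ⌊ρ⌋ + 1 := Int.toNat_of_nonneg (by omega)
          exact_mod_cast this
        rw [h7]
        have h8 : (⌊ρ⌋ : ℝ) ≤ ρ1 := (Int.floor_le ρ).trans hρ1'.le
        have h9 : (0 : ℝ) ≤ (⌊ρ⌋ : ℝ) := by exact_mod_cast h4
        exact pow_le_pow_left₀ (by linarith) (by linarith) 2
      calc ((BL c ρ (κ * ρ) ω).ncard : ℝ) ≤ 4 * (B.card : ℝ) := by exact_mod_cast h1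
        _ ≤ _ := by linarith
    unfold Em
    calc ∫⁻ ω, ENNReal.ofReal (Real.exp (s * ((BL c ρ (κ * ρ) ω).ncard : ℝ))) ∂P
        ≤ ∫⁻ _ω, ENNReal.ofReal (Real.exp (|s| * (4 * (2 * ρ1 + 1) ^ 2))) ∂P := by
          refine lintegral_mono fun ω => ENNReal.ofReal_le_ofReal (Real.exp_le_exp.2 ?_)
          calc s * ((BL c ρ (κ * ρ) ω).ncard : ℝ) ≤ |s| * ((BL c ρ (κ * ρ) ω).ncard : ℝ) :=
                mul_le_mul_of_nonneg_right (le_abs_self s) (by positivity)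
            _ ≤ _ := mul_le_mul_of_nonneg_left (hbd ω) (abs_nonneg s)
      _ = _ := by rw [lintegral_const, measure_univ, mul_one]

theorem large_main [IsProbabilityMeasure P] (hX : CrossP P) (hcon : S_con) (h2 : S_two)
    (hl : S_loc) : G_large P := by
  intro κ s hκ
  obtain ⟨C, hC⟩ := large_gen hX hcon h2 (κ / 3) s (by positivity)
  obtain ⟨C', hC'⟩ := large_gen hX hcon h2 (κ / 3) |s| (by positivity)
  refine ⟨max C' 0, 2, fun ρ hρ => ?_⟩
  have hle : ∀ ω, s * (Kn (ρ - 2) (2 * ρ + 2) (κ * ρ) ω : ℝ) ≤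
      |s| * ((BL 0 (3 * ρ) (κ / 3 * (3 * ρ)) ω).ncard : ℝ) := by
    intro ω
    have h1 : Kn (ρ - 2) (2 * ρ + 2) (κ * ρ) ω ≤ (BL 0 (3 * ρ) (κ / 3 * (3 * ρ)) ω).ncard := by
      refine (Kn_le h2 _ _ _ ω).trans (Set.ncard_le_ncard ?_ (BL_fin h2 _ _ _ ω))
      rintro ℓ ⟨h3, ⟨v, hv, hv'⟩, h4⟩
      refine ⟨h3, ⟨v, hv, by linarith⟩, ?_⟩
      have : κ / 3 * (3 * ρ) = κ * ρ := by ring
      rw [this]; exact h4
    calc s * (Kn (ρ - 2) (2 * ρ + 2) (κ * ρ) ω : ℝ)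
        ≤ |s| * (Kn (ρ - 2) (2 * ρ + 2) (κ * ρ) ω : ℝ) :=
          mul_le_mul_of_nonneg_right (le_abs_self s) (by positivity)
      _ ≤ _ := mul_le_mul_of_nonneg_left (by exact_mod_cast h1) (abs_nonneg s)
  have hEm : Em P (fun ω => s * (Kn (ρ - 2) (2 * ρ + 2) (κ * ρ) ω : ℝ)) ≤
      ENNReal.ofReal (max C' 0) :=
    (Em_mono hle).trans ((hC' 0 (3 * ρ) (by linarith)).trans
      (ENNReal.ofReal_le_ofReal (le_max_left _ _)))
  have hm : Measurable (fun ω => s * (Kn (ρ - 2) (2 * ρ + 2) (κ * ρ) ω : ℝ)) := by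
    have := Kn_meas h2 hl (ρ - 2) (2 * ρ + 2) (κ * ρ)
    exact ((measurable_from_top.comp this : Measurable fun ω =>
      ((Kn (ρ - 2) (2 * ρ + 2) (κ * ρ) ω : ℕ) : ℝ))).const_mul s
  have hint := integrable_exp_of_Em hm hEm
  refine ⟨hint, ?_⟩
  rw [Em_eq hint] at hEm
  rwa [ENNReal.ofReal_le_ofReal_iff (le_max_right _ _)] at hEm

theorem mom_main [IsProbabilityMeasure P] (hX : CrossP P) (hcon : S_con) (h2 : S_two)
    (hl : S_loc) (ho : S_out) :
    G_mom P := by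
  classical
  intro u
  obtain ⟨k, l, C0, hk, hll, hC0, h⟩ := hX
  choose! Z hZ1 hZ2 hZ3 using h
  obtain ⟨θ, b0, hθ, hb0, hEm⟩ := Em_crossP hk hll hC0 hZ1 hZ3
  obtain ⟨n, hn⟩ := exists_nat_ge (|u| / θ)
  have hsn : |u| ≤ θ * (n + 1 : ℕ) := by
    rw [div_le_iff₀ hθ] at hn
    push_cast
    nlinarith
  set N : ℕ := n + 1 with hN
  have hN1 : 1 ≤ N := by omega
  set M0 : ℤ := 4 * (k + 4) * N with hM0
  have hN1' : (1 : ℤ) ≤ N := by exact_mod_cast hN1
  have hM0pos : 0 < M0 := by positivity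
  set D : ℝ := ((6 * M0 + 2 : ℤ) : ℝ) ^ 2 with hD
  have hD0 : 0 ≤ D := by positivity
  refine ⟨5 * (D * b0) / Real.log 2, M0, fun a b ha hab => ?_⟩
  have hM0R : (0 : ℝ) < M0 := by exact_mod_cast hM0pos
  obtain ⟨j0, j1, hj, hjc⟩ := scales hM0R ha hab
  have hgrid := fun j : ℕ => grid_fin 0 (r := 2 ^ j) (P := 3 * M0 * 2 ^ j)
    (one_le_pow₀ (by norm_num)) (by positivity)
  choose J hJ1 hJ2 using hgrid
  have hJ2' : ∀ j, ((J j).card : ℝ) ≤ D := by
    intro j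
    have h3 := hJ2 j
    have h4 : (2 * (3 * M0 * 2 ^ j)) / 2 ^ j = 6 * M0 := by
      rw [show (2 * (3 * M0 * 2 ^ j) : ℤ) = 6 * M0 * 2 ^ j by ring]
      exact Int.mul_ediv_cancel _ (by positivity)
    rw [h4] at h3
    rw [hD]
    exact_mod_cast h3
  let I : Finset (ℕ × (ℤ × ℤ)) := (Finset.Ico j0 j1).biUnion fun j =>
    ((J j).filter (fun z => 3 * M0 * 2 ^ j ≤ 4 * nm (gp (2 ^ j) z) ∧
      4 * nm (gp (2 ^ j) z) ≤ 9 * M0 * 2 ^ j)).image (fun z => (j, z))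
  have hImem : ∀ i : ℕ × (ℤ × ℤ), i ∈ I ↔ i.1 ∈ Finset.Ico j0 j1 ∧ i.2 ∈ J i.1 ∧
      3 * M0 * 2 ^ i.1 ≤ 4 * nm (gp (2 ^ i.1) i.2) ∧
      4 * nm (gp (2 ^ i.1) i.2) ≤ 9 * M0 * 2 ^ i.1 := by
    rintro ⟨j, z⟩
    simp only [I, Finset.mem_biUnion, Finset.mem_image, Finset.mem_filter, Prod.mk.injEq]
    constructor
    · rintro ⟨j', h3, z', ⟨h4, h5⟩, rfl, rfl⟩
      exact ⟨h3, h4, h5⟩
    · rintro ⟨h3, h4, h5⟩
      exact ⟨j, h3, z, ⟨h4, h5⟩, rfl, rfl⟩
  have hIcard : (I.card : ℝ) ≤ ((Finset.Ico j0 j1).card : ℝ) * D := by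
    have h3 : I.card ≤ ∑ j ∈ Finset.Ico j0 j1, (J j).card := by
      refine Finset.card_biUnion_le.trans (Finset.sum_le_sum fun j _ => ?_)
      exact Finset.card_image_le.trans (Finset.card_filter_le _ _)
    calc (I.card : ℝ) ≤ ∑ j ∈ Finset.Ico j0 j1, ((J j).card : ℝ) := by exact_mod_cast h3
      _ ≤ ∑ _j ∈ Finset.Ico j0 j1, D := Finset.sum_le_sum fun j _ => hJ2' j
      _ = _ := by rw [Finset.sum_const, nsmul_eq_mul]
  have hbox : ∀ i ∈ I, ∀ v, nm (v - gp (2 ^ i.1) i.2) ≤ k * 2 ^ i.1 →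
      M0 * 2 ^ i.1 ≤ 2 * nm v ∧ 2 * nm v ≤ 5 * M0 * 2 ^ i.1 := by
    intro i hi v hv
    obtain ⟨-, -, h3, h4⟩ := (hImem i).1 hi
    have h5 : nm v ≤ nm (v - gp (2 ^ i.1) i.2) + nm (gp (2 ^ i.1) i.2) := by
      simpa using nm_add_le (v - gp (2 ^ i.1) i.2) (gp (2 ^ i.1) i.2)
    have h6 : nm (gp (2 ^ i.1) i.2) ≤ nm (gp (2 ^ i.1) i.2 - v) + nm v := by
      simpa using nm_add_le (gp (2 ^ i.1) i.2 - v) v
    rw [nm_sub_comm] at h6
    have h7 : 4 * (k * 2 ^ i.1) ≤ M0 * 2 ^ i.1 := by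
      rw [hM0]
      have : (0 : ℤ) < 2 ^ i.1 := by positivity
      nlinarith
    constructor <;> linarith
  have hdisj : ∀ i ∈ I, ∀ i' ∈ I, i.1 < i'.1 → (i.1 : ZMod 3) = i'.1 →
      Disjoint {v | nm (v - gp (2 ^ i.1) i.2) ≤ k * 2 ^ i.1}
        {v | nm (v - gp (2 ^ i'.1) i'.2) ≤ k * 2 ^ i'.1} := by
    intro i hi i' hi' hlt hmod
    have h3 : i.1 + 3 ≤ i'.1 := by
      rw [ZMod.natCast_eq_natCast_iff] at hmod
      have := (Nat.modEq_iff_dvd' hlt.le).1 hmod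
      have := Nat.le_of_dvd (by omega) this
      omega
    rw [Set.disjoint_left]
    intro v h4 h5
    have h6 := (hbox i hi v h4).2
    have h7 := (hbox i' hi' v h5).1
    have h8 : (2 : ℤ) ^ (i.1 + 3) ≤ 2 ^ i'.1 := pow_le_pow_right₀ (by norm_num) h3
    rw [pow_add] at h8
    have h9 : (0 : ℤ) < 2 ^ i.1 := by positivity
    nlinarith
  have hEmI := hEm (fun j => 2 ^ j) (fun j => one_le_pow₀ (by norm_num)) I
    (fun i hi i' hi' hne hmod => by
      rcases lt_or_gt_of_ne hne with h3 | h3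
      · exact hdisj i hi i' hi' h3 hmod
      · exact (hdisj i' hi' i hi h3 hmod.symm).symm)
  have hbd : Real.exp (I.card * b0) ≤ (b / a) ^ (5 * (D * b0) / Real.log 2) := by
    have ha0 : 0 < a := hM0R.trans_le ha
    have hba : 0 < b / a := by
      have : 0 < b := by linarith
      positivity
    rw [Real.rpow_def_of_pos hba]
    apply Real.exp_le_exp.2
    have hlog2 : 0 < Real.log 2 := Real.log_pos (by norm_num)
    rw [mul_div_assoc', le_div_iff₀ hlog2]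
    have h3 : (I.card : ℝ) * b0 ≤ ((Finset.Ico j0 j1).card : ℝ) * (D * b0) := by
      rw [← mul_assoc]; exact mul_le_mul_of_nonneg_right hIcard hb0
    have h4 : ((Finset.Ico j0 j1).card : ℝ) * Real.log 2 * (D * b0) ≤
        5 * Real.log (b / a) * (D * b0) :=
      mul_le_mul_of_nonneg_right hjc (mul_nonneg hD0 hb0)
    nlinarith
  have hle : ∀ ω, u * (Nn a b ω : ℝ) ≤ θ * ∑ i ∈ I, (Z (gp (2 ^ i.1) i.2) (2 ^ i.1) ω : ℝ) := by
    intro ω
    have hcount := count_le h2 (k := k) I (fun i => gp (2 ^ i.1) i.2) (fun i => 2 ^ i.1)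
      (fun i => Z (gp (2 ^ i.1) i.2) (2 ^ i.1) ω) (ω := ω)
      (fun i _ => hZ2 (gp (2 ^ i.1) i.2) (2 ^ i.1) (one_le_pow₀ (by norm_num)) ω)
      (NS_fin h2 a b ω) (fun ℓ hℓ => hℓ.1) (n := N) (fun ℓ hℓ => by
        obtain ⟨hloop, hvs, hW⟩ := hℓ
        obtain ⟨e, he⟩ := IsLoop.nonempty hloop
        have hp : hdv e ∈ vs ℓ := Finset.mem_image_of_mem _ he
        obtain ⟨q, hq, hpq⟩ := far_point ho hloop hW hp
        set p := hdv e with hpdef
        have hpa := (hvs p hp).1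
        have hpb := (hvs p hp).2
        have hR : M0 ≤ nm p := by
          have : (M0 : ℝ) < nm p := ha.trans_lt hpa
          exact_mod_cast this.le
        -- the scale of `p`
        obtain ⟨j, hj2, hj3⟩ : ∃ j : ℕ, M0 * 2 ^ j ≤ nm p ∧ nm p < M0 * 2 ^ (j + 1) := by
          set Q : ℕ := (nm p / M0).toNat with hQ
          have hQ1 : 1 ≤ nm p / M0 := by
            rw [Int.le_ediv_iff_mul_le hM0pos]; linarith
          have hQ' : (Q : ℤ) = nm p / M0 := Int.toNat_of_nonneg (by omega)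
          have hQ0 : Q ≠ 0 := by omega
          have g1 : 2 ^ (Nat.log 2 Q) ≤ Q := Nat.pow_log_le_self 2 hQ0
          have g2 : Q < 2 ^ (Nat.log 2 Q + 1) := Nat.lt_pow_succ_log_self (by norm_num) Q
          have g1' : (2 : ℤ) ^ (Nat.log 2 Q) ≤ nm p / M0 := by rw [← hQ']; exact_mod_cast g1
          have g2' : nm p / M0 < (2 : ℤ) ^ (Nat.log 2 Q + 1) := by rw [← hQ']; exact_mod_cast g2
          refine ⟨Nat.log 2 Q, ?_, ?_⟩
          · rw [Int.le_ediv_iff_mul_le hM0pos] at g1'; linarith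
          · rw [Int.ediv_lt_iff_lt_mul hM0pos] at g2'; linarith
        have hjm : j ∈ Finset.Ico j0 j1 := hj j (nm p) hpa hpb (by exact_mod_cast hj2)
          (by exact_mod_cast hj3)
        have hr1 : (1 : ℤ) ≤ 2 ^ j := one_le_pow₀ (by norm_num)
        have hd : (k + 3) * 2 ^ j * (N : ℕ) < nm (q - p) := by
          rw [hM0] at hj2
          nlinarith [mul_pos (by omega : (0 : ℤ) < k + 3) (by positivity : (0 : ℤ) < 2 ^ j * N),
            (by positivity : (0 : ℤ) < 2 ^ j * N)]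
        obtain ⟨T, hT1, hT2⟩ := cross_many hcon hloop hp hq (by omega) hr1 hd
        refine ⟨T.map ⟨fun z => (j, z), fun z z' hz => (Prod.ext_iff.1 hz).2⟩, ?_, ?_, ?_⟩
        · intro i hi
          rw [Finset.mem_map] at hi
          obtain ⟨z, hz, rfl⟩ := hi
          rw [hImem]
          show j ∈ Finset.Ico j0 j1 ∧ z ∈ J j ∧ 3 * M0 * 2 ^ j ≤ 4 * nm (gp (2 ^ j) z) ∧
            4 * nm (gp (2 ^ j) z) ≤ 9 * M0 * 2 ^ j
          have h8 := (hT2 z hz).2
          have h9 : nm (gp (2 ^ j) z) ≤ nm (gp (2 ^ j) z - p) + nm p := by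
            simpa using nm_add_le (gp (2 ^ j) z - p) p
          have h10 : nm p ≤ nm (p - gp (2 ^ j) z) + nm (gp (2 ^ j) z) := by
            simpa using nm_add_le (p - gp (2 ^ j) z) (gp (2 ^ j) z)
          rw [nm_sub_comm] at h10
          have h11 : 4 * ((k + 3) * 2 ^ j * (N : ℕ) + 2 ^ j) ≤ M0 * 2 ^ j := by
            rw [hM0]
            have : (2 : ℤ) ^ j * 1 ≤ 2 ^ j * N := mul_le_mul_of_nonneg_left hN1' (by positivity)
            nlinarith
          have h12 : M0 * 2 ^ (j + 1) = 2 * (M0 * 2 ^ j) := by rw [pow_succ]; ring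
          rw [h12] at hj3
          refine ⟨hjm, hJ1 j z ?_, ?_, ?_⟩
          · rw [sub_zero]; linarith
          · linarith
          · linarith
        · rw [Finset.card_map]; exact hT1
        · intro i hi
          rw [Finset.mem_map] at hi
          obtain ⟨z, hz, rfl⟩ := hi
          exact (hT2 z hz).1)
    have h5 : (N : ℝ) * ((NS a b ω).ncard : ℝ) ≤
        ∑ i ∈ I, (Z (gp (2 ^ i.1) i.2) (2 ^ i.1) ω : ℝ) := by
      exact_mod_cast hcount
    have h6 : (0 : ℝ) ≤ ((NS a b ω).ncard : ℝ) := by positivity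
    calc u * (Nn a b ω : ℝ) = u * ((NS a b ω).ncard : ℝ) := rfl
      _ ≤ |u| * ((NS a b ω).ncard : ℝ) := mul_le_mul_of_nonneg_right (le_abs_self u) h6
      _ ≤ θ * N * ((NS a b ω).ncard : ℝ) := mul_le_mul_of_nonneg_right hsn h6
      _ = θ * (N * ((NS a b ω).ncard : ℝ)) := by ring
      _ ≤ _ := mul_le_mul_of_nonneg_left h5 hθ.le
  have hEm' : Em P (fun ω => u * (Nn a b ω : ℝ)) ≤
      ENNReal.ofReal ((b / a) ^ (5 * (D * b0) / Real.log 2)) :=
    (Em_mono hle).trans (hEmI.trans (ENNReal.ofReal_le_ofReal hbd))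
  have hm : Measurable (fun ω => u * (Nn a b ω : ℝ)) := by
    have := NS_meas h2 hl a b
    exact ((measurable_from_top.comp this : Measurable fun ω =>
      (((NS a b ω).ncard : ℕ) : ℝ))).const_mul u
  have hint := integrable_exp_of_Em hm hEm'
  refine ⟨hint, ?_⟩
  rw [Em_eq hint] at hEm'
  have ha0 : 0 < a := hM0R.trans_le ha
  have hba : 0 < b / a := by
    have : 0 < b := by linarith
    positivity
  rwa [ENNReal.ofReal_le_ofReal_iff (by positivity)] at hEm'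

end Vale.Agent.P167.H562.GL
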