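import Vale.Agent.P167.H562.EAbs

/-!
# P167: direct and reverse Hölder inequalities, moments of counting variables
-/

open MeasureTheory ProbabilityTheory Real Finset
open scoped ENNReal

namespace Vale.Agent.P167.H562

variable {Ω : Type*} [MeasurableSpace Ω] {μ : Measure Ω}

lemma aem_exp {v : Ω → ℝ} (hv : AEMeasurable v μ) :
    AEMeasurable (fun ω => ENNReal.ofReal (exp (v ω))) μ :=
  (Real.measurable_exp.comp_aemeasurable hv).ennreal_ofReal

/-- Hölder. -/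
theorem holder_up {v : Ω → ℝ} (hv : AEMeasurable v μ) {M : Ω → ℝ≥0∞} (hM : AEMeasurable M μ)
    {p : ℝ} (hp : 1 < p) {B : ℝ}
    (hB : Em μ (fun ω => p / (p - 1) * v ω) ≤ ENNReal.ofReal (exp (p / (p - 1) * B))) :
    ∫⁻ ω, ENNReal.ofReal (exp (v ω)) * M ω ∂μ ≤
      ENNReal.ofReal (exp B) * (∫⁻ ω, M ω ^ p ∂μ) ^ (1 / p) := by
  set q : ℝ := p / (p - 1) with hq
  have hp0 : 0 < p := by linarith
  have hp1 : 0 < p - 1 := by linarith
  have hq0 : 0 < q := div_pos hp0 hp1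
  have hpq : q.HolderConjugate p := by
    rw [Real.holderConjugate_iff]
    refine ⟨?_, ?_⟩
    · rw [hq, lt_div_iff₀ hp1]; linarith
    · rw [hq]; field_simp; ring
  have h := ENNReal.lintegral_mul_le_Lp_mul_Lq μ hpq (aem_exp hv) hM
  simp only [Pi.mul_apply] at h
  refine le_trans h ?_
  gcongr
  have e : ∀ ω, ENNReal.ofReal (exp (v ω)) ^ q = ENNReal.ofReal (exp (q * v ω)) := fun ω => by
    rw [ENNReal.ofReal_rpow_of_pos (Real.exp_pos _), ← Real.exp_mul, mul_comm]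
  simp only [e]
  calc (∫⁻ ω, ENNReal.ofReal (exp (q * v ω)) ∂μ) ^ (1 / q)
      ≤ (ENNReal.ofReal (exp (q * B))) ^ (1 / q) :=
        ENNReal.rpow_le_rpow hB (by positivity)
    _ = ENNReal.ofReal (exp B) := by
        rw [ENNReal.ofReal_rpow_of_pos (Real.exp_pos _), ← Real.exp_mul]
        congr 2
        field_simp

/-- Reverse Hölder. -/
theorem holder_lo {v : Ω → ℝ} (hv : AEMeasurable v μ) {M : Ω → ℝ≥0∞} (hM : AEMeasurable M μ)
    {p : ℝ} (hp : 1 < p) {B : ℝ}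
    (hB : Em μ (fun ω => -(1 / (p - 1)) * v ω) ≤ ENNReal.ofReal (exp (-(1 / (p - 1)) * B))) :
    ENNReal.ofReal (exp B) * (∫⁻ ω, M ω ^ (1 / p) ∂μ) ^ p ≤
      ∫⁻ ω, ENNReal.ofReal (exp (v ω)) * M ω ∂μ := by
  have hp0 : 0 < p := by linarith
  have hp1 : 0 < p - 1 := by linarith
  have hpq : p.HolderConjugate (p / (p - 1)) := by
    rw [Real.holderConjugate_iff]
    refine ⟨hp, ?_⟩
    field_simp
    ring
  have hv' : AEMeasurable (fun ω => -(1 / p) * v ω) μ := hv.const_mul _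
  have hfm : AEMeasurable (fun ω => (ENNReal.ofReal (exp (v ω)) * M ω) ^ (1 / p)) μ :=
    ((aem_exp hv).mul hM).pow_const _
  have h := ENNReal.lintegral_mul_le_Lp_mul_Lq μ hpq hfm (aem_exp hv')
  simp only [Pi.mul_apply] at h
  have e1 : ∀ ω, (ENNReal.ofReal (exp (v ω)) * M ω) ^ (1 / p) *
      ENNReal.ofReal (exp (-(1 / p) * v ω)) = M ω ^ (1 / p) := fun ω => by
    rw [ENNReal.mul_rpow_of_nonneg _ _ (by positivity), mul_right_comm,
      ENNReal.ofReal_rpow_of_pos (Real.exp_pos _), ← Real.exp_mul,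
      ← ENNReal.ofReal_mul (Real.exp_pos _).le, ← Real.exp_add]
    rw [show v ω * (1 / p) + -(1 / p) * v ω = 0 by ring, Real.exp_zero, ENNReal.ofReal_one, one_mul]
  have e2 : ∀ ω, ((ENNReal.ofReal (exp (v ω)) * M ω) ^ (1 / p)) ^ p =
      ENNReal.ofReal (exp (v ω)) * M ω := fun ω => by
    rw [← ENNReal.rpow_mul, one_div, inv_mul_cancel₀ hp0.ne', ENNReal.rpow_one]
  have e3 : ∀ ω, ENNReal.ofReal (exp (-(1 / p) * v ω)) ^ (p / (p - 1)) =
      ENNReal.ofReal (exp (-(1 / (p - 1)) * v ω)) := fun ω => by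
    rw [ENNReal.ofReal_rpow_of_pos (Real.exp_pos _), ← Real.exp_mul]
    congr 2
    field_simp
  simp only [e1, e2, e3] at h
  have h2 := ENNReal.rpow_le_rpow h hp0.le
  rw [ENNReal.mul_rpow_of_nonneg _ _ hp0.le, ← ENNReal.rpow_mul, ← ENNReal.rpow_mul,
    one_div, inv_mul_cancel₀ hp0.ne', ENNReal.rpow_one] at h2
  have e4 : 1 / (p / (p - 1)) * p = p - 1 := by field_simp
  rw [e4] at h2
  have h3 : (∫⁻ ω, ENNReal.ofReal (exp (-(1 / (p - 1)) * v ω)) ∂μ) ^ (p - 1) ≤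
      ENNReal.ofReal (exp (-B)) := by
    calc _ ≤ (ENNReal.ofReal (exp (-(1 / (p - 1)) * B))) ^ (p - 1) :=
          ENNReal.rpow_le_rpow hB hp1.le
      _ = _ := by
          rw [ENNReal.ofReal_rpow_of_pos (Real.exp_pos _), ← Real.exp_mul]
          congr 2
          field_simp
  have h4 : (∫⁻ ω, M ω ^ (1 / p) ∂μ) ^ p ≤
      (∫⁻ ω, ENNReal.ofReal (exp (v ω)) * M ω ∂μ) * ENNReal.ofReal (exp (-B)) := by
    rw [one_div]
    exact h2.trans (mul_le_mul_right h3 _)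
  calc ENNReal.ofReal (exp B) * (∫⁻ ω, M ω ^ (1 / p) ∂μ) ^ p
      ≤ ENNReal.ofReal (exp B) * ((∫⁻ ω, ENNReal.ofReal (exp (v ω)) * M ω ∂μ) *
          ENNReal.ofReal (exp (-B))) := mul_le_mul_right h4 _
    _ = (ENNReal.ofReal (exp B) * ENNReal.ofReal (exp (-B))) *
          ∫⁻ ω, ENNReal.ofReal (exp (v ω)) * M ω ∂μ := by ring
    _ = _ := by
        rw [← ENNReal.ofReal_mul (Real.exp_pos _).le, ← Real.exp_add, add_neg_cancel,
          Real.exp_zero, ENNReal.ofReal_one, one_mul]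

end Vale.Agent.P167.H562
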