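import Vale.Agent.P167.H562.GThm
import Vale.Agent.P167.H562.GCls

/-!
# P167, general angle: block F with the deterministic inputs filled in
-/

open MeasureTheory

namespace Vale.Agent.P167.H562.GQ

theorem g_cls_up {a : ℝ} (ha0 : 0 < a) (ha1 : a < Real.pi / 2) : G_cls_up a := cls_up ha0 ha1 H259.top

theorem g_cls_lo {a : ℝ} (ha0 : 0 < a) (ha1 : a < Real.pi / 2) : G_cls_lo a := cls_lo ha0 ha1 H259.top

theorem g_meas : G_meas := H259.s_indep.1

/-- Block F for a general angle, deterministic inputs filled in. -/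
theorem g_F' {P : Measure Cfg} [IsProbabilityMeasure P] {a : ℝ} (ha0 : 0 < a)
    (ha1 : a ≤ Real.pi / 3) (hG : G_gauss a P) (hSm : G_small a P) (hL : G_large P)
    (hr : G_ring P) (hm : G_mom P) : G_F1 a P ∧ G_F2 a P ∧ G_F3 a P := by
  have h : a < Real.pi / 2 := by have := Real.pi_pos; linarith
  exact g_F ha0 ha1 hG hSm hL (g_cls_up ha0 h) (g_cls_lo ha0 h) g_meas hr hm s_two

end Vale.Agent.P167.H562.GQ
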