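import Vale.Agent.P153.BK.Count
import Vale.Agent.P145.FB.Bond
import Vale.Agent.P167.Defs

/-!
# P167, general `q`: Burton-Keane on the torus, deterministic part

`F` is a set of squares, connections by diagonals of squares of `F` between sites of parity `e`.
-/

namespace Vale.Agent.P167.H562.BK

open Finset Relation
open Vale.Agent.P145.FB (PStep PConn)
open Vale.Agent.P153.BK (trif_count)

/-- Connection inside `A`. -/
def Con (F A : Set (ℤ × ℤ)) (x y : ℤ × ℤ) : Prop :=
  ReflTransGen (fun u v => PStep F u v ∧ u ∈ A ∧ v ∈ A) x y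

section Con

variable {F F' A B : Set (ℤ × ℤ)} {x y z : ℤ × ℤ}

theorem Con.refl (F A : Set (ℤ × ℤ)) (x : ℤ × ℤ) : Con F A x x := ReflTransGen.refl

theorem Con.trans (h : Con F A x y) (h' : Con F A y z) : Con F A x z := ReflTransGen.trans h h'

theorem Con.symm (h : Con F A x y) : Con F A y x := by
  induction h with
  | refl => exact ReflTransGen.refl
  | tail _ hbc ih => exact ReflTransGen.head ⟨hbc.1.symm, hbc.2.2, hbc.2.1⟩ ih

theorem Con.mono (h : Con F A x y) (hAB : A ⊆ B) : Con F B x y :=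
  ReflTransGen.mono (fun _ _ h => ⟨h.1, hAB h.2.1, hAB h.2.2⟩) _ _ h

theorem Con.single (h : PStep F x y) (hx : x ∈ A) (hy : y ∈ A) : Con F A x y :=
  ReflTransGen.single ⟨h, hx, hy⟩

theorem Con.right_mem (h : Con F A x y) (hx : x ∈ A) : y ∈ A := by
  induction h with
  | refl => exact hx
  | tail _ hbc _ => exact hbc.2.2

theorem con_equivalence (F A : Set (ℤ × ℤ)) : Equivalence (Con F A) :=
  ⟨Con.refl F A, Con.symm, Con.trans⟩

/-- A connection inside `A` either stays in `B` or meets a vertex of `A ∩ B` all of whose initial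
part lies in `B` and which has a neighbour in `A \ B`. -/
theorem Con.exit (h : Con F A x y) (hx : x ∈ B) : Con F (A ∩ B) x y ∨
    ∃ u v, Con F (A ∩ B) x u ∧ u ∈ B ∧ PStep F u v ∧ v ∉ B ∧ u ∈ A ∧ v ∈ A := by
  induction h with
  | refl => exact Or.inl (Con.refl _ _ _)
  | @tail b c hab hbc ih =>
    rcases ih with h | h
    · have hb : b ∈ B := by
        rcases ReflTransGen.cases_tail h with rfl | ⟨d, -, hd⟩
        · exact hx
        · exact hd.2.2.2
      by_cases hc : c ∈ B
      · exact Or.inl (h.trans (Con.single hbc.1 ⟨hbc.2.1, hb⟩ ⟨hbc.2.2, hc⟩))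
      · exact Or.inr ⟨b, c, h, hb, hbc.1, hc, hbc.2.1, hbc.2.2⟩
    · exact Or.inr h

/-- Only the steps inside `A` matter. -/
theorem Con.congr (h : Con F A x y) (hF : ∀ u ∈ A, ∀ v ∈ A, PStep F u v → PStep F' u v) :
    Con F' A x y :=
  ReflTransGen.mono (fun u v h => ⟨hF u h.2.1 v h.2.2 h.1, h.2⟩) _ _ h

theorem con_iff_pconn (hx : x ∈ A) : Con F A x y ↔ PConn F A x y := by
  constructor
  · intro h
    refine ⟨hx, ?_⟩
    exact ReflTransGen.mono (fun u v h => ⟨h.1, h.2.2⟩) _ _ h
  · rintro ⟨-, h⟩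
    induction h with
    | refl => exact Con.refl _ _ _
    | tail _ hbc ih => exact ih.trans (Con.single hbc.1 (ih.right_mem hx) hbc.2)

end Con

/-- The parity of a site. -/
def par (x : ℤ × ℤ) : ℤ := (x.1 + x.2) % 2

theorem PStep.par {F : Set (ℤ × ℤ)} {x y : ℤ × ℤ} (h : PStep F x y) : par y = par x := by
  obtain ⟨h1, h2, -⟩ := h
  unfold BK.par
  omega

theorem Con.par {F A : Set (ℤ × ℤ)} {x y : ℤ × ℤ} (h : Con F A x y) : par y = par x := by
  induction h with
  | refl => rfl
  | tail _ hbc ih => rw [PStep.par hbc.1, ih]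

/-- Boxes of sites. -/
def Bx (m : ℤ) (c : ℤ × ℤ) : Set (ℤ × ℤ) := {w | nm (w - c) ≤ m}

theorem nm_le_iff {v : ℤ × ℤ} {r : ℤ} : nm v ≤ r ↔ -r ≤ v.1 ∧ v.1 ≤ r ∧ -r ≤ v.2 ∧ v.2 ≤ r := by
  unfold nm
  rw [max_le_iff, abs_le, abs_le, and_assoc]

theorem mem_Bx {m : ℤ} {c w : ℤ × ℤ} : w ∈ Bx m c ↔
    -m ≤ w.1 - c.1 ∧ w.1 - c.1 ≤ m ∧ -m ≤ w.2 - c.2 ∧ w.2 - c.2 ≤ m := by
  unfold Bx
  rw [Set.mem_ofPred_eq, nm_le_iff]
  rfl

/-- The sites at distance at most `N`. -/
def HN (N : ℤ) : Set (ℤ × ℤ) := {x | nm x ≤ N}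

theorem mem_HN {N : ℤ} {w : ℤ × ℤ} : w ∈ HN N ↔ -N ≤ w.1 ∧ w.1 ≤ N ∧ -N ≤ w.2 ∧ w.2 ≤ N := nm_le_iff

/-- Annuli of sites. -/
def An (m R : ℤ) : Set (ℤ × ℤ) := {w | m < nm w ∧ nm w ≤ R}

theorem mem_An {m R : ℤ} {w : ℤ × ℤ} : w ∈ An m R ↔ w ∈ HN R ∧ w ∉ HN m := by
  unfold An HN
  simp only [Set.mem_ofPred_eq, not_le]
  exact and_comm

/-- Translates of a set of squares. -/
def shS (c : ℤ × ℤ) (F : Set (ℤ × ℤ)) : Set (ℤ × ℤ) := {v | v + c ∈ F}

theorem pstep_sh {c : ℤ × ℤ} {F : Set (ℤ × ℤ)} {x y : ℤ × ℤ} :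
    PStep (shS c F) x y ↔ PStep F (x + c) (y + c) := by
  obtain ⟨x1, x2⟩ := x; obtain ⟨y1, y2⟩ := y; obtain ⟨c1, c2⟩ := c
  unfold PStep shS
  simp only [Prod.mk_add_mk, Set.mem_ofPred_eq, min_add_add_right]
  constructor
  · rintro ⟨h1, h2, h3⟩; exact ⟨by omega, by omega, h3⟩
  · rintro ⟨h1, h2, h3⟩; exact ⟨by omega, by omega, h3⟩

theorem con_sh_mp {c : ℤ × ℤ} {F A : Set (ℤ × ℤ)} {x y : ℤ × ℤ}
    (h : Con (shS c F) A x y) : Con F {z | z - c ∈ A} (x + c) (y + c) := by
  induction h with
  | refl => exact Con.refl _ _ _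
  | tail _ hbc ih =>
    exact ih.trans (Con.single (pstep_sh.1 hbc.1) (by simpa using hbc.2.1) (by simpa using hbc.2.2))

theorem con_sh_mpr {c : ℤ × ℤ} {F A : Set (ℤ × ℤ)} {x y : ℤ × ℤ}
    (h : Con F {z | z - c ∈ A} (x + c) (y + c)) : Con (shS c F) A x y := by
  have key : ∀ u v, Con F {z | z - c ∈ A} u v → Con (shS c F) A (u - c) (v - c) := by
    intro u v h
    induction h with
    | refl => exact Con.refl _ _ _
    | tail _ hbc ih =>
      refine ih.trans (Con.single (pstep_sh.2 ?_) hbc.2.1 hbc.2.2)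
      simpa using hbc.1
  simpa using key _ _ h

/-- Three components of the annulus `An m R` which cross it, sites of parity `e`. -/
def Com3 (e m R : ℤ) (F : Set (ℤ × ℤ)) : Prop :=
  ∃ a : Fin 3 → ℤ × ℤ, (∀ i, par (a i) = e ∧ nm (a i) = m + 1) ∧
    (∀ i, ∃ s, nm s = R ∧ Con F (An m R) (a i) s) ∧
    ∀ i j, i ≠ j → ¬ Con F (An m R) (a i) (a j)

/-- The box of radius `m` is a trifurcation at scale `R`. -/
def Tri (e m R : ℤ) (F : Set (ℤ × ℤ)) : Prop :=
  (∀ x ∈ Bx m 0, ∀ y ∈ Bx m 0, par x = e → par y = e → Con F (Bx m 0) x y) ∧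
    ∃ a : Fin 3 → ℤ × ℤ, (∀ i, par (a i) = e ∧ nm (a i) = m + 1) ∧
    (∀ i, ∃ b ∈ Bx m 0, PStep F (a i) b) ∧
    (∀ i, ∃ s, nm s = R ∧ Con F (An m R) (a i) s) ∧
    ∀ i j, i ≠ j → ¬ Con F (An m R) (a i) (a j)

theorem pstep_HN {N : ℤ} {F : Set (ℤ × ℤ)} {x y : ℤ × ℤ} (hx : x ∈ HN N) (h : PStep F x y) :
    y ∈ HN (N + 1) := by
  rw [mem_HN] at *
  obtain ⟨h1, h2, -⟩ := h
  omega

/-- The shift of the representatives. -/
def oo (e : ℤ) : ℤ × ℤ := (e, 0)

/-- **Counting.** -/
theorem tri_card {e m N R : ℤ} (he0 : 0 ≤ e) (he1 : e ≤ 1) (hm : 1 ≤ m) (C S : Finset (ℤ × ℤ))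
    (F : Set (ℤ × ℤ)) (hS : ∀ x, x ∈ S ↔ nm x = N ∧ par x = e) (hCe : ∀ c ∈ C, par c = 0)
    (hC : ∀ c ∈ C, ∀ x ∈ Bx m c, x ∈ HN (N - 1))
    (hdis : ∀ c ∈ C, ∀ c' ∈ C, c ≠ c' → ∀ x ∈ Bx m c, x ∉ Bx m c')
    (hR : ∀ c ∈ C, ∀ x ∈ HN N, x - c ∈ HN (R - 1)) (T : Finset (ℤ × ℤ)) (hT : T ⊆ C)
    (hTri : ∀ t ∈ T, Tri e m R (shS t F)) : T.card ≤ S.card := by
  classical
  -- basic inclusions
  have HN' : ∀ {x}, x ∈ HN (N - 1) → x ∈ HN N := by
    intro x hx; rw [mem_HN] at hx ⊢; omega
  have HR : ∀ {x}, x ∈ HN (R - 1) → x ∈ HN R := by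
    intro x hx; rw [mem_HN] at hx ⊢; omega
  have hSN : ∀ x ∈ S, x ∈ HN N ∧ x ∉ HN (N - 1) := by
    intro x hx
    have := ((hS x).1 hx).1
    unfold HN
    simp only [Set.mem_ofPred_eq]
    omega
  have hSmem : ∀ x, x ∈ HN N → x ∉ HN (N - 1) → par x = e → x ∈ S := by
    intro x h1 h2 h3
    unfold HN at h1 h2
    simp only [Set.mem_ofPred_eq] at h1 h2
    exact (hS x).2 ⟨by omega, h3⟩
  have hboxsh : ∀ t x : ℤ × ℤ, x - t ∈ Bx m 0 ↔ x ∈ Bx m t := by
    intro t x
    rw [mem_Bx, mem_Bx]
    simp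
  have hself : ∀ t : ℤ × ℤ, t + oo e ∈ Bx m t := by
    intro t
    rw [mem_Bx]
    unfold oo
    simp only [Prod.fst_add, Prod.snd_add]
    omega
  have hself' : ∀ t : ℤ × ℤ, t ∈ Bx m (t - oo e) := by
    intro t
    have := hself (t - oo e)
    rwa [sub_add_cancel] at this
  have hpsub : ∀ t ∈ T, ∀ x : ℤ × ℤ, par (x - t) = par x := by
    intro t ht x
    have := hCe t (hT ht)
    unfold par at *
    simp only [Prod.fst_sub, Prod.snd_sub]
    omega
  have hpt : ∀ t ∈ T, par (t + oo e) = e := by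
    intro t ht
    have := hCe t (hT ht)
    unfold par oo at *
    simp only [Prod.fst_add, Prod.snd_add]
    omega
  have inside : ∀ t ∈ T, ∀ x ∈ Bx m t, par x = e → Con F (Bx m t) x (t + oo e) := by
    intro t ht x hx hpx
    have h1 := (hTri t ht).1 (x - t) ((hboxsh t x).2 hx) (t + oo e - t)
      ((hboxsh t _).2 (hself t)) (by rw [hpsub t ht, hpx]) (by rw [hpsub t ht, hpt t ht])
    have := con_sh_mp h1
    rw [sub_add_cancel, sub_add_cancel] at this
    exact this.mono fun z hz => (hboxsh t z).1 hz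
  -- the representatives
  set T' : Finset (ℤ × ℤ) := T.image (fun t => t + oo e) with hT'
  have memT' : ∀ t, t ∈ T' ↔ t - oo e ∈ T := by
    intro t
    rw [hT', Finset.mem_image]
    constructor
    · rintro ⟨s, hs, rfl⟩; rwa [add_sub_cancel_right]
    · intro h; exact ⟨_, h, sub_add_cancel _ _⟩
  have cardT' : T'.card = T.card := Finset.card_image_of_injective _ (add_left_injective _)
  -- the relations
  set r : ℤ × ℤ → ℤ × ℤ → ℤ × ℤ → Prop := fun t x y => Con F (HN N \ Bx m (t - oo e)) x y with hrdef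
  have hr : ∀ t, Equivalence (r t) := fun t => con_equivalence F _
  let st : Setoid (ℤ × ℤ) := ⟨Con F (HN N), con_equivalence F _⟩
  let cl : ℤ × ℤ → Quotient st := fun x => Quotient.mk st x
  have hcl : ∀ x y, cl x = cl y ↔ Con F (HN N) x y := fun x y => Quotient.eq (r := st)
  have main : ∀ q : Quotient st, (T'.filter (fun x => cl x = q)).card ≤
      (S.filter (fun x => cl x = q)).card := by
    intro q
    refine trif_count r hr _ _ _ rfl ?_ ?_ ?_
    · rw [Finset.disjoint_left]
      intro x hx hx'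
      have h0 := (memT' x).1 (Finset.mem_filter.1 hx).1
      have h1 := hC _ (hT h0) x (hself' x)
      exact (hSN x (Finset.mem_filter.1 hx').1).2 h1
    · intro t ht t' ht' htt' y hy hyt hyt' hnot
      obtain ⟨htT0, htq⟩ := Finset.mem_filter.1 ht
      obtain ⟨ht'T0, ht'q⟩ := Finset.mem_filter.1 ht'
      have htT := (memT' t).1 htT0
      have ht'T := (memT' t').1 ht'T0
      have hyq : cl y = q := by
        rcases Finset.mem_union.1 hy with h | h <;> exact (Finset.mem_filter.1 h).2
      have hyN : y ∈ HN N := by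
        rcases Finset.mem_union.1 hy with h | h
        · exact HN' (hC _ (hT ((memT' y).1 (Finset.mem_filter.1 h).1)) y (hself' y))
        · exact (hSN y (Finset.mem_filter.1 h).1).1
      have hyp : par y = e := by
        rcases Finset.mem_union.1 hy with h | h
        · have := hpt _ ((memT' y).1 (Finset.mem_filter.1 h).1)
          rwa [sub_add_cancel] at this
        · exact ((hS y).1 (Finset.mem_filter.1 h).1).2
      have hne' : ∀ {u v : ℤ × ℤ}, u ≠ v → u - oo e ≠ v - oo e := by
        intro u v h h'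
        exact h (sub_left_injective h')
      have hyout : ∀ u, u - oo e ∈ T → y ≠ u → y ∉ Bx m (u - oo e) := by
        intro u hu hyu hyB
        rcases Finset.mem_union.1 hy with h | h
        · exact hdis _ (hT ((memT' y).1 (Finset.mem_filter.1 h).1)) _ (hT hu) (hne' hyu) y
            (hself' y) hyB
        · exact (hSN y (Finset.mem_filter.1 h).1).2 (hC _ (hT hu) y hyB)
      have hcon : Con F (HN N) y t := (hcl _ _).1 (hyq.trans htq.symm)
      have tN : ∀ x ∈ Bx m (t - oo e), x ∈ HN N \ Bx m (t' - oo e) := fun x hx =>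
        ⟨HN' (hC _ (hT htT) x hx), hdis _ (hT htT) _ (hT ht'T) (hne' htt') x hx⟩
      have t'N : ∀ x ∈ Bx m (t' - oo e), x ∈ HN N \ Bx m (t - oo e) := fun x hx =>
        ⟨HN' (hC _ (hT ht'T) x hx), hdis _ (hT ht'T) _ (hT htT) (hne' htt').symm x hx⟩
      rcases hcon.exit (B := (Bx m (t - oo e))ᶜ) (hyout t htT hyt) with
        h | ⟨u, v, h1, h2, h3, h4, h5, h6⟩
      · exact absurd (h.right_mem ⟨hyN, hyout t htT hyt⟩).2 (fun h => h (hself' t))
      · have h1' : Con F (HN N \ Bx m (t - oo e)) y u := h1.mono (fun z hz => hz)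
        have hv : v ∈ Bx m (t - oo e) := by
          by_contra hcon; exact h4 hcon
        have hpv : par v = e := by rw [PStep.par h3, h1.par, hyp]
        have hvt : Con F (HN N \ Bx m (t' - oo e)) v t := by
          have := (inside _ htT v hv hpv).mono tN
          rwa [sub_add_cancel] at this
        rcases h1'.exit (B := (Bx m (t' - oo e))ᶜ) (hyout t' ht'T hyt') with
          h | ⟨u', v', g1, g2, g3, g4, g5, g6⟩
        · have hu : u ∈ HN N \ Bx m (t' - oo e) := by
            have := h.right_mem ⟨⟨hyN, hyout t htT hyt⟩, hyout t' ht'T hyt'⟩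
            exact ⟨this.1.1, this.2⟩
          have e1 : Con F (HN N \ Bx m (t' - oo e)) y u := h.mono (fun z hz => ⟨hz.1.1, hz.2⟩)
          exact e1.trans ((Con.single h3 hu (tN v hv)).trans hvt)
        · exfalso
          apply hnot
          have hv' : v' ∈ Bx m (t' - oo e) := by
            by_contra hcon; exact g4 hcon
          have hpv' : par v' = e := by rw [PStep.par g3, g1.par, hyp]
          have e1 : Con F (HN N \ Bx m (t - oo e)) y u' := g1.mono (fun z hz => hz.1)
          have e2 := (inside _ ht'T v' hv' hpv').mono t'N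
          rw [sub_add_cancel] at e2
          exact e1.trans ((Con.single g3 g5 g6).trans e2)
    · intro t ht
      obtain ⟨htT0, htq⟩ := Finset.mem_filter.1 ht
      have htT := (memT' t).1 htT0
      set c := t - oo e with hc
      have htc : c + oo e = t := sub_add_cancel _ _
      obtain ⟨-, a, ha, hab, has, hsep⟩ := hTri c htT
      have haout : ∀ i, a i ∉ Bx m 0 := by
        intro i h
        have h1 := (ha i).2
        unfold Bx at h
        simp only [Set.mem_ofPred_eq, sub_zero] at h
        omega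
      -- exit vertices
      have hex : ∀ i, ∃ s ∈ S, cl s = q ∧ Con F (HN N \ Bx m c) (a i + c) s := by
        intro i
        obtain ⟨b, hb, hbi⟩ := hab i
        obtain ⟨s, hs, hcon⟩ := has i
        have hb' : b + c ∈ Bx m c := by
          rw [← hboxsh, add_sub_cancel_right]; exact hb
        have hbi' : PStep F (a i + c) (b + c) := pstep_sh.1 hbi
        have haN : a i + c ∈ HN N := by
          have := pstep_HN (hC c (hT htT) _ hb') hbi'.symm
          rwa [sub_add_cancel] at this
        have haB : a i + c ∉ Bx m c := by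
          intro h
          rw [← hboxsh, add_sub_cancel_right] at h
          exact haout i h
        have hpa : par (a i + c) = e := by
          have := hpsub c htT (a i + c)
          rw [add_sub_cancel_right] at this
          rw [← this]; exact (ha i).1
        have hcon' := con_sh_mp hcon
        have key : ∃ s ∈ S, Con F (HN N \ Bx m c) (a i + c) s := by
          rcases hcon'.exit (B := HN N) haN with h | ⟨u, v, h1, h2, h3, h4, h5, h6⟩
          · exfalso
            have hsN : s + c ∈ HN N := by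
              have hai : a i ∈ An m R := by
                -- the path is inside the annulus: its end is at distance `R`
                have h7 : s ∈ An m R ∨ a i = s := by
                  rcases ReflTransGen.cases_tail hcon with h | ⟨d, -, hd⟩
                  · right; exact h.symm
                  · left; exact hd.2.2
                rcases h7 with h7 | h7
                · exact hcon.symm.right_mem h7
                · rw [mem_An]
                  refine ⟨?_, ?_⟩
                  · unfold HN; simp only [Set.mem_ofPred_eq]; rw [h7, hs]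
                  · intro h
                    have := (ha i).2
                    unfold HN at h
                    simp only [Set.mem_ofPred_eq] at h
                    omega
              exact (h.right_mem ⟨by simpa using hai, haN⟩).2
            have := hR c (hT htT) _ hsN
            rw [add_sub_cancel_right] at this
            unfold HN at this
            simp only [Set.mem_ofPred_eq] at this
            omega
          · refine ⟨u, hSmem u h2 (fun hu => h4 ?_) ?_, h1.mono ?_⟩
            · have := pstep_HN hu h3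
              rwa [sub_add_cancel] at this
            · rw [h1.par, hpa]
            · rintro z ⟨hz1, hz3⟩
              refine ⟨hz3, fun hz2 => ?_⟩
              rw [← hboxsh] at hz2
              have := (mem_An.1 hz1).2
              apply this
              unfold Bx at hz2
              simpa [HN] using hz2
        obtain ⟨s', hs', hc'⟩ := key
        refine ⟨s', hs', ?_, hc'⟩
        rw [← htq, hcl]
        have e1 : Con F (HN N) s' (a i + c) := (hc'.mono (fun z hz => hz.1)).symm
        have e2 : Con F (HN N) (a i + c) (b + c) :=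
          Con.single hbi' haN (HN' (hC c (hT htT) _ hb'))
        have hpb : par (b + c) = e := by rw [PStep.par hbi', hpa]
        have e3 : Con F (HN N) (b + c) t := by
          have := (inside c htT _ hb' hpb).mono (fun z hz => HN' (hC c (hT htT) z hz))
          rwa [htc] at this
        exact e1.trans (e2.trans e3)
      choose s hsS hsq hsc using hex
      have hne : ∀ i j, i ≠ j → ¬ r t (s i) (s j) := by
        intro i j hij hcon
        refine hsep i j hij (con_sh_mpr ?_)
        have : Con F (HN N \ Bx m c) (a i + c) (a j + c) :=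
          (hsc i).trans (Con.trans hcon (hsc j).symm)
        refine this.mono (fun z hz => ?_)
        show z - c ∈ An m R
        rw [mem_An]
        refine ⟨HR (hR c (hT htT) z hz.1), fun h => hz.2 ?_⟩
        rw [← hboxsh]
        unfold Bx
        simpa [HN] using h
      exact ⟨s 0, Finset.mem_filter.2 ⟨hsS 0, hsq 0⟩, s 1, Finset.mem_filter.2 ⟨hsS 1, hsq 1⟩,
        s 2, Finset.mem_filter.2 ⟨hsS 2, hsq 2⟩, hne 0 1 (by decide), hne 1 2 (by decide),
        hne 0 2 (by decide)⟩
  have hTsum : T'.card = ∑ q ∈ (T' ∪ S).image cl, (T'.filter (fun x => cl x = q)).card :=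
    Finset.card_eq_sum_card_fiberwise (fun x hx => by
      simp only [Finset.coe_image, Set.mem_image]
      exact ⟨x, Finset.mem_coe.2 (Finset.mem_union_left _ hx), rfl⟩)
  have hSsum : S.card = ∑ q ∈ (T' ∪ S).image cl, (S.filter (fun x => cl x = q)).card :=
    Finset.card_eq_sum_card_fiberwise (fun x hx => by
      simp only [Finset.coe_image, Set.mem_image]
      exact ⟨x, Finset.mem_coe.2 (Finset.mem_union_right _ hx), rfl⟩)
  rw [← cardT', hTsum, hSsum]
  exact Finset.sum_le_sum (fun q _ => main q)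

end Vale.Agent.P167.H562.BK
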