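import Vale.Agent.P167.H562.BKa

/-!
# P167, general `q`: Burton-Keane on the torus, probabilistic part (abstract weights)
-/

namespace Vale.Agent.P167.H562.BK

open Finset Relation
open Vale.Agent.P145.FB (PStep PConn)

/-! ## Finite energy -/

section flip

variable {V : Type*} [Fintype V] [DecidableEq V]

lemma sum_update_le {K : (V → Bool) → ℝ} (hK : ∀ ρ, 0 ≤ K ρ) (v : V) (b : Bool) :
    ∑ ρ, K (Function.update ρ v b) ≤ 2 * ∑ ρ, K ρ := by
  have hinv : Function.Involutive (fun ρ : V → Bool => Function.update ρ v (!ρ v)) := by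
    intro ρ
    simp only [Function.update_self, Bool.not_not, Function.update_idem, Function.update_eq_self]
  have h1 : ∀ ρ : V → Bool, K (Function.update ρ v b) ≤ K ρ + K (Function.update ρ v (!ρ v)) := by
    intro ρ
    by_cases h : ρ v = b
    · have : Function.update ρ v b = ρ := by rw [← h, Function.update_eq_self]
      rw [this]
      linarith [hK (Function.update ρ v (!ρ v))]
    · have : (!ρ v) = b := by cases hρ : ρ v <;> cases b <;> simp_all
      rw [this]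
      linarith [hK ρ]
  calc ∑ ρ, K (Function.update ρ v b) ≤ ∑ ρ, (K ρ + K (Function.update ρ v (!ρ v))) :=
        Finset.sum_le_sum fun ρ _ => h1 ρ
    _ = ∑ ρ, K ρ + ∑ ρ, K (Function.update ρ v (!ρ v)) := Finset.sum_add_distrib
    _ = ∑ ρ, K ρ + ∑ ρ, K ρ := by
        congr 1
        exact Equiv.sum_comp hinv.toPerm K
    _ = _ := by ring

lemma step_flip {W : (V → Bool) → ℝ} {A : ℝ} (hA : 0 ≤ A) (hW : ∀ ρ, 0 ≤ W ρ) (v : V) (b : Bool)
    (h : ∀ ρ, W ρ ≤ A * W (Function.update ρ v b)) {H : (V → Bool) → ℝ} (hH : ∀ ρ, 0 ≤ H ρ) :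
    ∑ ρ, W ρ * H (Function.update ρ v b) ≤ 2 * A * ∑ ρ, W ρ * H ρ := by
  have h1 : ∀ ρ, W ρ * H (Function.update ρ v b) ≤
      A * (W (Function.update ρ v b) * H (Function.update ρ v b)) := by
    intro ρ
    rw [← mul_assoc]
    exact mul_le_mul_of_nonneg_right (h ρ) (hH _)
  refine (Finset.sum_le_sum fun ρ _ => h1 ρ).trans ?_
  rw [← Finset.mul_sum]
  have h2 := sum_update_le (K := fun ρ => W ρ * H ρ) (fun ρ => mul_nonneg (hW ρ) (hH ρ)) v b
  calc A * ∑ ρ, W (Function.update ρ v b) * H (Function.update ρ v b)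
      ≤ A * (2 * ∑ ρ, W ρ * H ρ) := mul_le_mul_of_nonneg_left h2 hA
    _ = _ := by ring

/-- Set the value `b` on `Q`. -/
def setF (Q : Finset V) (b : Bool) (ρ : V → Bool) : V → Bool := fun v => if v ∈ Q then b else ρ v

lemma set_le {W : (V → Bool) → ℝ} {A : ℝ} (hA : 0 ≤ A) (hW : ∀ ρ, 0 ≤ W ρ) (b : Bool)
    (h : ∀ ρ v, W ρ ≤ A * W (Function.update ρ v b)) (Q : Finset V) {H : (V → Bool) → ℝ}
    (hH : ∀ ρ, 0 ≤ H ρ) :
    ∑ ρ, W ρ * H (setF Q b ρ) ≤ (2 * A) ^ Q.card * ∑ ρ, W ρ * H ρ := by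
  induction Q using Finset.induction_on with
  | empty =>
    have e : ∀ ρ : V → Bool, setF ∅ b ρ = ρ := by
      intro ρ; funext v; simp [setF]
    simp [e]
  | insert v Q hv ih =>
    have e : ∀ ρ : V → Bool, setF (insert v Q) b ρ = setF Q b (Function.update ρ v b) := by
      intro ρ
      funext w
      unfold setF
      by_cases hw : w = v
      · subst hw; simp [hv]
      · simp [Finset.mem_insert, hw]
    simp only [e]
    have h1 := step_flip hA hW v b (fun ρ => h ρ v) (H := fun ρ => H (setF Q b ρ)) (fun ρ => hH _)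
    refine h1.trans ?_
    rw [Finset.card_insert_of_notMem hv, pow_succ]
    calc 2 * A * ∑ ρ, W ρ * H (setF Q b ρ) ≤ 2 * A * ((2 * A) ^ Q.card * ∑ ρ, W ρ * H ρ) :=
          mul_le_mul_of_nonneg_left ih (by positivity)
      _ = _ := by ring

end flip

/-! ## Opening a box -/

/-- The squares which have a corner of parity `e` at distance at most `m`. -/
def Qs (e m : ℤ) : Set (ℤ × ℤ) := {s | ∃ u : ℤ × ℤ, u ∈ HN m ∧ par u = e ∧
  (u.1 = s.1 ∨ u.1 = s.1 + 1) ∧ (u.2 = s.2 ∨ u.2 = s.2 + 1)}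

theorem step_Qs {e m : ℤ} {F : Set (ℤ × ℤ)} (hQ : Qs e m ⊆ F) {x y : ℤ × ℤ} (hx : x ∈ HN m)
    (hp : par x = e) (h1 : y.1 = x.1 + 1 ∨ y.1 = x.1 - 1) (h2 : y.2 = x.2 + 1 ∨ y.2 = x.2 - 1) :
    PStep F x y := by
  refine ⟨h1, h2, hQ ⟨x, hx, hp, ?_, ?_⟩⟩
  · simp only; omega
  · simp only; omega

/-- Moving to height `0`. -/
theorem to_axis {e m : ℤ} (hm : 1 ≤ m) {F : Set (ℤ × ℤ)} (hQ : Qs e m ⊆ F) : ∀ (k : ℕ) (x : ℤ × ℤ),
    x ∈ HN m → par x = e → x.2.natAbs = k → ∃ y : ℤ × ℤ, y ∈ HN m ∧ y.2 = 0 ∧ par y = e ∧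
      Con F (HN m) x y := by
  intro k
  induction k with
  | zero =>
    intro x hx hp hk
    exact ⟨x, hx, by omega, hp, Con.refl _ _ _⟩
  | succ k ih =>
    intro x hx hp hk
    obtain ⟨y, hy1, hy2, hy3⟩ : ∃ y : ℤ × ℤ, (y.1 = x.1 + 1 ∨ y.1 = x.1 - 1) ∧
        (y.2 = x.2 + 1 ∨ y.2 = x.2 - 1) ∧ y ∈ HN m ∧ y.2.natAbs = k := by
      rw [mem_HN] at hx
      refine ⟨(if 0 < x.1 then x.1 - 1 else x.1 + 1, if 0 < x.2 then x.2 - 1 else x.2 + 1), ?_, ?_, ?_⟩
      · dsimp only; split_ifs <;> omega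
      · dsimp only; split_ifs <;> omega
      · rw [mem_HN]; dsimp only; split_ifs <;> omega
    have hst := step_Qs hQ hx hp hy1 hy2
    obtain ⟨z, h1, h2, h3, h4⟩ := ih y hy3.1 (by rw [PStep.par hst, hp]) hy3.2
    exact ⟨z, h1, h2, h3, (Con.single hst hx hy3.1).trans h4⟩

theorem along_axis {e m : ℤ} (he0 : 0 ≤ e) (he1 : e ≤ 1) (hm : 1 ≤ m) {F : Set (ℤ × ℤ)}
    (hQ : Qs e m ⊆ F) : ∀ (k : ℕ) (x : ℤ × ℤ), x ∈ HN m → par x = e → x.2 = 0 →
      x.1.natAbs ≤ k → Con F (HN m) x (e, 0) := by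
  intro k
  induction k using Nat.strong_induction_on with
  | _ k ih =>
    intro x hx hp h2 hk
    have hx' := hx
    rw [mem_HN] at hx'
    unfold par at hp
    by_cases hxe : x.1 = e
    · have : x = (e, 0) := Prod.ext hxe h2
      rw [this]; exact Con.refl _ _ _
    · by_cases hx1 : x.1 = -1
      · -- `(-1, 0) → (0, 1) → (1, 0)`
        have he : e = 1 := by omega
        have s1 := step_Qs hQ hx (by unfold par; omega) (y := (0, 1)) (by dsimp only; omega)
          (by dsimp only; omega)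
        have m1 : ((0, 1) : ℤ × ℤ) ∈ HN m := by rw [mem_HN]; dsimp only; omega
        have s2 := step_Qs hQ m1 (by unfold par; dsimp only; omega) (y := (e, 0))
          (by dsimp only; omega) (by dsimp only; omega)
        have m2 : ((e, 0) : ℤ × ℤ) ∈ HN m := by rw [mem_HN]; dsimp only; omega
        exact (Con.single s1 hx m1).trans (Con.single s2 m1 m2)
      · obtain ⟨y, z, a1, a2, a3, a4, a5, a6, a7, a8⟩ : ∃ y z : ℤ × ℤ,
            (y.1 = x.1 + 1 ∨ y.1 = x.1 - 1) ∧ (y.2 = x.2 + 1 ∨ y.2 = x.2 - 1) ∧ y ∈ HN m ∧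
            (z.1 = y.1 + 1 ∨ z.1 = y.1 - 1) ∧ (z.2 = y.2 + 1 ∨ z.2 = y.2 - 1) ∧ z ∈ HN m ∧
            z.2 = 0 ∧ z.1.natAbs < x.1.natAbs := by
          refine ⟨(if 0 < x.1 then x.1 - 1 else x.1 + 1, 1),
            (if 0 < x.1 then x.1 - 2 else x.1 + 2, 0), ?_, ?_, ?_, ?_, ?_, ?_, ?_, ?_⟩
          · dsimp only; split_ifs <;> omega
          · dsimp only; omega
          · rw [mem_HN]; dsimp only; split_ifs <;> omega
          · dsimp only; split_ifs <;> omega
          · dsimp only; omega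
          · rw [mem_HN]; dsimp only; split_ifs <;> omega
          · rfl
          · dsimp only; split_ifs <;> omega
        have s1 := step_Qs hQ hx (by unfold par; omega) a1 a2
        have hpy : par y = e := by rw [PStep.par s1]; unfold par; omega
        have s2 := step_Qs hQ a3 hpy a4 a5
        have hpz : par z = e := by rw [PStep.par s2, hpy]
        exact (Con.single s1 hx a3).trans ((Con.single s2 a3 a6).trans
          (ih z.1.natAbs (by omega) z a6 hpz a7 le_rfl))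

theorem inside_Qs {e m : ℤ} (he0 : 0 ≤ e) (he1 : e ≤ 1) (hm : 1 ≤ m) {F : Set (ℤ × ℤ)}
    (hQ : Qs e m ⊆ F) {x y : ℤ × ℤ} (hx : x ∈ HN m) (hy : y ∈ HN m) (hpx : par x = e)
    (hpy : par y = e) : Con F (HN m) x y := by
  have key : ∀ x : ℤ × ℤ, x ∈ HN m → par x = e → Con F (HN m) x (e, 0) := by
    intro x hx hpx
    obtain ⟨z, h1, h2, h3, h4⟩ := to_axis hm hQ _ x hx hpx rfl
    exact h4.trans (along_axis he0 he1 hm hQ _ z h1 h3 h2 le_rfl)
  exact (key x hx hpx).trans (key y hy hpy).symm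

/-- A step between two sites of parity `e` outside of the box does not use the squares of `Qs`. -/
theorem step_out {e m : ℤ} {x y : ℤ × ℤ} {F : Set (ℤ × ℤ)} (h : PStep F x y) (hp : par x = e)
    (hx : x ∉ HN m) (hy : y ∉ HN m) : (min x.1 y.1, min x.2 y.2) ∉ Qs e m := by
  rintro ⟨u, hu, hpu, h1, h2⟩
  obtain ⟨h3, h4, -⟩ := h
  simp only at h1 h2
  unfold par at hp hpu
  have hcase : (u.1 = x.1 ∧ u.2 = x.2) ∨ (u.1 = y.1 ∧ u.2 = y.2) := by omega
  rcases hcase with h | h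
  · exact hx ((Prod.ext h.1 h.2 : u = x) ▸ hu)
  · exact hy ((Prod.ext h.1 h.2 : u = y) ▸ hu)

/-- Opening the box creates a trifurcation. -/
theorem com3_tri {e m R : ℤ} (he0 : 0 ≤ e) (he1 : e ≤ 1) (hm : 1 ≤ m) {F F' : Set (ℤ × ℤ)}
    (hF : F ⊆ F') (hQ : Qs e m ⊆ F') (hF' : ∀ s ∈ F', -R ≤ s.1 → s.1 ≤ R → -R ≤ s.2 → s.2 ≤ R →
      s ∈ F ∨ s ∈ Qs e m) (h : Com3 e m R F) : Tri e m R F' := by
  have h0 : Bx m 0 = HN m := by
    ext w
    unfold Bx HN
    simp
  obtain ⟨a, ha, has, hsep⟩ := h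
  refine ⟨?_, a, ha, ?_, ?_, ?_⟩
  · intro x hx y hy hpx hpy
    rw [h0] at *
    exact inside_Qs he0 he1 hm hQ hx hy hpx hpy
  · intro i
    obtain ⟨hp, hn⟩ := ha i
    have h1 : a i ∈ HN (m + 1) := by unfold HN; simp only [Set.mem_ofPred_eq]; omega
    rw [mem_HN] at h1
    obtain ⟨b, b1, b2, b3⟩ : ∃ b : ℤ × ℤ, (b.1 = (a i).1 + 1 ∨ b.1 = (a i).1 - 1) ∧
        (b.2 = (a i).2 + 1 ∨ b.2 = (a i).2 - 1) ∧ b ∈ HN m := by
      refine ⟨(if 0 < (a i).1 then (a i).1 - 1 else (a i).1 + 1,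
        if 0 < (a i).2 then (a i).2 - 1 else (a i).2 + 1), ?_, ?_, ?_⟩
      · dsimp only; split_ifs <;> omega
      · dsimp only; split_ifs <;> omega
      · rw [mem_HN]; dsimp only; split_ifs <;> omega
    refine ⟨b, by rw [h0]; exact b3, ?_⟩
    have hpb : par b = e := by unfold par at *; omega
    exact (step_Qs hQ b3 hpb (by omega) (by omega)).symm
  · intro i
    obtain ⟨s, hs, hc⟩ := has i
    exact ⟨s, hs, hc.congr fun u _ v _ h => ⟨h.1, h.2.1, hF h.2.2⟩⟩
  · intro i j hij hc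
    apply hsep i j hij
    -- all sites of the path have parity `e`
    have key : ∀ {x y : ℤ × ℤ}, Con F' (An m R) x y → par x = e → Con F (An m R) x y := by
      intro x y hc hp
      induction hc with
      | refl => exact Con.refl _ _ _
      | @tail b c hab hbc ih =>
        have hpb : par b = e := by
          have : Con F' (An m R) x b := hab
          rw [this.par, hp]
        have hb := mem_An.1 hbc.2.1
        have hc := mem_An.1 hbc.2.2
        have hout := step_out hbc.1 hpb hb.2 hc.2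
        have hb1 := mem_HN.1 hb.1
        have hc1 := mem_HN.1 hc.1
        have hmem := hF' _ hbc.1.2.2 (by simp only; omega) (by simp only; omega)
          (by simp only; omega) (by simp only; omega)
        refine ih.trans (Con.single ⟨hbc.1.1, hbc.1.2.1, hmem.resolve_right hout⟩ hbc.2.1 hbc.2.2)
    exact key hc (ha i).1

/-- Crossing a larger annulus. -/
theorem com3_mono {e m R R' : ℤ} (hR : m + 1 ≤ R) (hRR : R ≤ R') {F : Set (ℤ × ℤ)}
    (h : Com3 e m R' F) : Com3 e m R F := by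
  obtain ⟨a, ha, has, hsep⟩ := h
  have hsub : An m R ⊆ An m R' := fun w hw => ⟨hw.1, hw.2.trans hRR⟩
  refine ⟨a, ha, fun i => ?_, fun i j hij hc => hsep i j hij (hc.mono hsub)⟩
  obtain ⟨s, hs, hc⟩ := has i
  have hai : a i ∈ HN R := by unfold HN; simp only [Set.mem_ofPred_eq]; linarith [(ha i).2]
  rcases hc.exit hai with h | ⟨u, v, h1, h2, h3, h4, h5, h6⟩
  · have h7 : s ∈ HN R := by
      rcases ReflTransGen.cases_tail h with h | ⟨d, -, hd⟩
      · rw [h]; exact hai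
      · exact hd.2.2.2
    unfold HN at h7
    simp only [Set.mem_ofPred_eq] at h7
    exact ⟨s, by omega, h.mono fun w hw => ⟨hw.1.1, hw.2⟩⟩
  · refine ⟨u, ?_, h1.mono fun w hw => ⟨hw.1.1, hw.2⟩⟩
    by_contra hne
    have h7 : u ∈ HN (R - 1) := by
      unfold HN at h2 ⊢
      simp only [Set.mem_ofPred_eq] at h2 ⊢
      omega
    have := pstep_HN h7 h3
    rw [sub_add_cancel] at this
    exact h4 this

/-! ## Counting -/

/-- The boundary sites. -/
noncomputable def Sf (e N : ℤ) : Finset (ℤ × ℤ) := by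
  classical exact (Finset.Icc (-N) N ×ˢ Finset.Icc (-N) N).filter (fun x => nm x = N ∧ par x = e)

theorem mem_Sf {e N : ℤ} (x : ℤ × ℤ) : x ∈ Sf e N ↔ nm x = N ∧ par x = e := by
  classical
  unfold Sf
  rw [Finset.mem_filter, Finset.mem_product, Finset.mem_Icc, Finset.mem_Icc]
  constructor
  · exact fun h => h.2
  · intro h
    refine ⟨?_, h⟩
    have := nm_le_iff.1 h.1.le
    omega

theorem card_Sf (e : ℤ) {N : ℤ} (hN : 0 ≤ N) : ((Sf e N).card : ℤ) ≤ 4 * (2 * N + 1) := by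
  classical
  have hsub : Sf e N ⊆ ((({-N, N} : Finset ℤ) ×ˢ Finset.Icc (-N) N) ∪
      (Finset.Icc (-N) N ×ˢ ({-N, N} : Finset ℤ))) := by
    intro x hx
    rw [mem_Sf] at hx
    have h1 := nm_le_iff.1 hx.1.le
    have h2 : |x.1| = N ∨ |x.2| = N := by
      have := hx.1
      unfold nm at this
      rcases max_choice |x.1| |x.2| with h | h
      · left; rw [← h]; exact this
      · right; rw [← h]; exact this
    rw [Finset.mem_union, Finset.mem_product, Finset.mem_product]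
    simp only [Finset.mem_insert, Finset.mem_singleton, Finset.mem_Icc]
    rcases h2 with h2 | h2
    · left
      rcases abs_choice x.1 with h | h <;> rw [h] at h2 <;> refine ⟨by omega, by omega⟩
    · right
      rcases abs_choice x.2 with h | h <;> rw [h] at h2 <;> refine ⟨by omega, by omega⟩
  have h1 := Finset.card_le_card hsub
  have h2 := Finset.card_union_le (({-N, N} : Finset ℤ) ×ˢ Finset.Icc (-N) N)
    (Finset.Icc (-N) N ×ˢ ({-N, N} : Finset ℤ))
  rw [Finset.card_product, Finset.card_product] at h2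
  have h3 : (({-N, N} : Finset ℤ)).card ≤ 2 := Finset.card_le_two
  have h4 : ((Finset.Icc (-N) N).card : ℤ) = 2 * N + 1 := by
    rw [Int.card_Icc]
    omega
  have h5 : ((Sf e N).card : ℤ) ≤ (({-N, N} : Finset ℤ)).card * (Finset.Icc (-N) N).card +
      (Finset.Icc (-N) N).card * (({-N, N} : Finset ℤ)).card := by
    exact_mod_cast h1.trans h2
  rw [h4] at h5
  have h6 : ((({-N, N} : Finset ℤ)).card : ℤ) ≤ 2 := by exact_mod_cast h3
  nlinarith

/-- The centres. -/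
noncomputable def Ce (m : ℤ) (K : ℕ) : Finset (ℤ × ℤ) :=
  (Finset.range K ×ˢ Finset.range K).image
    (fun p : ℕ × ℕ => (2 * ((m + 1) * (p.1 : ℤ)), 2 * ((m + 1) * (p.2 : ℤ))))

theorem card_Ce {m : ℤ} (hm : 1 ≤ m) (K : ℕ) : (Ce m K).card = K ^ 2 := by
  rw [Ce, Finset.card_image_of_injective, Finset.card_product, Finset.card_range, sq]
  intro p q hpq
  simp only [Prod.mk.injEq] at hpq
  obtain ⟨h1, h2⟩ := hpq
  have e1 : (p.1 : ℤ) = q.1 := mul_left_cancel₀ (show (m + 1) ≠ 0 by omega) (by linarith)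
  have e2 : (p.2 : ℤ) = q.2 := mul_left_cancel₀ (show (m + 1) ≠ 0 by omega) (by linarith)
  exact Prod.ext (by exact_mod_cast e1) (by exact_mod_cast e2)

theorem mem_Ce {m : ℤ} {K : ℕ} {c : ℤ × ℤ} (hc : c ∈ Ce m K) : ∃ i j : ℤ, 0 ≤ i ∧ i < K ∧ 0 ≤ j ∧
    j < K ∧ c = (2 * ((m + 1) * i), 2 * ((m + 1) * j)) := by
  simp only [Ce, Finset.mem_image, Finset.mem_product, Finset.mem_range] at hc
  obtain ⟨p, ⟨hp1, hp2⟩, rfl⟩ := hc
  exact ⟨p.1, p.2, by positivity, by exact_mod_cast hp1, by positivity, by exact_mod_cast hp2, rfl⟩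

/-- The size of the large box. -/
def Nb (m : ℤ) (K : ℕ) : ℤ := 2 * ((m + 1) * K) + m + 1

/-- The number of trifurcation boxes of a configuration. -/
theorem tri_count {e m : ℤ} (he0 : 0 ≤ e) (he1 : e ≤ 1) (hm : 1 ≤ m) (K : ℕ) (F : Set (ℤ × ℤ))
    (T : Finset (ℤ × ℤ)) (hT : T ⊆ Ce m K) (hTri : ∀ t ∈ T, Tri e m (2 * Nb m K + 1) (shS t F)) :
    (T.card : ℤ) ≤ 4 * (2 * Nb m K + 1) := by
  have hK0 : 0 ≤ (m + 1) * (K : ℤ) := by positivity
  have hb : ∀ i : ℤ, 0 ≤ i → i < K → 0 ≤ (m + 1) * i ∧ (m + 1) * i ≤ (m + 1) * K - (m + 1) := by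
    intro i h1 h2
    refine ⟨by positivity, ?_⟩
    nlinarith
  have hC : ∀ c ∈ Ce m K, ∀ x ∈ Bx m c, x ∈ HN (Nb m K - 1) := by
    intro c hc x hx
    obtain ⟨i, j, hi0, hiK, hj0, hjK, rfl⟩ := mem_Ce hc
    obtain ⟨a1, a2⟩ := hb i hi0 hiK
    obtain ⟨b1, b2⟩ := hb j hj0 hjK
    rw [mem_Bx] at hx
    rw [mem_HN]
    unfold Nb
    simp only at hx
    omega
  have h := tri_card he0 he1 hm (Ce m K) (Sf e (Nb m K)) (N := Nb m K) (R := 2 * Nb m K + 1) F
    mem_Sf
    (by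
      intro c hc
      obtain ⟨i, j, -, -, -, -, rfl⟩ := mem_Ce hc
      unfold par
      simp only
      omega)
    hC
    (by
      intro c hc c' hc' hne x hx hx'
      obtain ⟨i, j, hi0, hiK, hj0, hjK, rfl⟩ := mem_Ce hc
      obtain ⟨i', j', hi0', hiK', hj0', hjK', rfl⟩ := mem_Ce hc'
      rw [mem_Bx] at hx hx'
      simp only at hx hx'
      apply hne
      have hcase : ∀ (y a b : ℤ), -m ≤ y - 2 * ((m + 1) * a) → y - 2 * ((m + 1) * a) ≤ m →
          -m ≤ y - 2 * ((m + 1) * b) → y - 2 * ((m + 1) * b) ≤ m → a = b := by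
        intro y a b h1 h2 h3 h4
        by_contra hab
        rcases lt_or_gt_of_ne hab with hlt | hgt
        · nlinarith
        · nlinarith
      rw [hcase x.1 i i' hx.1 hx.2.1 hx'.1 hx'.2.1,
        hcase x.2 j j' hx.2.2.1 hx.2.2.2 hx'.2.2.1 hx'.2.2.2])
    (by
      intro c hc x hx
      have hcN := hC c hc c (by rw [mem_Bx]; omega)
      rw [mem_HN] at hx hcN ⊢
      simp only [Prod.fst_sub, Prod.snd_sub]
      omega)
    T hT hTri
  have h2 := card_Sf e (N := Nb m K) (by unfold Nb; omega)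
  have h3 : (T.card : ℤ) ≤ (Sf e (Nb m K)).card := by exact_mod_cast h
  omega

end Vale.Agent.P167.H562.BK
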