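import Vale.Agent.P167.H562.BKb
import Vale.Agent.P167.K8.Defs

/-!
# P167, general `q`: Burton-Keane on the torus
-/

namespace Vale.Agent.P167.H562.BK

open Finset Relation
open Vale.Agent.P145.FB (PStep PConn)
open Vale.Agent.P167.A (red)
open Vale.Agent.P167.H685 (unR)
open Vale.Agent.P167.K8

/-- The squares of colour `b`. -/
def Fb (b : Bool) (ω : Cfg) : Set (ℤ × ℤ) := {v | ω v = b}

/-- The squares of `Qs` are finitely many. -/
noncomputable def QF (e m : ℤ) : Finset (ℤ × ℤ) := by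
  classical exact (Finset.Icc (-(m + 1)) m ×ˢ Finset.Icc (-(m + 1)) m).filter (fun s => s ∈ Qs e m)

theorem mem_QF {e m : ℤ} (s : ℤ × ℤ) : s ∈ QF e m ↔ s ∈ Qs e m := by
  classical
  unfold QF
  rw [Finset.mem_filter]
  constructor
  · exact fun h => h.2
  · intro h
    refine ⟨?_, h⟩
    obtain ⟨u, hu, -, h1, h2⟩ := h
    rw [mem_HN] at hu
    rw [Finset.mem_product, Finset.mem_Icc, Finset.mem_Icc]
    omega

section torus

variable {M L : ℕ} [NeZero M] [NeZero L]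

/-- The squares of the torus. -/
noncomputable def QT (e m : ℤ) (M L : ℕ) : Finset (ZMod M × ZMod L) := (QF e m).image (red M L)

theorem zmod_close {M : ℕ} {x y R m : ℤ} (h : (x : ZMod M) = (y : ZMod M)) (hx1 : -R ≤ x)
    (hx2 : x ≤ R) (hy1 : -(m + 1) ≤ y) (hy2 : y ≤ m) (hM : R + m + 2 ≤ M) : x = y := by
  have h1 := (ZMod.intCast_eq_intCast_iff_dvd_sub x y M).1 h
  obtain ⟨k, hk⟩ := h1
  have h2 : k = 0 := by
    by_contra hne
    rcases lt_or_gt_of_ne hne with hlt | hgt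
    · have : (M : ℤ) * k ≤ M * (-1) := mul_le_mul_of_nonneg_left (by omega) (by omega)
      omega
    · have : (M : ℤ) * 1 ≤ M * k := mul_le_mul_of_nonneg_left (by omega) (by omega)
      omega
  rw [h2] at hk
  omega

/-- Opening the box on the torus. -/
theorem tri_set {e m R : ℤ} (he0 : 0 ≤ e) (he1 : e ≤ 1) (hm : 1 ≤ m) (b : Bool)
    (hM : R + m + 2 ≤ M) (hL : R + m + 2 ≤ L) (ρ : ZMod M × ZMod L → Bool)
    (h : Com3 e m R (Fb b (unR ρ))) : Tri e m R (Fb b (unR (setF (QT e m M L) b ρ))) := by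
  refine com3_tri he0 he1 hm ?_ ?_ ?_ h
  · intro v hv
    show setF (QT e m M L) b ρ (red M L v) = b
    unfold setF
    split_ifs
    · rfl
    · exact hv
  · intro v hv
    show setF (QT e m M L) b ρ (red M L v) = b
    unfold setF
    rw [if_pos]
    exact Finset.mem_image_of_mem _ ((mem_QF v).2 hv)
  · intro s hs h1 h2 h3 h4
    have hs' : setF (QT e m M L) b ρ (red M L s) = b := hs
    unfold setF at hs'
    split_ifs at hs' with hq
    · right
      obtain ⟨t, ht, hts⟩ := Finset.mem_image.1 hq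
      have hb : -(m + 1) ≤ t.1 ∧ t.1 ≤ m ∧ -(m + 1) ≤ t.2 ∧ t.2 ≤ m := by
        classical
        unfold QF at ht
        rw [Finset.mem_filter, Finset.mem_product, Finset.mem_Icc, Finset.mem_Icc] at ht
        omega
      have e1 : s.1 = t.1 := zmod_close (congrArg Prod.fst hts).symm h1 h2 hb.1 hb.2.1 hM
      have e2 : s.2 = t.2 := zmod_close (congrArg Prod.snd hts).symm h3 h4 hb.2.2.1 hb.2.2.2 hL
      rw [show s = t from Prod.ext e1 e2]
      exact (mem_QF t).1 ht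
    · left; exact hs'

theorem shS_Fb (b : Bool) (ω : Cfg) (c : ℤ × ℤ) : shS c (Fb b ω) = Fb b (fun v => ω (v + c)) := rfl

open Classical in
/-- Abstract form of the Burton-Keane estimate. -/
theorem bk_abs {W : (ZMod M × ZMod L → Bool) → ℝ} (hW : ∀ ρ, 0 ≤ W ρ)
    (hflip : ∀ ρ v b, W ρ ≤ 4 * W (Function.update ρ v b))
    (hsh : ∀ (F : Cfg → ℝ) (x y : ℤ),
      ∑ ρ, W ρ * F (fun v => unR ρ (v.1 + 2 * x, v.2 + 2 * y)) = ∑ ρ, W ρ * F (unR ρ))
    {e m : ℤ} (he0 : 0 ≤ e) (he1 : e ≤ 1) (hm : 1 ≤ m) (K : ℕ) (b : Bool)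
    (hM : 2 * Nb m K + 1 + m + 2 ≤ M) (hL : 2 * Nb m K + 1 + m + 2 ≤ L) :
    (K : ℝ) ^ 2 * ∑ ρ, W ρ * (if Com3 e m (2 * Nb m K + 1) (Fb b (unR ρ)) then 1 else 0) ≤
      8 ^ (QF e m).card * (4 * (2 * Nb m K + 1)) * ∑ ρ, W ρ := by
  set R := 2 * Nb m K + 1 with hR
  set H : (ZMod M × ZMod L → Bool) → ℝ := fun ρ => if Tri e m R (Fb b (unR ρ)) then 1 else 0 with hH
  have hH0 : ∀ ρ, 0 ≤ H ρ := fun ρ => by rw [hH]; dsimp only; split_ifs <;> norm_num
  have s1 : ∑ ρ, W ρ * (if Com3 e m R (Fb b (unR ρ)) then 1 else 0) ≤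
      ∑ ρ, W ρ * H (setF (QT e m M L) b ρ) := by
    refine Finset.sum_le_sum fun ρ _ => mul_le_mul_of_nonneg_left ?_ (hW ρ)
    split_ifs with h
    · rw [hH]
      dsimp only
      rw [if_pos (tri_set he0 he1 hm b hM hL ρ h)]
    · exact hH0 _
  have s2 := set_le (by norm_num : (0 : ℝ) ≤ 4) hW b (fun ρ v => hflip ρ v b) (QT e m M L) hH0
  have s3 : (2 * 4 : ℝ) ^ (QT e m M L).card ≤ 8 ^ (QF e m).card := by
    norm_num
    exact pow_le_pow_right₀ (by norm_num) Finset.card_image_le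
  -- counting
  have s4 : (K : ℝ) ^ 2 * ∑ ρ, W ρ * H ρ ≤ 4 * (2 * Nb m K + 1) * ∑ ρ, W ρ := by
    have c1 : ∀ c ∈ Ce m K, ∑ ρ, W ρ * (if Tri e m R (shS c (Fb b (unR ρ))) then (1 : ℝ) else 0) =
        ∑ ρ, W ρ * H ρ := by
      intro c hc
      obtain ⟨i, j, -, -, -, -, rfl⟩ := mem_Ce hc
      have := hsh (fun ω => if Tri e m R (Fb b ω) then (1 : ℝ) else 0) ((m + 1) * i) ((m + 1) * j)
      rw [hH]
      dsimp only
      rw [← this]
      rfl
    have c2 : (K : ℝ) ^ 2 * ∑ ρ, W ρ * H ρ =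
        ∑ c ∈ Ce m K, ∑ ρ, W ρ * (if Tri e m R (shS c (Fb b (unR ρ))) then (1 : ℝ) else 0) := by
      rw [Finset.sum_congr rfl c1, Finset.sum_const, card_Ce hm, nsmul_eq_mul]
      push_cast
      ring
    rw [c2, Finset.sum_comm, Finset.mul_sum]
    refine Finset.sum_le_sum fun ρ _ => ?_
    rw [← Finset.mul_sum, mul_comm]
    refine mul_le_mul_of_nonneg_right ?_ (hW ρ)
    have c3 : ∑ c ∈ Ce m K, (if Tri e m R (shS c (Fb b (unR ρ))) then (1 : ℝ) else 0) =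
        (((Ce m K).filter (fun c => Tri e m R (shS c (Fb b (unR ρ))))).card : ℝ) := by
      rw [Finset.card_filter]
      push_cast
      rfl
    rw [c3]
    have c4 := tri_count he0 he1 hm K (Fb b (unR ρ))
      ((Ce m K).filter (fun c => Tri e m R (shS c (Fb b (unR ρ))))) (Finset.filter_subset _ _)
      (fun t ht => (Finset.mem_filter.1 ht).2)
    exact_mod_cast c4
  have hsum : 0 ≤ ∑ ρ, W ρ * H ρ := Finset.sum_nonneg fun ρ _ => mul_nonneg (hW ρ) (hH0 ρ)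
  calc (K : ℝ) ^ 2 * ∑ ρ, W ρ * (if Com3 e m R (Fb b (unR ρ)) then 1 else 0)
      ≤ (K : ℝ) ^ 2 * (8 ^ (QF e m).card * ∑ ρ, W ρ * H ρ) := by
        refine mul_le_mul_of_nonneg_left ?_ (by positivity)
        exact s1.trans (s2.trans (mul_le_mul_of_nonneg_right s3 hsum))
    _ = 8 ^ (QF e m).card * ((K : ℝ) ^ 2 * ∑ ρ, W ρ * H ρ) := by ring
    _ ≤ 8 ^ (QF e m).card * (4 * (2 * Nb m K + 1) * ∑ ρ, W ρ) :=
        mul_le_mul_of_nonneg_left s4 (by positivity)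
    _ = _ := by ring

end torus

end Vale.Agent.P167.H562.BK
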