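import Vale.Agent.P167.H562.BKc

/-!
# P167, general `q`: `K_bk`
-/

namespace Vale.Agent.P167.H562.BK

open Finset Relation
open Vale.Agent.P145.FB (PStep PConn)
open Vale.Agent.P167.A (red)
open Vale.Agent.P167.H685 (unR)

theorem even_par {x : ℤ × ℤ} (h : Even (x.1 + x.2)) : par x = 0 := Int.even_iff.1 h

theorem odd_par {x : ℤ × ℤ} (h : Odd (x.1 + x.2)) : par x = 1 := Int.odd_iff.1 h

theorem tri_com {m R : ℤ} (hR : m + 1 ≤ R) {ω : Cfg} (h : K8.Tri m R ω) :
    Com3 0 m R (Fb true ω) := by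
  obtain ⟨s, h1, h2⟩ := h
  have hs : ∀ i, s i ∈ An m R := fun i => ⟨by linarith [(h1 i).2.1], by linarith [(h1 i).2.1]⟩
  refine ⟨s, fun i => ⟨even_par (h1 i).1, (h1 i).2.1⟩, fun i => ?_, fun i j hij hc => ?_⟩
  · obtain ⟨t, ht, hc⟩ := (h1 i).2.2
    exact ⟨t, ht, (con_iff_pconn (hs i)).2 hc⟩
  · exact h2 i j hij ((con_iff_pconn (hs i)).1 hc)

theorem compl_op (ω : Cfg) : (op ω)ᶜ = Fb false ω := by
  ext v
  simp [op, Fb]

theorem triD_com {m R : ℤ} (hR : m + 1 ≤ R) {ω : Cfg} (h : K8.TriD m R ω) :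
    Com3 1 m R (Fb false ω) := by
  obtain ⟨s, h1, h2⟩ := h
  have hs : ∀ i, s i ∈ An m R := fun i => ⟨by linarith [(h1 i).2.1], by linarith [(h1 i).2.1]⟩
  refine ⟨s, fun i => ⟨odd_par (h1 i).1, (h1 i).2.1⟩, fun i => ?_, fun i j hij hc => ?_⟩
  · obtain ⟨t, ht, hc⟩ := (h1 i).2.2
    rw [compl_op] at hc
    exact ⟨t, ht, (con_iff_pconn (hs i)).2 hc⟩
  · have := h2 i j hij
    rw [compl_op] at this
    exact this ((con_iff_pconn (hs i)).1 hc)

open Classical in
theorem bk_one (hpos : K8.K_pos) (hflip : K8.K_flip) (hshift : K8.K_shift) {θ : ℝ} (h0 : 0 ≤ θ)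
    (h1 : θ ≤ Real.pi / 3) {e m : ℤ} (he0 : 0 ≤ e) (he1 : e ≤ 1) (hm : 1 ≤ m) (b : Bool)
    {R : ℤ} (hR : m + 3 ≤ R) {M L : ℕ} [NeZero M] [NeZero L] (hM : 4 * R ≤ M) (hL : 4 * R ≤ L) :
    ∑ ρ, K8.wT θ M L ρ * (if Com3 e m R (Fb b (unR ρ)) then (1 : ℝ) else 0) ≤
      8 ^ (QF e m).card * (4 * ((6 * m + 7) * (10 * m + 11))) / R * ∑ ρ, K8.wT θ M L ρ := by
  have hpi := Real.pi_pos
  have hW : ∀ ρ, 0 < K8.wT θ M L ρ := fun ρ => hpos θ h0 (by linarith) M L ρ
  have hZ : 0 < ∑ ρ, K8.wT θ M L ρ := Finset.sum_pos (fun ρ _ => hW ρ) ⟨fun _ => true, mem_univ _⟩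
  have hm' : (1 : ℝ) ≤ m := by exact_mod_cast hm
  have hR0 : (0 : ℝ) < R := by
    have : (0 : ℤ) < R := by omega
    exact_mod_cast this
  have h8 : (1 : ℝ) ≤ 8 ^ (QF e m).card := one_le_pow₀ (by norm_num)
  by_cases hcase : R < 6 * m + 7
  · -- trivial bound
    have c1 : (1 : ℝ) ≤ 8 ^ (QF e m).card * (4 * ((6 * m + 7) * (10 * m + 11))) / R := by
      rw [le_div_iff₀ hR0, one_mul]
      have : (R : ℝ) ≤ 6 * m + 7 := by exact_mod_cast hcase.le
      calc (R : ℝ) ≤ 6 * m + 7 := this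
        _ ≤ 4 * ((6 * m + 7) * (10 * m + 11)) := by nlinarith
        _ = 1 * (4 * ((6 * m + 7) * (10 * m + 11))) := by ring
        _ ≤ 8 ^ (QF e m).card * (4 * ((6 * m + 7) * (10 * m + 11))) := by
            apply mul_le_mul_of_nonneg_right h8
            nlinarith
    calc ∑ ρ, K8.wT θ M L ρ * (if Com3 e m R (Fb b (unR ρ)) then (1 : ℝ) else 0)
        ≤ ∑ ρ, K8.wT θ M L ρ := by
          refine Finset.sum_le_sum fun ρ _ => ?_
          split_ifs
          · rw [mul_one]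
          · rw [mul_zero]; exact (hW ρ).le
      _ = 1 * ∑ ρ, K8.wT θ M L ρ := (one_mul _).symm
      _ ≤ _ := mul_le_mul_of_nonneg_right c1 hZ.le
  · push Not at hcase
    set k : ℤ := (R - 2 * m - 3) / (4 * (m + 1)) with hk
    have hk1 : 4 * (m + 1) * k ≤ R - 2 * m - 3 := by
      rw [hk]; exact Int.mul_ediv_self_le (by omega)
    have hk2 : R - 2 * m - 3 < 4 * (m + 1) * (k + 1) := by
      have h := Int.lt_mul_ediv_self_add (x := R - 2 * m - 3) (show 0 < 4 * (m + 1) by omega)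
      rw [← hk] at h
      calc R - 2 * m - 3 < 4 * (m + 1) * k + 4 * (m + 1) := h
        _ = 4 * (m + 1) * (k + 1) := by ring
    have hkpos : 1 ≤ k := by
      by_contra hcon
      push Not at hcon
      have : 4 * (m + 1) * (k + 1) ≤ 4 * (m + 1) * 1 :=
        mul_le_mul_of_nonneg_left (by omega) (by omega)
      omega
    obtain ⟨K, hK⟩ : ∃ K : ℕ, (K : ℤ) = k := ⟨k.toNat, Int.toNat_of_nonneg (by omega)⟩
    have hNb : 2 * Nb m K + 1 = 4 * (m + 1) * k + 2 * m + 3 := by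
      unfold Nb
      rw [hK]; ring
    have hRK : 2 * Nb m K + 1 ≤ R := by rw [hNb]; omega
    have hbk := bk_abs (M := M) (L := L) (W := K8.wT θ M L) (fun ρ => (hW ρ).le)
      (by
        intro ρ v c
        have := hflip θ h0 h1 M L (Function.update ρ v c) v (ρ v)
        rwa [Function.update_idem, Function.update_eq_self] at this)
      (by
        intro F x y
        have := hshift θ M L F x y
        unfold K8.ET at this
        rw [div_left_inj' hZ.ne'] at this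
        exact this)
      he0 he1 hm K b (by omega) (by omega)
    have hmono : ∑ ρ, K8.wT θ M L ρ * (if Com3 e m R (Fb b (unR ρ)) then (1 : ℝ) else 0) ≤
        ∑ ρ, K8.wT θ M L ρ * (if Com3 e m (2 * Nb m K + 1) (Fb b (unR ρ)) then (1 : ℝ) else 0) := by
      refine Finset.sum_le_sum fun ρ _ => mul_le_mul_of_nonneg_left ?_ (hW ρ).le
      split_ifs with g1 g2
      · exact le_rfl
      · exact absurd (com3_mono (by rw [hNb]; nlinarith) hRK g1) g2
      · exact zero_le_one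
      · exact le_rfl
    have hKR : (K : ℝ) = (k : ℝ) := by exact_mod_cast congrArg (fun z : ℤ => (z : ℝ)) hK
    have hk0 : (1 : ℝ) ≤ (K : ℝ) := by rw [hKR]; exact_mod_cast hkpos
    have hNbR : (2 * (Nb m K : ℝ) + 1) = 4 * (m + 1) * k + 2 * m + 3 := by exact_mod_cast hNb
    have hR2 : (R : ℝ) ≤ (10 * m + 11) * K := by
      have : (R : ℝ) ≤ 4 * (m + 1) * (k + 1) + 2 * m + 3 := by
        have : R ≤ 4 * (m + 1) * (k + 1) + 2 * m + 3 := by omega
        exact_mod_cast this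
      rw [← hKR] at this
      nlinarith
    set S : ℝ := ∑ ρ, K8.wT θ M L ρ *
      (if Com3 e m (2 * Nb m K + 1) (Fb b (unR ρ)) then (1 : ℝ) else 0) with hS
    set Z : ℝ := ∑ ρ, K8.wT θ M L ρ with hZdef
    have e1 : (K : ℝ) ^ 2 * S ≤ 8 ^ (QF e m).card * (4 * ((6 * m + 7) * K)) * Z := by
      refine hbk.trans ?_
      refine mul_le_mul_of_nonneg_right (mul_le_mul_of_nonneg_left ?_ (by positivity)) hZ.le
      rw [hNbR, ← hKR]
      nlinarith
    have e2 : (K : ℝ) * S ≤ 8 ^ (QF e m).card * (4 * (6 * m + 7)) * Z := by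
      have hKp : (0 : ℝ) < K := by linarith
      have : (K : ℝ) * ((K : ℝ) * S) ≤ K * (8 ^ (QF e m).card * (4 * (6 * m + 7)) * Z) := by
        calc (K : ℝ) * ((K : ℝ) * S) = (K : ℝ) ^ 2 * S := by ring
          _ ≤ 8 ^ (QF e m).card * (4 * ((6 * m + 7) * K)) * Z := e1
          _ = _ := by ring
      exact le_of_mul_le_mul_left this hKp
    refine hmono.trans ?_
    rw [div_mul_eq_mul_div, le_div_iff₀ hR0]
    have hSnn : 0 ≤ S := Finset.sum_nonneg fun ρ _ => mul_nonneg (hW ρ).le (by split_ifs <;> norm_num)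
    calc S * R ≤ S * ((10 * m + 11) * K) := mul_le_mul_of_nonneg_left hR2 hSnn
      _ = (10 * m + 11) * (K * S) := by ring
      _ ≤ (10 * m + 11) * (8 ^ (QF e m).card * (4 * (6 * m + 7)) * Z) :=
          mul_le_mul_of_nonneg_left e2 (by positivity)
      _ = _ := by ring

/-- **K.9**: Burton-Keane on the torus. -/
theorem k_bk (hpos : K8.K_pos) (hflip : K8.K_flip) (hshift : K8.K_shift) : K8.K_bk := by
  classical
  intro θ h0 h1 m hm
  set c : ℤ → ℝ := fun e => 8 ^ (QF e m).card * (4 * ((6 * (m : ℝ) + 7) * (10 * m + 11))) with hc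
  refine ⟨c 0 + c 1, fun R hR M L _ _ _ _ hM hL => ?_⟩
  have hpi := Real.pi_pos
  have hW : ∀ ρ, 0 < K8.wT θ M L ρ := fun ρ => hpos θ h0 (by linarith) M L ρ
  have hZ : 0 < ∑ ρ, K8.wT θ M L ρ := Finset.sum_pos (fun ρ _ => hW ρ) ⟨fun _ => true, mem_univ _⟩
  unfold K8.ET
  rw [div_le_iff₀ hZ]
  have p1 := bk_one hpos hflip hshift h0 h1 (e := 0) le_rfl (by norm_num) hm true hR hM hL
  have p2 := bk_one hpos hflip hshift h0 h1 (e := 1) (by norm_num) le_rfl hm false hR hM hL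
  calc ∑ ρ, K8.wT θ M L ρ * ({ω | K8.Tri m R ω ∨ K8.TriD m R ω}.indicator 1) (unR ρ)
      ≤ ∑ ρ, (K8.wT θ M L ρ * (if Com3 0 m R (Fb true (unR ρ)) then (1 : ℝ) else 0) +
          K8.wT θ M L ρ * (if Com3 1 m R (Fb false (unR ρ)) then (1 : ℝ) else 0)) := by
        refine Finset.sum_le_sum fun ρ _ => ?_
        rw [← mul_add]
        refine mul_le_mul_of_nonneg_left ?_ (hW ρ).le
        by_cases h : K8.Tri m R (unR ρ) ∨ K8.TriD m R (unR ρ)
        · rw [Set.indicator_of_mem (by exact h)]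
          rcases h with h | h
          · rw [if_pos (tri_com (by omega) h)]
            simp only [Pi.one_apply]
            split_ifs <;> norm_num
          · rw [if_pos (triD_com (by omega) h)]
            simp only [Pi.one_apply]
            split_ifs <;> norm_num
        · rw [Set.indicator_of_notMem (by exact h)]
          split_ifs <;> norm_num
    _ ≤ c 0 / R * (∑ ρ, K8.wT θ M L ρ) + c 1 / R * ∑ ρ, K8.wT θ M L ρ := by
        rw [Finset.sum_add_distrib]
        exact add_le_add p1 p2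
    _ = (c 0 + c 1) / R * ∑ ρ, K8.wT θ M L ρ := by ring

end Vale.Agent.P167.H562.BK
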