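import Vale.Agent.P167.H562.FLim

/-!
# P167: extraction of the exponents along a filter
-/

open Filter Topology Real Finset

namespace Vale.Agent.P167.H562

variable {α : Type*}

lemma exists_lim (G : Ultrafilter α) {f : α → ℝ} {C : ℝ}
    (h : ∀ᶠ n in (G : Filter α), |f n| ≤ C) : ∃ x, Tendsto f G (𝓝 x) := by
  have h1 : ((G.map f : Ultrafilter ℝ) : Filter ℝ) ≤ 𝓟 (Set.Icc (-C) C) := by
    rw [le_principal_iff, Ultrafilter.coe_map, Filter.mem_map]
    filter_upwards [h] with n hn
    exact abs_le.1 hn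
  obtain ⟨x, _, hx⟩ := (isCompact_Icc (a := -C) (b := C)).ultrafilter_le_nhds _ h1
  exact ⟨x, hx⟩

lemma convexOn_lim {G : Filter α} [G.NeBot] {L : α → ℝ} (hL : ∀ᶠ n in G, 0 < L n)
    {Λ : α → ℝ → ℝ} (hc : ∀ᶠ n in G, ConvexOn ℝ Set.univ (Λ n)) {g : ℝ → ℝ}
    (hg : ∀ u, Tendsto (fun n => Λ n u / L n) G (𝓝 (g u))) : ConvexOn ℝ Set.univ g := by
  refine ⟨convex_univ, fun x _ y _ a b ha hb hab => ?_⟩
  have h1 := hg (a • x + b • y)
  have h2 : Tendsto (fun n => a • (Λ n x / L n) + b • (Λ n y / L n)) G (𝓝 (a • g x + b • g y)) :=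
    ((hg x).const_smul a).add ((hg y).const_smul b)
  refine le_of_tendsto_of_tendsto h1 h2 ?_
  filter_upwards [hc, hL] with n hn hLn
  have := hn.2 (Set.mem_univ x) (Set.mem_univ y) ha hb hab
  simp only [smul_eq_mul] at this ⊢
  rw [div_le_iff₀ hLn]
  calc Λ n (a * x + b * y) ≤ _ := this
    _ = _ := by field_simp

/-- Main extraction lemma along an ultrafilter, then along any filter. -/
theorem fabs {F : Filter α} {L : α → ℝ} (hL : Tendsto L F atTop)
    {μ A : ℝ} (hμ0 : 0 < μ) (hμ1 : μ < π / 2) {m : ℕ} (hm : 0 < m)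
    {Λ : ℕ → α → ℝ → ℝ} {Z : α → ℝ} {D : ℕ → α → ℝ} {c : ℝ} (hc : 0 < c)
    (hconv : ∀ k < m, ∀ᶠ n in F, ConvexOn ℝ Set.univ (Λ k n))
    (hzero : ∀ k < m, ∀ᶠ n in F, Λ k n 0 = 0)
    (hmono : ∀ k < m, ∀ᶠ n in F, Monotone (Λ k n))
    (hZ : ∀ u, ∀ᶠ n in F, Z n ≤ Λ 0 n u)
    (hN : ∀ k < m, ∀ u, ∃ C, ∀ᶠ n in F, Λ k n u ≤ C * L n)
    (hU : ∀ k < m, ∀ b p, -(2 * μ) ≤ b → b < π / 2 - μ → 1 < p → p ≤ 2 → ∃ C, ∀ᶠ n in F,
      -(A * b ^ 2 * L n) - C ≤ b * D k n + Λ k n (p * log (wt μ b)) / p)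
    (hU0 : ∀ p, 1 < p → p ≤ 2 → ∃ C, ∀ᶠ n in F,
      -(A * (π / 2 - μ) ^ 2 * L n) - C ≤ (π / 2 - μ) * D 0 n + Z n / p)
    (hL1 : ∀ b p, 0 < b → b < π / 2 - μ → 1 < p → p ≤ 2 → ∃ C, ∀ᶠ n in F,
      b * D 0 n + p * Λ 0 n (log (wt μ b) / p) ≤ -(A * b ^ 2 * L n) + C)
    (hL2 : ∀ b p, -μ < b → b < 0 → 1 < p → p ≤ 2 → ∃ C, ∀ᶠ n in F,
      ∑ k ∈ range m, (bt b m k * D k n + p * Λ k n (log (wt μ (bt b m k)) / p)) ≤
          -((A * ∑ k ∈ range m, (bt b m k) ^ 2) * L n) + C ∨
      ∃ i < m, ∑ k ∈ range m, (bt b m k * D k n + p * Λ k n (log (wt μ (bt b m k)) / p)) ≤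
        ∑ k ∈ range m, bt b m k * D k n - c * L n + C +
          ∑ j ∈ (range m).erase i, Λ j n (p * log (wt μ (bt b m j))) / p) :
    Tendsto (fun n => D 0 n / L n) F (𝓝 (2 * μ * A)) ∧
    (∀ b, -μ < b → b < π / 2 - μ →
      Tendsto (fun n => Λ 0 n (log (wt μ b)) / L n) F (𝓝 (-(A * (b ^ 2 + 2 * μ * b))))) ∧
    Tendsto (fun n => Z n / L n) F (𝓝 (-(A * (π ^ 2 / 4 - μ ^ 2)))) := by
  -- reduction to ultrafilters
  suffices H : ∀ G : Ultrafilter α, (G : Filter α) ≤ F →
      Tendsto (fun n => D 0 n / L n) G (𝓝 (2 * μ * A)) ∧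
      (∀ b, -μ < b → b < π / 2 - μ →
        Tendsto (fun n => Λ 0 n (log (wt μ b)) / L n) G (𝓝 (-(A * (b ^ 2 + 2 * μ * b))))) ∧
      Tendsto (fun n => Z n / L n) G (𝓝 (-(A * (π ^ 2 / 4 - μ ^ 2)))) by
    refine ⟨?_, ?_, ?_⟩
    · rw [tendsto_iff_ultrafilter]; intro G hG; exact (H G hG).1
    · intro b hb hb'; rw [tendsto_iff_ultrafilter]; intro G hG; exact (H G hG).2.1 b hb hb'
    · rw [tendsto_iff_ultrafilter]; intro G hG; exact (H G hG).2.2
  intro G hG
  have hLG : Tendsto L G atTop := hL.mono_left hG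
  have hLpos : ∀ᶠ n in (G : Filter α), 0 < L n := hLG.eventually_gt_atTop 0
  have hinv : ∀ C : ℝ, Tendsto (fun n => C / L n) G (𝓝 0) := fun C => hLG.const_div_atTop C
  have hself : Tendsto (fun n => L n / L n) G (𝓝 1) := by
    refine tendsto_const_nhds.congr' ?_
    filter_upwards [hLpos] with n hn
    exact (div_self hn.ne').symm
  -- limits
  have exΛ : ∀ k < m, ∀ u, ∃ x, Tendsto (fun n => Λ k n u / L n) G (𝓝 x) := by
    intro k hk u
    obtain ⟨C1, h1⟩ := hN k hk u
    obtain ⟨C2, h2⟩ := hN k hk (-u)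
    refine exists_lim G (C := max |C1| |C2|) ?_
    filter_upwards [hLpos, hG h1, hG h2, hG (hconv k hk), hG (hzero k hk)] with n hn h1 h2 h3 h4
    have h5 : 0 ≤ Λ k n u + Λ k n (-u) := by
      have := h3.2 (Set.mem_univ u) (Set.mem_univ (-u)) (by norm_num : (0 : ℝ) ≤ 1 / 2)
        (by norm_num : (0 : ℝ) ≤ 1 / 2) (by norm_num)
      simp only [smul_eq_mul] at this
      rw [show (1 : ℝ) / 2 * u + 1 / 2 * -u = 0 by ring, h4] at this
      linarith
    rw [abs_le]
    constructor
    · rw [le_div_iff₀ hn]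
      have : |C2| * L n ≤ max |C1| |C2| * L n :=
        mul_le_mul_of_nonneg_right (le_max_right _ _) hn.le
      have h4 : C2 * L n ≤ |C2| * L n := mul_le_mul_of_nonneg_right (le_abs_self _) hn.le
      linarith
    · rw [div_le_iff₀ hn]
      have : |C1| * L n ≤ max |C1| |C2| * L n :=
        mul_le_mul_of_nonneg_right (le_max_left _ _) hn.le
      have h4 : C1 * L n ≤ |C1| * L n := mul_le_mul_of_nonneg_right (le_abs_self _) hn.le
      linarith
  -- `D` is bounded
  have exD : ∀ k < m, ∃ x, Tendsto (fun n => D k n / L n) G (𝓝 x) := by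
    intro k hk
    have hpi := Real.pi_pos
    -- lower bound from `b > 0`, upper bound from `b < 0`
    obtain ⟨b, hb1, hb2⟩ : ∃ b : ℝ, 0 < b ∧ b < π / 2 - μ := ⟨(π / 2 - μ) / 2, by linarith, by linarith⟩
    obtain ⟨C1, h1⟩ := hU k hk b 2 (by linarith) hb2 (by norm_num) le_rfl
    obtain ⟨C2, h2⟩ := hU k hk (-(2 * μ)) 2 le_rfl (by linarith) (by norm_num) le_rfl
    obtain ⟨x1, hx1⟩ := exΛ k hk (2 * log (wt μ b))
    obtain ⟨x2, hx2⟩ := exΛ k hk (2 * log (wt μ (-(2 * μ))))
    refine exists_lim G (C := max ((|A| * b ^ 2 + 1 + (|x1| + 1)) / b)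
      ((|A| * (2 * μ) ^ 2 + 1 + (|x2| + 1)) / (2 * μ))) ?_
    have e1 := hx1.eventually (gt_mem_nhds (show x1 < |x1| + 1 by linarith [le_abs_self x1]))
    have e2 := hx2.eventually (gt_mem_nhds (show x2 < |x2| + 1 by linarith [le_abs_self x2]))
    have e3 := (hinv C1).eventually (gt_mem_nhds (show (0 : ℝ) < 1 by norm_num))
    have e4 := (hinv C2).eventually (gt_mem_nhds (show (0 : ℝ) < 1 by norm_num))
    filter_upwards [hLpos, hG h1, hG h2, e1, e2, e3, e4] with n hn h1 h2 e1 e2 e3 e4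
    have d1 : -(A * b ^ 2) - C1 / L n ≤ b * (D k n / L n) + (Λ k n (2 * log (wt μ b)) / L n) / 2 := by
      have := div_le_div_of_nonneg_right h1 hn.le
      have e : (-(A * b ^ 2 * L n) - C1) / L n = -(A * b ^ 2) - C1 / L n := by field_simp
      have e' : (b * D k n + Λ k n (2 * log (wt μ b)) / 2) / L n =
          b * (D k n / L n) + (Λ k n (2 * log (wt μ b)) / L n) / 2 := by field_simp
      rw [e, e'] at this; exact this
    have d2 : -(A * (-(2 * μ)) ^ 2) - C2 / L n ≤
        -(2 * μ) * (D k n / L n) + (Λ k n (2 * log (wt μ (-(2 * μ)))) / L n) / 2 := by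
      have := div_le_div_of_nonneg_right h2 hn.le
      have e : (-(A * (-(2 * μ)) ^ 2 * L n) - C2) / L n = -(A * (-(2 * μ)) ^ 2) - C2 / L n := by
        field_simp
      have e' : (-(2 * μ) * D k n + Λ k n (2 * log (wt μ (-(2 * μ)))) / 2) / L n =
          -(2 * μ) * (D k n / L n) + (Λ k n (2 * log (wt μ (-(2 * μ)))) / L n) / 2 := by field_simp
      rw [e, e'] at this; exact this
    have hA1 : A * b ^ 2 ≤ |A| * b ^ 2 := mul_le_mul_of_nonneg_right (le_abs_self A) (sq_nonneg b)
    have hA2 : A * (-(2 * μ)) ^ 2 ≤ |A| * (2 * μ) ^ 2 := by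
      have := mul_le_mul_of_nonneg_right (le_abs_self A) (sq_nonneg (2 * μ))
      linarith [this, show (-(2 * μ)) ^ 2 = (2 * μ) ^ 2 by ring, show A * (-(2 * μ)) ^ 2 = A * (2 * μ) ^ 2 by ring]
    have hx1' := abs_nonneg x1
    have hx2' := abs_nonneg x2
    rw [abs_le]
    constructor
    · have h5 : -(D k n / L n) ≤ (|A| * b ^ 2 + 1 + (|x1| + 1)) / b := by
        rw [le_div_iff₀ hb1]
        nlinarith
      have := le_max_left ((|A| * b ^ 2 + 1 + (|x1| + 1)) / b)
        ((|A| * (2 * μ) ^ 2 + 1 + (|x2| + 1)) / (2 * μ))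
      linarith
    · have h5 : D k n / L n ≤ (|A| * (2 * μ) ^ 2 + 1 + (|x2| + 1)) / (2 * μ) := by
        rw [le_div_iff₀ (by linarith)]
        nlinarith
      exact le_trans h5 (le_max_right _ _)
  have exZ : ∃ x, Tendsto (fun n => Z n / L n) G (𝓝 x) := by
    obtain ⟨x0, hx0⟩ := exΛ 0 hm 0
    obtain ⟨y, hy⟩ := exD 0 hm
    obtain ⟨C, h1⟩ := hU0 2 (by norm_num) le_rfl
    have hpi : 0 < π / 2 - μ := by linarith
    refine exists_lim G (C := max (|x0| + 1)
      (2 * (|A| * (π / 2 - μ) ^ 2 + 1 + (π / 2 - μ) * (|y| + 1)))) ?_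
    have e1 := hx0.eventually (gt_mem_nhds (show x0 < |x0| + 1 by linarith [le_abs_self x0]))
    have e2 := hy.eventually (gt_mem_nhds (show y < |y| + 1 by linarith [le_abs_self y]))
    have e3 := (hinv C).eventually (gt_mem_nhds (show (0 : ℝ) < 1 by norm_num))
    filter_upwards [hLpos, hG h1, hG (hZ 0), e1, e2, e3] with n hn h1 h2 e1 e2 e3
    have d1 : -(A * (π / 2 - μ) ^ 2) - C / L n ≤
        (π / 2 - μ) * (D 0 n / L n) + (Z n / L n) / 2 := by
      have := div_le_div_of_nonneg_right h1 hn.le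
      have e : (-(A * (π / 2 - μ) ^ 2 * L n) - C) / L n = -(A * (π / 2 - μ) ^ 2) - C / L n := by
        field_simp
      have e' : ((π / 2 - μ) * D 0 n + Z n / 2) / L n =
          (π / 2 - μ) * (D 0 n / L n) + (Z n / L n) / 2 := by field_simp
      rw [e, e'] at this; exact this
    have d2 : Z n / L n ≤ Λ 0 n 0 / L n := div_le_div_of_nonneg_right h2 hn.le
    have hA1 : A * (π / 2 - μ) ^ 2 ≤ |A| * (π / 2 - μ) ^ 2 :=
      mul_le_mul_of_nonneg_right (le_abs_self A) (sq_nonneg _)
    have d3 : (π / 2 - μ) * (D 0 n / L n) ≤ (π / 2 - μ) * (|y| + 1) :=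
      mul_le_mul_of_nonneg_left e2.le hpi.le
    rw [abs_le]
    constructor
    · have := le_max_right (|x0| + 1)
        (2 * (|A| * (π / 2 - μ) ^ 2 + 1 + (π / 2 - μ) * (|y| + 1)))
      linarith
    · have := le_max_left (|x0| + 1)
        (2 * (|A| * (π / 2 - μ) ^ 2 + 1 + (π / 2 - μ) * (|y| + 1)))
      linarith
  choose! g hg using exΛ
  obtain ⟨z, hz⟩ := exZ
  choose! d hd using exD
  have key := lim_core (A := A) hμ0 hμ1 hm (g := g) (z := z) (d := d) (c := c) hc
    (fun k hk => convexOn_lim hLpos (hG (hconv k hk)) (hg k hk))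
    (fun k hk => by
      refine tendsto_nhds_unique (hg k hk 0) ?_
      refine tendsto_const_nhds.congr' ?_
      filter_upwards [hG (hzero k hk)] with n hn
      rw [hn, zero_div])
    (fun k hk => fun x y hxy => by
      refine le_of_tendsto_of_tendsto (hg k hk x) (hg k hk y) ?_
      filter_upwards [hG (hmono k hk), hLpos] with n hn hl
      exact div_le_div_of_nonneg_right (hn hxy) hl.le)
    (fun u => by
      refine le_of_tendsto_of_tendsto hz (hg 0 hm u) ?_
      filter_upwards [hG (hZ u), hLpos] with n hn hl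
      exact div_le_div_of_nonneg_right hn hl.le)
    (fun k hk b p hb1 hb2 hp1 hp2 => by
      obtain ⟨C, hC⟩ := hU k hk b p hb1 hb2 hp1 hp2
      have h1 : Tendsto (fun n => -(A * b ^ 2) - C / L n) G (𝓝 (-(A * b ^ 2) - 0)) :=
        (hinv C).const_sub _
      rw [sub_zero] at h1
      refine le_of_tendsto_of_tendsto h1
        (((hd k hk).const_mul b).add ((hg k hk (p * log (wt μ b))).div_const p)) ?_
      filter_upwards [hG hC, hLpos] with n hn hl
      have := div_le_div_of_nonneg_right hn hl.le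
      have e : (-(A * b ^ 2 * L n) - C) / L n = -(A * b ^ 2) - C / L n := by field_simp
      have e' : (b * D k n + Λ k n (p * log (wt μ b)) / p) / L n =
          b * (D k n / L n) + Λ k n (p * log (wt μ b)) / L n / p := by field_simp
      rw [e, e'] at this; exact this)
    (fun p hp1 hp2 => by
      obtain ⟨C, hC⟩ := hU0 p hp1 hp2
      have h1 : Tendsto (fun n => -(A * (π / 2 - μ) ^ 2) - C / L n) G
          (𝓝 (-(A * (π / 2 - μ) ^ 2) - 0)) := (hinv C).const_sub _
      rw [sub_zero] at h1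
      refine le_of_tendsto_of_tendsto h1
        (((hd 0 hm).const_mul (π / 2 - μ)).add (hz.div_const p)) ?_
      filter_upwards [hG hC, hLpos] with n hn hl
      have := div_le_div_of_nonneg_right hn hl.le
      have e : (-(A * (π / 2 - μ) ^ 2 * L n) - C) / L n = -(A * (π / 2 - μ) ^ 2) - C / L n := by
        field_simp
      have e' : ((π / 2 - μ) * D 0 n + Z n / p) / L n =
          (π / 2 - μ) * (D 0 n / L n) + Z n / L n / p := by field_simp
      rw [e, e'] at this; exact this)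
    (fun b p hb1 hb2 hp1 hp2 => by
      obtain ⟨C, hC⟩ := hL1 b p hb1 hb2 hp1 hp2
      have h1 : Tendsto (fun n => -(A * b ^ 2) + C / L n) G (𝓝 (-(A * b ^ 2) + 0)) :=
        (hinv C).const_add _
      rw [add_zero] at h1
      refine le_of_tendsto_of_tendsto
        (((hd 0 hm).const_mul b).add ((hg 0 hm (log (wt μ b) / p)).const_mul p)) h1 ?_
      filter_upwards [hG hC, hLpos] with n hn hl
      have := div_le_div_of_nonneg_right hn hl.le
      have e : (-(A * b ^ 2 * L n) + C) / L n = -(A * b ^ 2) + C / L n := by field_simp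
      have e' : (b * D 0 n + p * Λ 0 n (log (wt μ b) / p)) / L n =
          b * (D 0 n / L n) + p * (Λ 0 n (log (wt μ b) / p) / L n) := by field_simp
      rw [e, e'] at this; exact this)
    (fun b p hb1 hb2 hp1 hp2 => by
      obtain ⟨C, hC⟩ := hL2 b p hb1 hb2 hp1 hp2
      have hT : Tendsto (fun n => (∑ k ∈ range m,
          (bt b m k * D k n + p * Λ k n (log (wt μ (bt b m k)) / p))) / L n) G
          (𝓝 (∑ k ∈ range m, (bt b m k * d k + p * g k (log (wt μ (bt b m k)) / p)))) := by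
        have : (fun n => (∑ k ∈ range m,
          (bt b m k * D k n + p * Λ k n (log (wt μ (bt b m k)) / p))) / L n) =
          fun n => ∑ k ∈ range m,
          (bt b m k * (D k n / L n) + p * (Λ k n (log (wt μ (bt b m k)) / p) / L n)) := by
          ext n
          rw [Finset.sum_div]
          exact Finset.sum_congr rfl fun k _ => by rw [add_div, mul_div_assoc, mul_div_assoc]
        rw [this]
        exact tendsto_finsetSum _ fun k hk =>
          ((hd k (mem_range.1 hk)).const_mul _).add ((hg k (mem_range.1 hk) _).const_mul p)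
      rcases Ultrafilter.eventually_or.1 (hG hC) with h | h
      · left
        have h1 : Tendsto (fun n => -(A * ∑ k ∈ range m, (bt b m k) ^ 2) + C / L n) G
            (𝓝 (-(A * ∑ k ∈ range m, (bt b m k) ^ 2) + 0)) := (hinv C).const_add _
        rw [add_zero] at h1
        refine le_of_tendsto_of_tendsto hT h1 ?_
        filter_upwards [h, hLpos] with n hn hl
        have := div_le_div_of_nonneg_right hn hl.le
        have e : (-((A * ∑ k ∈ range m, (bt b m k) ^ 2) * L n) + C) / L n =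
            -(A * ∑ k ∈ range m, (bt b m k) ^ 2) + C / L n := by field_simp
        rw [e] at this; exact this
      · right
        have h' : ∀ᶠ n in (G : Filter α), ∃ i ∈ {i : ℕ | i < m},
            ∑ k ∈ range m, (bt b m k * D k n + p * Λ k n (log (wt μ (bt b m k)) / p)) ≤
            ∑ k ∈ range m, bt b m k * D k n - c * L n + C +
              ∑ j ∈ (range m).erase i, Λ j n (p * log (wt μ (bt b m j))) / p := h
        rw [Ultrafilter.eventually_exists_mem_iff (Set.finite_lt_nat m)] at h'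
        obtain ⟨i, hi, hi'⟩ := h'
        refine ⟨i, hi, ?_⟩
        have h1 : Tendsto (fun n => (∑ k ∈ range m, bt b m k * D k n - c * L n + C +
              ∑ j ∈ (range m).erase i, Λ j n (p * log (wt μ (bt b m j))) / p) / L n) G
            (𝓝 (∑ k ∈ range m, bt b m k * d k - c * 1 + 0 +
              ∑ j ∈ (range m).erase i, g j (p * log (wt μ (bt b m j))) / p)) := by
          have e : (fun n => (∑ k ∈ range m, bt b m k * D k n - c * L n + C +
              ∑ j ∈ (range m).erase i, Λ j n (p * log (wt μ (bt b m j))) / p) / L n) =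
            fun n => (∑ k ∈ range m, bt b m k * (D k n / L n) - c * (L n / L n) + C / L n +
              ∑ j ∈ (range m).erase i, (Λ j n (p * log (wt μ (bt b m j))) / L n) / p) := by
            ext n
            rw [add_div, add_div, sub_div, Finset.sum_div, Finset.sum_div, mul_div_assoc]
            congr 1
            · congr 2
              exact Finset.sum_congr rfl fun k _ => by rw [mul_div_assoc]
            · exact Finset.sum_congr rfl fun k _ => by rw [div_right_comm]
          rw [e]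
          refine ((Tendsto.sub ?_ (hself.const_mul c)).add (hinv C)).add ?_
          · exact tendsto_finsetSum _ fun k hk => (hd k (mem_range.1 hk)).const_mul _
          · exact tendsto_finsetSum _ fun k hk =>
              (hg k (mem_range.1 (mem_of_mem_erase hk)) _).div_const p
        have h2 := le_of_tendsto_of_tendsto hT h1 (by
          filter_upwards [hi', hLpos] with n hn hl
          exact div_le_div_of_nonneg_right hn hl.le)
        simpa using h2)
  obtain ⟨k1, k2, k3⟩ := key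
  refine ⟨?_, ?_, ?_⟩
  · rw [← k1]; exact hd 0 hm
  · intro b hb hb'
    rw [← k2 b hb hb']; exact hg 0 hm _
  · rw [← k3]; exact hz

end Vale.Agent.P167.H562
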