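import Vale.Agent.P167.Iface
import Vale.Agent.P167.H562.FHold

/-!
# P167, block F: moment estimates from the interface statements
-/

open MeasureTheory ProbabilityTheory Real Finset
open scoped ENNReal

namespace Vale.Agent.P167.H562

/-- Near part of the product, charge `j`. -/
noncomputable def Yv (κ : ℝ) (ρ b : Fin 3 → ℝ) (mm : Fin 3 → ℤ × ℤ → ℝ) (j : Fin 3) (ω : Cfg) : ℝ :=
  Yn (ρ j - 2) (2 * ρ j + 2) (κ * ρ j) (fun x => b j * mm j x) ω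

/-- Number of large loops near the charge `j`. -/
noncomputable def Kv (κ : ℝ) (ρ : Fin 3 → ℝ) (j : Fin 3) (ω : Cfg) : ℕ :=
  Kn (ρ j - 2) (2 * ρ j + 2) (κ * ρ j) ω

/-- Mean mass. -/
noncomputable def nv (κ : ℝ) (ρ : Fin 3 → ℝ) (mm : Fin 3 → ℤ × ℤ → ℝ) (j : Fin 3) : ℝ :=
  nb (ρ j - 2) (2 * ρ j + 2) (κ * ρ j) (mm j)

/-- Logarithm of the near part. -/
noncomputable def vv (κ τ : ℝ) (ρ b : Fin 3 → ℝ) (mm : Fin 3 → ℤ × ℤ → ℝ) (ω : Cfg) : ℝ :=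
  ∑ j, (log (Yv κ ρ b mm j ω) + τ * Kv κ ρ j ω)

/-- Linear term. -/
noncomputable def Sv (κ : ℝ) (ρ b : Fin 3 → ℝ) (mm : Fin 3 → ℤ × ℤ → ℝ) : ℝ :=
  -√3 * ∑ j, b j * nv κ ρ mm j

/-- The content of `S_small` for fixed `Cm`, `T`, `κ`. -/
def SmallAt (Cm T κ : ℝ) : Prop := ∀ s : ℝ,
  ∃ C ρ0 : ℝ, 0 < C ∧ ∀ ρ : ℝ, ρ0 ≤ ρ → ∀ m, Chg Cm ρ m → ∀ t : ℝ, |t| ≤ T →
    (∀ ω, 0 < Yn (ρ - 2) (2 * ρ + 2) (κ * ρ) (fun x => t * m x) ω) ∧
    Measurable (Yn (ρ - 2) (2 * ρ + 2) (κ * ρ) (fun x => t * m x)) ∧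
    Integrable (fun ω => Yn (ρ - 2) (2 * ρ + 2) (κ * ρ) (fun x => t * m x) ω ^ s) μ ∧
    ∫ ω, Yn (ρ - 2) (2 * ρ + 2) (κ * ρ) (fun x => t * m x) ω ^ s ∂μ ≤
      C * Real.exp (-√3 * s * t * nb (ρ - 2) (2 * ρ + 2) (κ * ρ) m)

theorem vmom {Cm T κ : ℝ} (hκ : 0 < κ) (hS : SmallAt Cm T κ) (hL : S_large) (s τ : ℝ) :
    ∃ C ρ00 : ℝ, ∀ (ρ b : Fin 3 → ℝ) (mm : Fin 3 → ℤ × ℤ → ℝ), (∀ j, ρ00 ≤ ρ j) →
      (∀ j, Chg Cm (ρ j) (mm j)) → (∀ j, |b j| ≤ T) →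
      (∀ j ω, 0 < Yv κ ρ b mm j ω) ∧ AEMeasurable (vv κ τ ρ b mm) μ ∧
      Em μ (fun ω => s * vv κ τ ρ b mm ω) ≤
        ENNReal.ofReal (exp (s * Sv κ ρ b mm + C)) := by
  obtain ⟨C1, ρ1, hC1, h1⟩ := hS (6 * s)
  obtain ⟨C2, ρ2, h2⟩ := hL κ (6 * (s * τ)) hκ
  obtain ⟨C3, ρ3, h3⟩ := hL κ 1 hκ
  refine ⟨(1 / 2) * (log C1 + log (max C2 1)), max ρ1 (max ρ2 ρ3), fun ρ b mm hρ hm hb => ?_⟩
  have hY : ∀ j ω, 0 < Yv κ ρ b mm j ω := fun j ω =>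
    (h1 (ρ j) (le_trans (le_max_left _ _) (hρ j)) (mm j) (hm j) (b j) (hb j)).1 ω
  have hYm : ∀ j, Measurable (Yv κ ρ b mm j) := fun j =>
    (h1 (ρ j) (le_trans (le_max_left _ _) (hρ j)) (mm j) (hm j) (b j) (hb j)).2.1
  have hKm : ∀ j, AEMeasurable (fun ω => (Kv κ ρ j ω : ℝ)) μ := fun j => by
    have h := (h3 (ρ j) (le_trans (le_trans (le_max_right _ _) (le_max_right _ _)) (hρ j))).1
    have h' := (Real.measurable_log.comp_aemeasurable h.aemeasurable)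
    refine h'.congr (Filter.Eventually.of_forall fun ω => ?_)
    simp [Kv, Function.comp]
  have hlog : ∀ j, Measurable (fun ω => log (Yv κ ρ b mm j ω)) := fun j => (hYm j).log
  refine ⟨hY, ?_, ?_⟩
  · unfold vv
    exact Finset.aemeasurable_fun_sum _ fun j _ =>
      (hlog j).aemeasurable.add ((hKm j).const_mul τ)
  · let F : Fin 3 × Bool → Cfg → ℝ := fun i ω =>
      if i.2 then s * τ * Kv κ ρ i.1 ω else s * log (Yv κ ρ b mm i.1 ω)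
    let B : Fin 3 × Bool → ℝ := fun i =>
      if i.2 then log (max C2 1) else log C1 + 6 * s * (-√3 * (b i.1 * nv κ ρ mm i.1))
    have hF : ∀ i ∈ (Finset.univ : Finset (Fin 3 × Bool)), AEMeasurable (F i) μ := by
      rintro ⟨j, x⟩ _
      cases x
      · simpa [F] using ((hlog j).const_mul s).aemeasurable
      · simpa [F] using (hKm j).const_mul (s * τ)
    have hB : ∀ i ∈ (Finset.univ : Finset (Fin 3 × Bool)),
        Em μ (fun ω => ((1 : ℝ) / 6)⁻¹ * F i ω) ≤ ENNReal.ofReal (exp (B i)) := by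
      rintro ⟨j, x⟩ _
      cases x
      · have h := h1 (ρ j) (le_trans (le_max_left _ _) (hρ j)) (mm j) (hm j) (b j) (hb j)
        have e : (fun ω => ((1 : ℝ) / 6)⁻¹ * F (j, false) ω) =
            fun ω => 6 * s * log (Yv κ ρ b mm j ω) := by
          ext ω; simp [F]; ring
        rw [e]
        have e2 : ∀ ω, exp (6 * s * log (Yv κ ρ b mm j ω)) = (Yv κ ρ b mm j ω) ^ (6 * s) := by
          intro ω
          rw [Real.rpow_def_of_pos (hY j ω), mul_comm]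
        unfold Em
        simp only [e2]
        have h' : Integrable (fun ω => (Yv κ ρ b mm j ω) ^ (6 * s)) μ := h.2.2.1
        rw [← ofReal_integral_eq_lintegral_ofReal h'
          (Filter.Eventually.of_forall fun ω => Real.rpow_nonneg (hY j ω).le _)]
        apply ENNReal.ofReal_le_ofReal
        refine le_trans h.2.2.2 (le_of_eq ?_)
        simp only [B, Bool.false_eq_true, if_false]
        rw [Real.exp_add, Real.exp_log hC1]
        congr 2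
        unfold nv
        ring
      · have h := h2 (ρ j) (le_trans (le_trans (le_max_left _ _) (le_max_right _ _)) (hρ j))
        have e : (fun ω => ((1 : ℝ) / 6)⁻¹ * F (j, true) ω) =
            fun ω => 6 * (s * τ) * Kn (ρ j - 2) (2 * ρ j + 2) (κ * ρ j) ω := by
          ext ω; simp [F, Kv]; ring
        rw [e, Em_eq h.1]
        apply ENNReal.ofReal_le_ofReal
        simp only [B, if_true]
        rw [Real.exp_log (lt_of_lt_of_le one_pos (le_max_right _ _))]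
        exact le_trans h.2 (le_max_left _ _)
    have h := Em_holderA (μ := μ) (Finset.univ : Finset (Fin 3 × Bool)) hF (θ := fun _ => 1 / 6)
      (B := B) (fun _ _ => by norm_num) (by simp) hB
    have e3 : (fun ω => ∑ i : Fin 3 × Bool, F i ω) = fun ω => s * vv κ τ ρ b mm ω := by
      ext ω
      rw [Fintype.sum_prod_type]
      simp only [F, vv, Fintype.sum_bool, if_true, Bool.false_eq_true, if_false, Finset.mul_sum]
      exact Finset.sum_congr rfl fun j _ => by ring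
    rw [e3] at h
    refine le_trans h (le_of_eq ?_)
    congr 2
    rw [Fintype.sum_prod_type]
    simp only [B, Fintype.sum_bool, if_true, Bool.false_eq_true, if_false, Sv, Fin.sum_univ_three]
    ring

/-- Count between the charges `0` and `1`. -/
noncomputable def N0 (ρ : Fin 3 → ℝ) (ω : Cfg) : ℕ := Nn (2 * ρ 0 + 2) (ρ 1 - 2) ω

/-- Count between the charges `1` and `2`. -/
noncomputable def N1 (ρ : Fin 3 → ℝ) (ω : Cfg) : ℕ := Nn (2 * ρ 1 + 2) (ρ 2 - 2) ω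

/-- Generating function restricted to a set of values. -/
noncomputable def EnS (N : Cfg → ℕ) (S : Set ℕ) (x : ℝ) : ℝ≥0∞ :=
  ∫⁻ ω, S.indicator (fun n => ENNReal.ofReal (x ^ n)) (N ω) ∂μ

lemma meas_N0 (hi : S_indep) (ρ : Fin 3 → ℝ) : Measurable (N0 ρ) := hi.1 _ _

lemma meas_N1 (hi : S_indep) (ρ : Fin 3 → ℝ) : Measurable (N1 ρ) := hi.1 _ _

lemma indep_N (hi : S_indep) {ρ : Fin 3 → ℝ} (h : ρ 1 - 2 ≤ 2 * ρ 1 + 2) :
    IndepFun (N0 ρ) (N1 ρ) μ := by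
  have h1 := hi.2 2 ![2 * ρ 0 + 2, 2 * ρ 1 + 2] ![ρ 1 - 2, ρ 2 - 2] (by
    intro i j hij
    fin_cases i <;> fin_cases j <;> simp at hij ⊢
    linarith)
  have h2 := h1.indepFun (show (0 : Fin 2) ≠ 1 by decide)
  exact h2

lemma meas_ind (S : Set ℕ) (f : ℕ → ℝ≥0∞) : Measurable (S.indicator f) := measurable_of_countable _

/-- The `p`-th moment of the main factor. -/
lemma main_pow (hi : S_indep) {ρ : Fin 3 → ℝ} (h : ρ 1 - 2 ≤ 2 * ρ 1 + 2) (S : Set ℕ)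
    {x y p : ℝ} (hx : 0 ≤ x) (hy : 0 ≤ y) (hp : 0 < p) :
    ∫⁻ ω, (ENNReal.ofReal (x ^ N0 ρ ω) *
      S.indicator (fun n => ENNReal.ofReal (y ^ n)) (N1 ρ ω)) ^ p ∂μ =
      EnS (N0 ρ) Set.univ (x ^ p) * EnS (N1 ρ) S (y ^ p) := by
  have e : ∀ ω, (ENNReal.ofReal (x ^ N0 ρ ω) *
      S.indicator (fun n => ENNReal.ofReal (y ^ n)) (N1 ρ ω)) ^ p =
      ENNReal.ofReal ((x ^ p) ^ N0 ρ ω) *
      S.indicator (fun n => ENNReal.ofReal ((y ^ p) ^ n)) (N1 ρ ω) := by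
    intro ω
    have key : ∀ {z : ℝ} (_ : 0 ≤ z) (n : ℕ), ENNReal.ofReal (z ^ n) ^ p =
        ENNReal.ofReal ((z ^ p) ^ n) := by
      intro z hz n
      rw [ENNReal.ofReal_rpow_of_nonneg (pow_nonneg hz n) hp.le]
      congr 1
      rw [← Real.rpow_natCast, ← Real.rpow_natCast, ← Real.rpow_mul hz, ← Real.rpow_mul hz,
        mul_comm]
    rw [ENNReal.mul_rpow_of_nonneg _ _ hp.le, key hx]
    congr 1
    by_cases hS : N1 ρ ω ∈ S
    · rw [Set.indicator_of_mem hS, Set.indicator_of_mem hS, key hy]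
    · rw [Set.indicator_of_notMem hS, Set.indicator_of_notMem hS, ENNReal.zero_rpow_of_pos hp]
  simp only [e]
  have hind : IndepFun (fun ω => ENNReal.ofReal ((x ^ p) ^ N0 ρ ω))
      (fun ω => S.indicator (fun n => ENNReal.ofReal ((y ^ p) ^ n)) (N1 ρ ω)) μ :=
    (indep_N hi h).comp (φ := fun n : ℕ => ENNReal.ofReal ((x ^ p) ^ n))
      (ψ := S.indicator (fun n => ENNReal.ofReal ((y ^ p) ^ n)))
      (measurable_of_countable _) (meas_ind _ _)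
  have m1 : AEMeasurable (fun ω => ENNReal.ofReal ((x ^ p) ^ N0 ρ ω)) μ :=
    ((measurable_of_countable (fun n : ℕ => ENNReal.ofReal ((x ^ p) ^ n))).comp
      (meas_N0 hi ρ)).aemeasurable
  have m2 : AEMeasurable
      (fun ω => S.indicator (fun n => ENNReal.ofReal ((y ^ p) ^ n)) (N1 ρ ω)) μ :=
    ((meas_ind S _).comp (meas_N1 hi ρ)).aemeasurable
  rw [lintegral_mul_eq_lintegral_mul_lintegral_of_indepFun'' m1 m2 hind]
  simp only [EnS, Set.indicator_univ]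

lemma meas_main (hi : S_indep) (ρ : Fin 3 → ℝ) (S : Set ℕ) (x y : ℝ) :
    AEMeasurable (fun ω => ENNReal.ofReal (x ^ N0 ρ ω) *
      S.indicator (fun n => ENNReal.ofReal (y ^ n)) (N1 ρ ω)) μ :=
  (((measurable_of_countable (fun n : ℕ => ENNReal.ofReal (x ^ n))).comp
      (meas_N0 hi ρ)).aemeasurable).mul (((meas_ind S _).comp (meas_N1 hi ρ)).aemeasurable)

/-- The total charge function. -/
noncomputable def ff (b : Fin 3 → ℝ) (mm : Fin 3 → ℤ × ℤ → ℝ) (x : ℤ × ℤ) : ℝ := ∑ j, b j * mm j x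

lemma exp_vv {κ w : ℝ} (hw : 0 < w) {ρ b : Fin 3 → ℝ} {mm : Fin 3 → ℤ × ℤ → ℝ} {ω : Cfg}
    (hY : ∀ j, 0 < Yv κ ρ b mm j ω) :
    exp (vv κ (log w) ρ b mm ω) = (∏ j, Yv κ ρ b mm j ω) * w ^ (∑ j, Kv κ ρ j ω) := by
  unfold vv
  rw [Real.exp_sum, ← Finset.prod_pow_eq_pow_sum, ← Finset.prod_mul_distrib]
  refine Finset.prod_congr rfl fun j _ => ?_
  rw [Real.exp_add, Real.exp_log (hY j), mul_comm (log w), Real.exp_nat_mul, Real.exp_log hw]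

theorem up {Cm T κ : ℝ} (hκ : 0 < κ) (hκ' : κ ≤ 1 / 8) (hS : SmallAt Cm T κ) (hL : S_large)
    (hup : S_cls_up) (hi : S_indep) {p : ℝ} (hp : 1 < p) :
    ∃ C ρ00 : ℝ, ∀ (ρ b : Fin 3 → ℝ) (mm : Fin 3 → ℤ × ℤ → ℝ), (∀ j, ρ00 ≤ ρ j) →
      4 * ρ 0 ≤ ρ 1 → 4 * ρ 1 ≤ ρ 2 →
      (∀ j, Chg Cm (ρ j) (mm j)) → (∀ j, |b j| ≤ T) → ∑ j, b j = 0 → ∀ S : Set ℕ,
      ∫⁻ ω, S.indicator (fun _ => ENNReal.ofReal |X (ff b mm) ω|) (N1 ρ ω) ∂μ ≤
        ENNReal.ofReal (exp (Sv κ ρ b mm + C)) *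
          (EnS (N0 ρ) Set.univ (|wf (b 0)| ^ p) * EnS (N1 ρ) S (|wf (b 0 + b 1)| ^ p)) ^ (1 / p) := by
  have hp0 : 0 < p := by linarith
  have hp1 : 0 < p - 1 := by linarith
  obtain ⟨C, ρ1, h1⟩ := vmom (Cm := Cm) (T := T) hκ hS hL (p / (p - 1)) (log 2)
  obtain ⟨ρ2, h2⟩ := hup κ Cm hκ hκ'
  refine ⟨(p - 1) / p * C, max (max ρ1 ρ2) 0, fun ρ b mm hρ h01 h12 hm hb hsum S => ?_⟩
  have hρ0 : ∀ j, 0 ≤ ρ j := fun j => le_trans (le_max_right _ _) (hρ j)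
  obtain ⟨hY, hv, hE⟩ := h1 ρ b mm
    (fun j => le_trans (le_trans (le_max_left _ _) (le_max_left _ _)) (hρ j)) hm hb
  have hbd : ∀ ω, S.indicator (fun _ => ENNReal.ofReal |X (ff b mm) ω|) (N1 ρ ω) ≤
      ENNReal.ofReal (exp (vv κ (log 2) ρ b mm ω)) *
      (ENNReal.ofReal (|wf (b 0)| ^ N0 ρ ω) *
        S.indicator (fun n => ENNReal.ofReal (|wf (b 0 + b 1)| ^ n)) (N1 ρ ω)) := by
    intro ω
    by_cases hSω : N1 ρ ω ∈ S
    · rw [Set.indicator_of_mem hSω, Set.indicator_of_mem hSω,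
        ← ENNReal.ofReal_mul (by positivity), ← ENNReal.ofReal_mul (Real.exp_pos _).le]
      apply ENNReal.ofReal_le_ofReal
      rw [exp_vv two_pos (hY · ω)]
      have h := h2 ω ρ b mm
        (le_trans (le_trans (le_max_right _ _) (le_max_left _ _)) (hρ 0)) h01 h12 hm hsum
      have e : (∏ j, |Yn (ρ j - 2) (2 * ρ j + 2) (κ * ρ j) (fun x => b j * mm j x) ω|) =
          ∏ j, Yv κ ρ b mm j ω :=
        Finset.prod_congr rfl fun j _ => abs_of_pos (hY j ω)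
      rw [e] at h
      refine le_trans h (le_of_eq ?_)
      unfold N0 N1 Kv
      ring
    · rw [Set.indicator_of_notMem hSω]; exact zero_le
  refine le_trans (lintegral_mono hbd) ?_
  have h := holder_up (B := Sv κ ρ b mm + (p - 1) / p * C) hv (meas_main hi ρ S |wf (b 0)| |wf (b 0 + b 1)|) hp (by
    refine le_trans hE (le_of_eq ?_)
    congr 2
    field_simp)
  rw [main_pow hi (by linarith [hρ0 1]) S (abs_nonneg _) (abs_nonneg _) hp0] at h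
  exact h

theorem lo {Cm T κ : ℝ} (hκ : 0 < κ) (hκ' : κ ≤ 1 / 8) (hS : SmallAt Cm T κ) (hL : S_large)
    (hlo : S_cls_lo) (hi : S_indep) {p : ℝ} (hp : 1 < p) {w₀ : ℝ} (hw0 : 0 < w₀) (hw1 : w₀ ≤ 1) :
    ∃ C ρ00 : ℝ, ∀ (ρ b : Fin 3 → ℝ) (mm : Fin 3 → ℤ × ℤ → ℝ), (∀ j, ρ00 ≤ ρ j) →
      4 * ρ 0 ≤ ρ 1 → 4 * ρ 1 ≤ ρ 2 →
      (∀ j, Chg Cm (ρ j) (mm j)) → (∀ j, |b j| ≤ T) → ∑ j, b j = 0 →
      (∀ j, ∀ t ∈ Set.Icc (0 : ℝ) 1, 0 < wf (t * b j)) →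
      (∀ x ∈ Set.Icc (0 : ℝ) 1, ∀ y ∈ Set.Icc (0 : ℝ) 1, w₀ ≤ wf (x * b 0 + y * b 1)) →
      (∀ y ∈ Set.Icc (0 : ℝ) 1, w₀ ≤ wf (y * b 2)) →
      (∀ y ∈ Set.Icc (0 : ℝ) 1, w₀ ≤ wf (-(y * b 2))) → ∀ S : Set ℕ, (b 2 = 0 ∨ 0 ∉ S) →
      (∀ ω, N1 ρ ω ∈ S → 0 ≤ X (ff b mm) ω) ∧
      ENNReal.ofReal (exp (Sv κ ρ b mm - C)) *
          (EnS (N0 ρ) Set.univ (wf (b 0) ^ (1 / p)) * EnS (N1 ρ) S (wf (b 0 + b 1) ^ (1 / p))) ^ p ≤
      ∫⁻ ω, S.indicator (fun _ => ENNReal.ofReal (X (ff b mm) ω)) (N1 ρ ω) ∂μ := by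
  have hp0 : 0 < p := by linarith
  have hp1 : 0 < p - 1 := by linarith
  obtain ⟨C, ρ1, h1⟩ := vmom (Cm := Cm) (T := T) hκ hS hL (-(1 / (p - 1))) (log w₀)
  obtain ⟨ρ2, h2⟩ := hlo κ Cm hκ hκ'
  refine ⟨(p - 1) * C, max (max ρ1 ρ2) 0,
    fun ρ b mm hρ h01 h12 hm hb hsum c1 c2 c3 c4 S hSb => ?_⟩
  have hρ0 : ∀ j, 0 ≤ ρ j := fun j => le_trans (le_max_right _ _) (hρ j)
  obtain ⟨hY, hv, hE⟩ := h1 ρ b mm
    (fun j => le_trans (le_trans (le_max_left _ _) (le_max_left _ _)) (hρ j)) hm hb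
  have hwa : 0 < wf (b 0) := by
    have := c2 1 ⟨zero_le_one, le_rfl⟩ 0 ⟨le_rfl, zero_le_one⟩
    simp only [one_mul, zero_mul, add_zero] at this
    linarith
  have hwb : 0 < wf (b 0 + b 1) := by
    have := c2 1 ⟨zero_le_one, le_rfl⟩ 1 ⟨zero_le_one, le_rfl⟩
    simp only [one_mul] at this
    linarith
  have hcl : ∀ ω, N1 ρ ω ∈ S → exp (vv κ (log w₀) ρ b mm ω) *
      (wf (b 0) ^ N0 ρ ω * wf (b 0 + b 1) ^ N1 ρ ω) ≤ X (ff b mm) ω := by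
    intro ω hSω
    rw [exp_vv hw0 (hY · ω)]
    have h := h2 ω ρ b mm w₀
      (le_trans (le_trans (le_max_right _ _) (le_max_left _ _)) (hρ 0)) h01 h12 hm hsum
      hw0 hw1 c1 c2 c3 c4 (by
        rcases hSb with h | h
        · exact Or.inl h
        · right
          intro h0
          exact h (by rw [← h0]; exact hSω))
    refine le_trans (le_of_eq ?_) h
    unfold N0 N1 Kv Yv
    ring
  refine ⟨fun ω hSω => le_trans (by positivity) (hcl ω hSω), ?_⟩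
  have hbd : ∀ ω, ENNReal.ofReal (exp (vv κ (log w₀) ρ b mm ω)) *
      (ENNReal.ofReal (wf (b 0) ^ N0 ρ ω) *
        S.indicator (fun n => ENNReal.ofReal (wf (b 0 + b 1) ^ n)) (N1 ρ ω)) ≤
      S.indicator (fun _ => ENNReal.ofReal (X (ff b mm) ω)) (N1 ρ ω) := by
    intro ω
    by_cases hSω : N1 ρ ω ∈ S
    · rw [Set.indicator_of_mem hSω, Set.indicator_of_mem hSω,
        ← ENNReal.ofReal_mul (by positivity), ← ENNReal.ofReal_mul (Real.exp_pos _).le]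
      exact ENNReal.ofReal_le_ofReal (hcl ω hSω)
    · rw [Set.indicator_of_notMem hSω, Set.indicator_of_notMem hSω, mul_zero, mul_zero]
  refine le_trans ?_ (lintegral_mono hbd)
  have h := holder_lo (B := Sv κ ρ b mm - (p - 1) * C) hv
    (meas_main hi ρ S (wf (b 0)) (wf (b 0 + b 1))) hp (by
    refine le_trans hE (le_of_eq ?_)
    congr 2
    field_simp
    ring)
  rw [main_pow hi (by linarith [hρ0 1]) S hwa.le hwb.le (by positivity)] at h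
  exact h

end Vale.Agent.P167.H562
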