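import Vale.Agent.P167.H562.FLow

/-!
# P167, block F: the exponents
-/

open MeasureTheory ProbabilityTheory Real Finset Filter Topology
open scoped ENNReal

namespace Vale.Agent.P167.H562

variable {Cm K κ : ℝ} {m : ℝ → ℕ → ℤ × ℤ → ℝ}

/-- First `ε → 0`, and `n → ∞` before. -/
def FF : Filter (ℝ × ℕ) := (𝓝[>] (0 : ℝ)).curry atTop

lemma ev_FF {P : ℝ × ℕ → Prop} : (∀ᶠ x in FF, P x) ↔ ∀ᶠ ε in 𝓝[>] (0 : ℝ), ∀ᶠ n in atTop, P (ε, n) :=
  Iff.rfl

lemma ev_eps {a : ℝ} (ha : 0 < a) : ∀ᶠ ε in 𝓝[>] (0 : ℝ), 0 < ε ∧ ε < a := by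
  have h : Set.Ioo (0 : ℝ) a ∈ 𝓝[>] (0 : ℝ) := Ioo_mem_nhdsGT ha
  filter_upwards [h] with ε hε
  exact hε

/-- Logarithmic size. -/
noncomputable def LL (x : ℝ × ℕ) : ℝ := log (1 / x.1)

lemma tendsto_LL : Tendsto LL FF atTop := by
  rw [tendsto_atTop]
  intro C
  rw [ev_FF]
  filter_upwards [ev_eps (Real.exp_pos (-C))] with ε hε
  refine Filter.Eventually.of_forall fun n => ?_
  simp only [LL, one_div, Real.log_inv]
  have := Real.log_lt_log hε.1 hε.2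
  rw [Real.log_exp] at this
  linarith

/-- The two logarithmic generating functions. -/
noncomputable def Lam (k : ℕ) (x : ℝ × ℕ) (u : ℝ) : ℝ :=
  if k = 0 then lam (NA x.1 1 x.2) u else lam (NA 1 (1 / x.1) x.2) u

/-- The two mean masses. -/
noncomputable def DD (κ : ℝ) (m : ℝ → ℕ → ℤ × ℤ → ℝ) (k : ℕ) (x : ℝ × ℕ) : ℝ :=
  if k = 0 then √3 * (nf κ m 1 x.2 - nf κ m x.1 x.2) else √3 * (nf κ m (1 / x.1) x.2 - nf κ m 1 x.2)

/-- Probability of no loop. -/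
noncomputable def ZZ (x : ℝ × ℕ) : ℝ := log (μ.real {ω | NA x.1 1 x.2 ω = 0})

lemma toReal_bound {a d : ℝ} {C : ℝ} {E : ℝ≥0∞} {l p : ℝ}
    (hE : E = ENNReal.ofReal (exp l))
    (h : ENNReal.ofReal (exp (a - C)) ≤ ENNReal.ofReal (exp d) * E ^ (1 / p)) :
    a - C ≤ d + l / p := by
  rw [hE, ENNReal.ofReal_rpow_of_pos (Real.exp_pos _), ← Real.exp_mul,
    ← ENNReal.ofReal_mul (Real.exp_pos _).le, ← Real.exp_add] at h
  have := Real.exp_le_exp.1 ((ENNReal.ofReal_le_ofReal_iff (Real.exp_pos _).le).1 h)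
  rw [mul_one_div] at this
  exact this

/-- Upper classification with two charges, real form. -/
theorem two_up' (H : Ctx Cm K κ m) {b p : ℝ} (hb0 : -(2 * (π / 3)) ≤ b) (hb1 : b < π / 6)
    (hp : 1 < p) : ∃ C, ∀ r : Fin 3 → ℝ,
    0 < r 0 → 4 * r 0 ≤ r 1 → 4 * r 1 ≤ r 2 → ∀ᶠ n : ℕ in atTop,
      -(cA * b ^ 2 * log (r 1 / r 0)) - C ≤ b * (√3 * (nf κ m (r 1) n - nf κ m (r 0) n)) +
        lam (NA (r 0) (r 1) n) (p * log (wf b)) / p := by
  have hpi := Real.pi_pos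
  have hpi2 := Real.pi_lt_four
  have hw : 0 < wf b := wf_pos' (by linarith) hb1
  have hb3 : |b| ≤ 3 := by
    rw [abs_le]
    constructor
    · have := Real.pi_lt_d2
      linarith
    · linarith
  obtain ⟨C, h⟩ := two_up H hb3 hp
  refine ⟨C, fun r h0 h1 h2 => ?_⟩
  filter_upwards [h r h0 h1 h2] with n hn
  refine toReal_bound ?_ hn
  rw [abs_of_pos hw, EnS_pow (allExp_NA H _ _ _) hw]

/-- Upper classification at `b = π / 6`. -/
theorem two_up0 (H : Ctx Cm K κ m) {p : ℝ} (hp : 1 < p) : ∃ C, ∀ r : Fin 3 → ℝ,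
    0 < r 0 → 4 * r 0 ≤ r 1 → 4 * r 1 ≤ r 2 → ∀ᶠ n : ℕ in atTop,
      0 < μ.real {ω | NA (r 0) (r 1) n ω = 0} ∧
      -(cA * (π / 6) ^ 2 * log (r 1 / r 0)) - C ≤
        π / 6 * (√3 * (nf κ m (r 1) n - nf κ m (r 0) n)) +
        log (μ.real {ω | NA (r 0) (r 1) n ω = 0}) / p := by
  have hpi := Real.pi_pos
  have hpi2 := Real.pi_lt_four
  have hp0 : 0 < p := by linarith
  have hw : wf (π / 6) = 0 := by
    rw [wf, show π / 3 + π / 6 = π / 2 by ring, Real.cos_pi_div_two, mul_zero]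
  have hb3 : |π / 6| ≤ 3 := by
    rw [abs_of_pos (by linarith)]; linarith
  obtain ⟨C, h⟩ := two_up H hb3 hp
  refine ⟨C, fun r h0 h1 h2 => ?_⟩
  filter_upwards [h r h0 h1 h2] with n hn
  rw [hw, abs_zero, Real.zero_rpow hp0.ne', EnS_zero (meas_NA H _ _ _)] at hn
  have hpos : 0 < μ.real {ω | NA (r 0) (r 1) n ω = 0} := by
    rcases (measureReal_nonneg (μ := μ) (s := {ω | NA (r 0) (r 1) n ω = 0})).eq_or_lt with h0 | h0
    · exfalso
      have h1 : μ {ω | NA (r 0) (r 1) n ω = 0} = 0 := by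
        rw [measureReal_def] at h0
        exact ((ENNReal.toReal_eq_zero_iff _).1 h0.symm).resolve_right (measure_ne_top _ _)
      rw [h1, ENNReal.zero_rpow_of_pos (by positivity), mul_zero] at hn
      have := ENNReal.ofReal_pos.2 (Real.exp_pos (-(cA * (π / 6) ^ 2 * log (r 1 / r 0)) - C))
      exact absurd hn (not_le.2 this)
    · exact h0
  refine ⟨hpos, toReal_bound ?_ hn⟩
  rw [Real.exp_log hpos, ofReal_measureReal]

lemma mom_bound (H : Ctx Cm K κ m) (u : ℝ) : ∃ C, 0 ≤ C ∧ ∀ r r' : ℝ, 0 < r → 8 * r ≤ r' →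
    ∀ᶠ n : ℕ in atTop, lam (NA r r' n) u ≤ C * log (r' / r) := by
  obtain ⟨C, a0, h⟩ := H.mom u
  refine ⟨|C|, abs_nonneg C, fun r r' hr hr' => ?_⟩
  filter_upwards [ev_large hr a0, ev_large hr 6] with n h1 h2
  have hn : (0 : ℝ) ≤ n := Nat.cast_nonneg n
  have h3 : 8 * (r * n) ≤ r' * n := by nlinarith
  have h4 := h (2 * (r * n) + 2) (r' * n - 2) (by linarith) (by linarith)
  have hpos : 0 < ∫ ω, exp (u * (NA r r' n ω : ℝ)) ∂μ := integral_exp_pos h4.1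
  have h5 : lam (NA r r' n) u ≤ log (((r' * n - 2) / (2 * (r * n) + 2)) ^ C) :=
    Real.log_le_log hpos h4.2
  have h6 : 1 ≤ (r' * n - 2) / (2 * (r * n) + 2) := by
    rw [le_div_iff₀ (by linarith)]; linarith
  have h7 : (r' * n - 2) / (2 * (r * n) + 2) ≤ r' / r := by
    rw [div_le_div_iff₀ (by linarith) hr]
    nlinarith
  rw [Real.log_rpow (by linarith)] at h5
  refine h5.trans ?_
  have h8 : 0 ≤ log ((r' * n - 2) / (2 * (r * n) + 2)) := Real.log_nonneg h6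
  calc C * log ((r' * n - 2) / (2 * (r * n) + 2)) ≤ |C| * log ((r' * n - 2) / (2 * (r * n) + 2)) :=
        mul_le_mul_of_nonneg_right (le_abs_self C) h8
    _ ≤ _ := mul_le_mul_of_nonneg_left (Real.log_le_log (by linarith) h7) (abs_nonneg C)

lemma ring_bound (H : Ctx Cm K κ m) : ∃ c C : ℝ, 0 < c ∧ 0 < C ∧ ∀ r r' : ℝ, 0 < r → 8 * r ≤ r' →
    ∀ᶠ n : ℕ in atTop, μ.real {ω | NA r r' n ω = 0} ≤ C * (r / r') ^ c := by
  obtain ⟨c, C, hc, h⟩ := H.ring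
  refine ⟨c, (|C| + 1) * 8 ^ c, hc, by positivity, fun r r' hr hr' => ?_⟩
  filter_upwards [ev_large hr 6] with n h2
  have hn : (0 : ℝ) ≤ n := Nat.cast_nonneg n
  have h3 : 8 * (r * n) ≤ r' * n := by nlinarith
  have hr0 : 0 < r' := by linarith
  have h4 := h (2 * (r * n) + 2) (r' * n - 2) (by linarith) (by linarith)
  refine h4.trans ?_
  have h5 : (2 * (r * n) + 2) / (r' * n - 2) ≤ 8 * (r / r') := by
    rw [← mul_div_assoc, div_le_div_iff₀ (by linarith) hr0]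
    nlinarith
  have h6 : ((2 * (r * n) + 2) / (r' * n - 2)) ^ c ≤ (8 * (r / r')) ^ c :=
    Real.rpow_le_rpow (by apply div_nonneg <;> linarith) h5 hc.le
  have h7 : 0 ≤ ((2 * (r * n) + 2) / (r' * n - 2)) ^ c :=
    Real.rpow_nonneg (by apply div_nonneg <;> linarith) _
  calc C * ((2 * (r * n) + 2) / (r' * n - 2)) ^ c
      ≤ (|C| + 1) * ((2 * (r * n) + 2) / (r' * n - 2)) ^ c :=
        mul_le_mul_of_nonneg_right (by linarith [le_abs_self C]) h7
    _ ≤ (|C| + 1) * (8 * (r / r')) ^ c := mul_le_mul_of_nonneg_left h6 (by positivity)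
    _ = _ := by rw [Real.mul_rpow (by norm_num) (by positivity)]; ring

end Vale.Agent.P167.H562
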