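import Vale.Agent.P167.H562.FMain

/-!
# P167, block F: lower bounds for the charge expectations
-/

open MeasureTheory ProbabilityTheory Real Finset Filter Topology
open scoped ENNReal

namespace Vale.Agent.P167.H562

lemma wf_anti {s t : ℝ} (h1 : -(π / 3) ≤ s) (h2 : s ≤ t) (h3 : t ≤ 2 * π / 3) : wf t ≤ wf s := by
  unfold wf
  have := Real.cos_le_cos_of_nonneg_of_le_pi (x := π / 3 + s) (y := π / 3 + t)
    (by linarith) (by linarith) (by linarith)
  linarith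

lemma wf_pos' {t : ℝ} (h1 : -(5 * π / 6) < t) (h2 : t < π / 6) : 0 < wf t := by
  unfold wf
  have := Real.cos_pos_of_mem_Ioo (x := π / 3 + t) ⟨by linarith, by linarith⟩
  linarith

lemma wf_zero : wf 0 = 1 := by simp [wf, Real.cos_pi_div_three]

variable {Cm K κ : ℝ} {m : ℝ → ℕ → ℤ × ℤ → ℝ}

lemma EnS_pow {N : Cfg → ℕ} (hN : AllExp N) {x p : ℝ} (hx : 0 < x) :
    EnS N Set.univ (x ^ p) = ENNReal.ofReal (exp (lam N (p * log x))) := by
  rw [EnS_lam hN (Real.rpow_pos_of_pos hx p), Real.log_rpow hx]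

/-- Lower bound for two charges. -/
theorem two_lo (H : Ctx Cm K κ m) {b p : ℝ} (hb0 : 0 < b) (hb1 : b < π / 6) (hp : 1 < p) :
    ∃ C, ∀ r : Fin 3 → ℝ, 0 < r 0 → 4 * r 0 ≤ r 1 → 4 * r 1 ≤ r 2 → ∀ᶠ n : ℕ in atTop,
      b * (√3 * (nf κ m (r 1) n - nf κ m (r 0) n)) + p * lam (NA (r 0) (r 1) n) (log (wf b) / p) ≤
        -(cA * b ^ 2 * log (r 1 / r 0)) + C := by
  have hpi := Real.pi_pos
  have hpi2 := Real.pi_lt_four
  have hp0 : 0 < p := by linarith
  have hw0 : 0 < wf b := wf_pos' (by linarith) hb1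
  have hw1 : wf b ≤ 1 := by
    rw [← wf_zero]; exact wf_anti (by linarith) hb0.le (by linarith)
  have hb3 : |b| ≤ 3 := by rw [abs_of_pos hb0]; linarith
  obtain ⟨C, ρ00, h⟩ := lo (Cm := Cm) (T := 3) H.κ0 H.κ1 H.small H.large H.lo H.indep hp hw0 hw1
  refine ⟨K * (∑ j, |(![b, -b, 0] : Fin 3 → ℝ) j|) ^ 2 + log 2 + C, fun r h0 h1 h2 => ?_⟩
  have hr1 : 0 < r 1 := by linarith
  have hsum : ∑ j, (![b, -b, 0] : Fin 3 → ℝ) j = 0 := by simp [Fin.sum_univ_three]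
  obtain ⟨q, hq, hev⟩ := gauss3 H.gauss ![b, -b, 0] r h0 h1 h2 hsum
  filter_upwards [hev, ev_rad H h0 h1 h2 ρ00] with n hn1 hn2
  have c1 : ∀ j, ∀ t ∈ Set.Icc (0 : ℝ) 1, 0 < wf (t * (![b, -b, 0] : Fin 3 → ℝ) j) := by
    intro j t ht
    have h5 : t * b ≤ b := by nlinarith [ht.1, ht.2]
    have h6 : 0 ≤ t * b := mul_nonneg ht.1 hb0.le
    fin_cases j
    · simp only [Fin.zero_eta, Matrix.cons_val_zero]
      exact wf_pos' (by linarith) (by linarith)
    · show 0 < wf (t * -b)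
      exact wf_pos' (by linarith) (by linarith)
    · show 0 < wf (t * 0)
      rw [mul_zero, wf_zero]; exact one_pos
  have c2 : ∀ x ∈ Set.Icc (0 : ℝ) 1, ∀ y ∈ Set.Icc (0 : ℝ) 1,
      wf b ≤ wf (x * (![b, -b, 0] : Fin 3 → ℝ) 0 + y * (![b, -b, 0] : Fin 3 → ℝ) 1) := by
    intro x hx y hy
    show wf b ≤ wf (x * b + y * -b)
    have h5 : x * b ≤ b := by nlinarith [hx.1, hx.2]
    have h6 : 0 ≤ x * b := mul_nonneg hx.1 hb0.le
    have h7 : y * b ≤ b := by nlinarith [hy.1, hy.2]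
    have h8 : 0 ≤ y * b := mul_nonneg hy.1 hb0.le
    exact wf_anti (by linarith) (by linarith) (by linarith)
  have h3 := h (fun j => r j * n) ![b, -b, 0] (fun j => m (r j) n) hn2.1 hn2.2.1 hn2.2.2.1
    hn2.2.2.2 (by intro j; fin_cases j <;> simp [hb3]) hsum c1 c2
    (by intro y hy; show wf b ≤ wf (y * 0); rw [mul_zero, wf_zero]; exact hw1)
    (by intro y hy; show wf b ≤ wf (-(y * 0)); rw [mul_zero, neg_zero, wf_zero]; exact hw1)
    Set.univ (Or.inl rfl)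
  obtain ⟨hpos, h3⟩ := h3
  simp only [Set.indicator_univ] at h3
  have hXpos : ∀ ω, 0 ≤ X (ff ![b, -b, 0] fun j => m (r j) n) ω := fun ω => hpos ω (Set.mem_univ _)
  have hint : Integrable (X (ff ![b, -b, 0] fun j => m (r j) n)) μ := by
    by_contra hcon
    have := integral_undef hcon
    have h9 := hn1.1
    rw [this] at h9
    linarith [Real.exp_pos q]
  rw [← ofReal_integral_eq_lintegral_ofReal hint (Filter.Eventually.of_forall hXpos)] at h3
  have h5 : EnS (N1 fun j => r j * n) Set.univ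
      (wf ((![b, -b, 0] : Fin 3 → ℝ) 0 + (![b, -b, 0] : Fin 3 → ℝ) 1) ^ (1 / p)) = 1 := by
    have : wf ((![b, -b, 0] : Fin 3 → ℝ) 0 + (![b, -b, 0] : Fin 3 → ℝ) 1) = 1 := by
      simp [wf, Real.cos_pi_div_three]
    rw [this, Real.one_rpow, EnS_one]
  have h6 : EnS (N0 fun j => r j * n) Set.univ (wf ((![b, -b, 0] : Fin 3 → ℝ) 0) ^ (1 / p)) =
      ENNReal.ofReal (exp (lam (NA (r 0) (r 1) n) (log (wf b) / p))) := by
    have : EnS (NA (r 0) (r 1) n) Set.univ (wf b ^ (1 / p)) =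
      ENNReal.ofReal (exp (lam (NA (r 0) (r 1) n) (log (wf b) / p))) := by
      rw [EnS_pow (allExp_NA H _ _ _) hw0]
      congr 3
      field_simp
    exact this
  rw [h5, h6, mul_one, Sv_two, ENNReal.ofReal_rpow_of_pos (Real.exp_pos _), ← Real.exp_mul,
    ← ENNReal.ofReal_mul (Real.exp_pos _).le, ← Real.exp_add] at h3
  have h7 := h3.trans (ENNReal.ofReal_le_ofReal hn1.2)
  have h8 : 2 * exp q = exp (q + log 2) := by
    rw [Real.exp_add, Real.exp_log two_pos, mul_comm]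
  rw [h8] at h7
  have h9 := Real.exp_le_exp.1 ((ENNReal.ofReal_le_ofReal_iff (Real.exp_pos _).le).1 h7)
  have h10 := (abs_le.1 hq).2
  have e : (![b, -b, 0] : Fin 3 → ℝ) 0 ^ 2 * log (r 0) +
      (2 * (![b, -b, 0] : Fin 3 → ℝ) 0 * (![b, -b, 0] : Fin 3 → ℝ) 1 +
        (![b, -b, 0] : Fin 3 → ℝ) 1 ^ 2) * log (r 1) +
      (2 * (![b, -b, 0] : Fin 3 → ℝ) 0 * (![b, -b, 0] : Fin 3 → ℝ) 2 +
        2 * (![b, -b, 0] : Fin 3 → ℝ) 1 * (![b, -b, 0] : Fin 3 → ℝ) 2 +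
        (![b, -b, 0] : Fin 3 → ℝ) 2 ^ 2) * log (r 2) = -(b ^ 2 * log (r 1 / r 0)) := by
    rw [Real.log_div hr1.ne' h0.ne']
    simp
    ring
  rw [e] at h10
  linarith

lemma integral_split {f : Cfg → ℝ} (hf : Integrable f μ) {N : Cfg → ℕ} (hN : Measurable N)
    (hpos : ∀ ω, N ω ∈ ({0} : Set ℕ)ᶜ → 0 ≤ f ω) :
    ∫⁻ ω, ({0} : Set ℕ)ᶜ.indicator (fun _ => ENNReal.ofReal (f ω)) (N ω) ∂μ ≤
      ENNReal.ofReal (∫ ω, f ω ∂μ) +
        ∫⁻ ω, ({0} : Set ℕ).indicator (fun _ => ENNReal.ofReal |f ω|) (N ω) ∂μ := by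
  set A : Set Cfg := {ω | N ω = 0} with hA
  have hAm : MeasurableSet A := hN (measurableSet_singleton 0)
  have e1 : ∫⁻ ω, ({0} : Set ℕ)ᶜ.indicator (fun _ => ENNReal.ofReal (f ω)) (N ω) ∂μ =
      ENNReal.ofReal (∫ ω in Aᶜ, f ω ∂μ) := by
    rw [ofReal_integral_eq_lintegral_ofReal hf.integrableOn
      ((ae_restrict_iff' hAm.compl).2 (Filter.Eventually.of_forall fun ω hω =>
        hpos ω (by simpa [hA] using hω))), ← lintegral_indicator hAm.compl]
    refine lintegral_congr fun ω => ?_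
    by_cases h : N ω = 0
    · have h1 : ω ∉ Aᶜ := by simp [hA, h]
      rw [Set.indicator_of_notMem h1, Set.indicator_of_notMem (by simp [h])]
    · have h1 : ω ∈ Aᶜ := by simp [hA, h]
      rw [Set.indicator_of_mem h1, Set.indicator_of_mem (by simp [h])]
  have e2 : ∫⁻ ω, ({0} : Set ℕ).indicator (fun _ => ENNReal.ofReal |f ω|) (N ω) ∂μ =
      ENNReal.ofReal (∫ ω in A, |f ω| ∂μ) := by
    rw [ofReal_integral_eq_lintegral_ofReal hf.abs.integrableOn
      (Filter.Eventually.of_forall fun ω => abs_nonneg _), ← lintegral_indicator hAm]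
    refine lintegral_congr fun ω => ?_
    by_cases h : N ω = 0
    · have h1 : ω ∈ A := by simp [hA, h]
      rw [Set.indicator_of_mem h1, Set.indicator_of_mem (by simp [h])]
    · have h1 : ω ∉ A := by simp [hA, h]
      rw [Set.indicator_of_notMem h1, Set.indicator_of_notMem (by simp [h])]
  rw [e1, e2]
  refine le_trans (ENNReal.ofReal_le_ofReal ?_) ENNReal.ofReal_add_le
  have h1 := integral_add_compl hAm hf
  have h2 : -(∫ ω in A, |f ω| ∂μ) ≤ ∫ ω in A, f ω ∂μ := by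
    have := abs_integral_le_integral_abs (f := f) (μ := μ.restrict A)
    exact (abs_le.1 this).1
  linarith

/-- Linear term for three charges. -/
lemma Sv_three (r : Fin 3 → ℝ) (n : ℕ) (b : ℝ) :
    Sv κ (fun j => r j * n) ![b, -(b / 2), -(b / 2)] (fun j => m (r j) n) =
      b * (√3 * (nf κ m (r 1) n - nf κ m (r 0) n)) +
        b / 2 * (√3 * (nf κ m (r 2) n - nf κ m (r 1) n)) := by
  simp only [Sv, Fin.sum_univ_three, nv, nf]
  simp
  ring

lemma half_le {N : Cfg → ℕ} (hA : AllExp N) (hm : Measurable N) {x : ℝ} (hx : 1 ≤ x)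
    (hhalf : μ {ω | N ω = 0} ≤ 1 / 2) :
    ENNReal.ofReal (exp (lam N (log x)) / 2) ≤ EnS N {0}ᶜ x := by
  set Λ1 := lam N (log x) with hΛ1
  have f2 : EnS N Set.univ x = ENNReal.ofReal (exp Λ1) := EnS_lam hA (by linarith)
  have g1 := EnS_compl hm x
  have g2 : EnS N {0} x = μ {ω | N ω = 0} := EnS_singleton hm _
  have g3 : 1 ≤ EnS N Set.univ x := one_le_EnS _ hx
  rw [g2] at g1
  rw [f2] at g1 g3
  have g4 : μ {ω | N ω = 0} ≤ ENNReal.ofReal (exp Λ1 / 2) := by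
    refine le_trans hhalf ?_
    rw [← ENNReal.ofReal_one] at g3
    have g5 := (ENNReal.ofReal_le_ofReal_iff (Real.exp_pos _).le).1 g3
    have g6 : (1 / 2 : ℝ≥0∞) = ENNReal.ofReal (1 / 2) := by
      rw [ENNReal.ofReal_div_of_pos two_pos]; simp
    rw [g6]
    exact ENNReal.ofReal_le_ofReal (by linarith)
  have g7 : ENNReal.ofReal (exp Λ1) = ENNReal.ofReal (exp Λ1 / 2) + ENNReal.ofReal (exp Λ1 / 2) := by
    rw [← ENNReal.ofReal_add (by positivity) (by positivity)]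
    congr 1; ring
  have g8 : ENNReal.ofReal (exp Λ1 / 2) + ENNReal.ofReal (exp Λ1 / 2) ≤
      ENNReal.ofReal (exp Λ1 / 2) + EnS N {0}ᶜ x := by
    rw [← g7, g1]
    gcongr
  exact (ENNReal.add_le_add_iff_left ENNReal.ofReal_ne_top).1 g8

lemma fin_three {S C1 C2 B q Λ0 Λ1 Q0 Lb p : ℝ} {E1 δ : ℝ≥0∞} (hp : 1 < p) (hp2 : p ≤ 2)
    (h5 : ENNReal.ofReal (exp (S - C1)) * (ENNReal.ofReal (exp Λ0) * E1) ^ p ≤
      ENNReal.ofReal (2 * exp q) +
        ENNReal.ofReal (exp (S + C2)) * (ENNReal.ofReal (exp Q0) * δ) ^ (1 / p))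
    (hE1 : ENNReal.ofReal (exp Λ1 / 2) ≤ E1) (hq : q ≤ -Lb + B) :
    ENNReal.ofReal (exp (S + p * Λ0 + p * Λ1)) ≤
      ENNReal.ofReal (exp (-Lb + (|B| + log 2 + |C1| + |C2| + 2 * log 2))) +
      ENNReal.ofReal (exp (S + (|B| + log 2 + |C1| + |C2| + 2 * log 2) + Q0 / p)) * δ ^ (1 / p) := by
  have hp0 : 0 < p := by linarith
  have hlog2 : 0 < log 2 := Real.log_pos (by norm_num)
  have a1 := le_abs_self C1
  have a2 := le_abs_self C2
  have a3 := le_abs_self B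
  have a4 := abs_nonneg C1
  have a5 := abs_nonneg C2
  have a6 := abs_nonneg B
  have h6 : ENNReal.ofReal (exp (S - C1 + p * (Λ0 + (Λ1 - log 2)))) ≤
      ENNReal.ofReal (exp (S - C1)) * (ENNReal.ofReal (exp Λ0) * E1) ^ p := by
    calc ENNReal.ofReal (exp (S - C1 + p * (Λ0 + (Λ1 - log 2))))
        = ENNReal.ofReal (exp (S - C1)) * (ENNReal.ofReal (exp Λ0) *
            ENNReal.ofReal (exp Λ1 / 2)) ^ p := by
          have : exp Λ1 / 2 = exp (Λ1 - log 2) := by rw [Real.exp_sub, Real.exp_log two_pos]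
          rw [this, ← ENNReal.ofReal_mul (Real.exp_pos _).le, ← Real.exp_add,
            ENNReal.ofReal_rpow_of_pos (Real.exp_pos _), ← Real.exp_mul,
            ← ENNReal.ofReal_mul (Real.exp_pos _).le, ← Real.exp_add, mul_comm p]
      _ ≤ _ := by gcongr
  have h7 := h6.trans h5
  set c0 : ℝ := |C1| + 2 * log 2 with hc0
  have h8 : ENNReal.ofReal (exp (S + p * Λ0 + p * Λ1)) ≤
      ENNReal.ofReal (exp c0) * ENNReal.ofReal (exp (S - C1 + p * (Λ0 + (Λ1 - log 2)))) := by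
    rw [← ENNReal.ofReal_mul (Real.exp_pos _).le, ← Real.exp_add]
    apply ENNReal.ofReal_le_ofReal
    apply Real.exp_le_exp.2
    nlinarith
  refine h8.trans ((mul_le_mul_right h7 _).trans ?_)
  rw [mul_add]
  refine add_le_add ?_ ?_
  · rw [← ENNReal.ofReal_mul (Real.exp_pos _).le]
    apply ENNReal.ofReal_le_ofReal
    have g1 : exp c0 * (2 * exp q) = exp (c0 + (log 2 + q)) := by
      rw [Real.exp_add c0, Real.exp_add (log 2), Real.exp_log two_pos]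
    rw [g1]
    apply Real.exp_le_exp.2
    linarith
  · rw [ENNReal.mul_rpow_of_nonneg _ _ (by positivity), ENNReal.ofReal_rpow_of_pos (Real.exp_pos _),
      ← Real.exp_mul, ← mul_assoc, ← mul_assoc, ← ENNReal.ofReal_mul (Real.exp_pos _).le,
      ← Real.exp_add, ← ENNReal.ofReal_mul (Real.exp_pos _).le, ← Real.exp_add]
    have e : c0 + (S + C2) + Q0 * (1 / p) ≤
        S + (|B| + log 2 + |C1| + |C2| + 2 * log 2) + Q0 / p := by
      rw [mul_one_div]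
      linarith
    gcongr

/-- The three charges. -/
noncomputable def b3 (b : ℝ) : Fin 3 → ℝ := ![b, -(b / 2), -(b / 2)]

lemma cond_three {b : ℝ} (hb0 : -(π / 3) < b) (hb1 : b < 0) :
    (∀ j, ∀ t ∈ Set.Icc (0 : ℝ) 1, 0 < wf (t * b3 b j)) ∧
    (∀ x ∈ Set.Icc (0 : ℝ) 1, ∀ y ∈ Set.Icc (0 : ℝ) 1,
      wf (-(b / 2)) ≤ wf (x * b3 b 0 + y * b3 b 1)) ∧
    (∀ y ∈ Set.Icc (0 : ℝ) 1, wf (-(b / 2)) ≤ wf (y * b3 b 2)) ∧
    (∀ y ∈ Set.Icc (0 : ℝ) 1, wf (-(b / 2)) ≤ wf (-(y * b3 b 2))) ∧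
    (∀ j, |b3 b j| ≤ 3) ∧ ∑ j, b3 b j = 0 := by
  have hpi := Real.pi_pos
  have hpi2 := Real.pi_lt_four
  refine ⟨?_, ?_, ?_, ?_, ?_, ?_⟩
  · intro j t ht
    have h5 : b ≤ t * b := by nlinarith [ht.1, ht.2]
    have h6 : t * b ≤ 0 := mul_nonpos_of_nonneg_of_nonpos ht.1 hb1.le
    fin_cases j
    · show 0 < wf (t * b)
      exact wf_pos' (by linarith) (by linarith)
    · show 0 < wf (t * -(b / 2))
      exact wf_pos' (by linarith) (by linarith)
    · show 0 < wf (t * -(b / 2))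
      exact wf_pos' (by linarith) (by linarith)
  · intro x hx y hy
    show wf (-(b / 2)) ≤ wf (x * b + y * -(b / 2))
    have h5 : b ≤ x * b := by nlinarith [hx.1, hx.2]
    have h6 : x * b ≤ 0 := mul_nonpos_of_nonneg_of_nonpos hx.1 hb1.le
    have h7 : b ≤ y * b := by nlinarith [hy.1, hy.2]
    have h8 : y * b ≤ 0 := mul_nonpos_of_nonneg_of_nonpos hy.1 hb1.le
    exact wf_anti (by linarith) (by linarith) (by linarith)
  · intro y hy
    show wf (-(b / 2)) ≤ wf (y * -(b / 2))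
    have h7 : b ≤ y * b := by nlinarith [hy.1, hy.2]
    have h8 : y * b ≤ 0 := mul_nonpos_of_nonneg_of_nonpos hy.1 hb1.le
    exact wf_anti (by linarith) (by linarith) (by linarith)
  · intro y hy
    show wf (-(b / 2)) ≤ wf (-(y * -(b / 2)))
    have h7 : b ≤ y * b := by nlinarith [hy.1, hy.2]
    have h8 : y * b ≤ 0 := mul_nonpos_of_nonneg_of_nonpos hy.1 hb1.le
    exact wf_anti (by linarith) (by linarith) (by linarith)
  · intro j
    fin_cases j
    · show |b| ≤ 3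
      rw [abs_of_neg hb1]; linarith
    · show |-(b / 2)| ≤ 3
      rw [abs_neg, abs_of_neg (by linarith)]; linarith
    · show |-(b / 2)| ≤ 3
      rw [abs_neg, abs_of_neg (by linarith)]; linarith
  · simp [b3, Fin.sum_univ_three]; ring

lemma energy_three {b : ℝ} {r : Fin 3 → ℝ} (h0 : 0 < r 0) (h1 : 0 < r 1) (h2 : 0 < r 2) :
    b3 b 0 ^ 2 * log (r 0) + (2 * b3 b 0 * b3 b 1 + b3 b 1 ^ 2) * log (r 1) +
      (2 * b3 b 0 * b3 b 2 + 2 * b3 b 1 * b3 b 2 + b3 b 2 ^ 2) * log (r 2) =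
    -(b ^ 2 * log (r 1 / r 0) + (b / 2) ^ 2 * log (r 2 / r 1)) := by
  rw [Real.log_div h1.ne' h0.ne', Real.log_div h2.ne' h1.ne']
  simp [b3]
  ring

/-- Lower bound for three charges. -/
theorem three_lo (H : Ctx Cm K κ m) {b p : ℝ} (hb0 : -(π / 3) < b) (hb1 : b < 0) (hp : 1 < p)
    (hp2 : p ≤ 2) :
    ∃ C, ∀ r : Fin 3 → ℝ, 0 < r 0 → 4 * r 0 ≤ r 1 → 4 * r 1 ≤ r 2 → ∀ᶠ n : ℕ in atTop,
      μ {ω | NA (r 1) (r 2) n ω = 0} ≤ 1 / 2 →
      ENNReal.ofReal (exp (b * (√3 * (nf κ m (r 1) n - nf κ m (r 0) n)) +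
        b / 2 * (√3 * (nf κ m (r 2) n - nf κ m (r 1) n)) +
        p * lam (NA (r 0) (r 1) n) (log (wf b) / p) +
        p * lam (NA (r 1) (r 2) n) (log (wf (b / 2)) / p))) ≤
      ENNReal.ofReal (exp (-(cA * (b ^ 2 * log (r 1 / r 0) + (b / 2) ^ 2 * log (r 2 / r 1))) + C)) +
      ENNReal.ofReal (exp (b * (√3 * (nf κ m (r 1) n - nf κ m (r 0) n)) +
        b / 2 * (√3 * (nf κ m (r 2) n - nf κ m (r 1) n)) + C +
        lam (NA (r 0) (r 1) n) (p * log (wf b)) / p)) *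
        (μ {ω | NA (r 1) (r 2) n ω = 0}) ^ (1 / p) := by
  have hpi := Real.pi_pos
  have hpi2 := Real.pi_lt_four
  have hp0 : 0 < p := by linarith
  have hw0 : 0 < wf (-(b / 2)) := wf_pos' (by linarith) (by linarith)
  have hw1 : wf (-(b / 2)) ≤ 1 := by
    rw [← wf_zero]; exact wf_anti (by linarith) (by linarith) (by linarith)
  have hwb : 0 < wf b := wf_pos' (by linarith) (by linarith)
  have hwb2 : 0 < wf (b / 2) := wf_pos' (by linarith) (by linarith)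
  have hwb2' : 1 ≤ wf (b / 2) := by
    rw [← wf_zero]; exact wf_anti (by linarith) (by linarith) (by linarith)
  obtain ⟨C1, ρ1, hlo⟩ := lo (Cm := Cm) (T := 3) H.κ0 H.κ1 H.small H.large H.lo H.indep hp hw0 hw1
  obtain ⟨C2, ρ2, hup⟩ := up (Cm := Cm) (T := 3) H.κ0 H.κ1 H.small H.large H.up H.indep hp
  obtain ⟨c1, c2, c3, c4, hbb, hsum⟩ := cond_three hb0 hb1
  set B : ℝ := K * (∑ j, |b3 b j|) ^ 2 with hB
  refine ⟨|B| + log 2 + |C1| + |C2| + 2 * log 2, fun r h0 h1 h2 => ?_⟩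
  have hr1 : 0 < r 1 := by linarith
  have hr2 : 0 < r 2 := by linarith
  obtain ⟨q, hq, hev⟩ := gauss3 H.gauss (b3 b) r h0 h1 h2 hsum
  filter_upwards [hev, ev_rad H h0 h1 h2 ρ1, ev_rad H h0 h1 h2 ρ2] with n hn1 hn2 hn3
  intro hhalf
  obtain ⟨hpos, h3⟩ := hlo (fun j => r j * n) (b3 b) (fun j => m (r j) n) hn2.1
    hn2.2.1 hn2.2.2.1 hn2.2.2.2 hbb hsum c1 c2 c3 c4 {0}ᶜ (Or.inr (by simp))
  have h4 := hup (fun j => r j * n) (b3 b) (fun j => m (r j) n) hn3.1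
    hn3.2.1 hn3.2.2.1 hn3.2.2.2 hbb hsum {0}
  have hint : Integrable (X (ff (b3 b) fun j => m (r j) n)) μ := by
    by_contra hcon
    have := integral_undef hcon
    have h9 := hn1.1
    rw [this] at h9
    linarith [Real.exp_pos q]
  have h5 := h3.trans ((integral_split hint (meas_N1 H.indep _) hpos).trans
    (add_le_add (ENNReal.ofReal_le_ofReal hn1.2) h4))
  have e01 : b3 b 0 + b3 b 1 = b / 2 := by
    show b + -(b / 2) = b / 2
    ring
  have e0 : b3 b 0 = b := rfl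
  have eN0 : (N0 fun j => r j * n) = NA (r 0) (r 1) n := rfl
  have eN1 : (N1 fun j => r j * n) = NA (r 1) (r 2) n := rfl
  have eS := Sv_three (κ := κ) (m := m) r n b
  have hA0 := allExp_NA H (r 0) (r 1) n
  have hA1 := allExp_NA H (r 1) (r 2) n
  have f1 : EnS (NA (r 0) (r 1) n) Set.univ (wf b ^ (1 / p)) =
      ENNReal.ofReal (exp (lam (NA (r 0) (r 1) n) (log (wf b) / p))) := by
    rw [EnS_pow hA0 hwb]
    congr 3
    field_simp
  have f3 : EnS (NA (r 0) (r 1) n) Set.univ (|wf b| ^ p) =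
      ENNReal.ofReal (exp (lam (NA (r 0) (r 1) n) (p * log (wf b)))) := by
    rw [abs_of_pos hwb, EnS_pow hA0 hwb]
  have f4 : EnS (NA (r 1) (r 2) n) {0} (|wf (b / 2)| ^ p) = μ {ω | NA (r 1) (r 2) n ω = 0} :=
    EnS_singleton (meas_NA H _ _ _) _
  have f5 := half_le hA1 (meas_NA H (r 1) (r 2) n)
    (Real.one_le_rpow hwb2' (by positivity : 0 ≤ 1 / p)) hhalf
  rw [Real.log_rpow hwb2, show 1 / p * log (wf (b / 2)) = log (wf (b / 2)) / p by ring] at f5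
  rw [e01, e0, eN0, eN1, f1, f3, f4] at h5
  have h10 := (abs_le.1 hq).2
  rw [energy_three h0 hr1 hr2, ← hB] at h10
  have h11 := fin_three (Lb := cA * (b ^ 2 * log (r 1 / r 0) + (b / 2) ^ 2 * log (r 2 / r 1)))
    (B := B) hp hp2 h5 f5 (by linarith)
  have eS' : Sv κ (fun j => r j * n) (b3 b) (fun j => m (r j) n) =
      b * (√3 * (nf κ m (r 1) n - nf κ m (r 0) n)) +
        b / 2 * (√3 * (nf κ m (r 2) n - nf κ m (r 1) n)) := eS
  rw [eS'] at h11
  exact h11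

end Vale.Agent.P167.H562
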