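import Vale.Agent.P167.H562.FEst
import Vale.Agent.P167.H562.FAbs
import Vale.Agent.P167.H45.Cnt

/-!
# P167, block F: two-sided estimates for the generating functions of the nested loops
-/

open MeasureTheory ProbabilityTheory Real Finset Filter Topology
open scoped ENNReal

namespace Vale.Agent.P167.H562

/-- A priori bound for the number of nested loops. -/
def S_mom : Prop := ∀ u : ℝ, ∃ C a0 : ℝ, ∀ a b : ℝ, a0 ≤ a → 2 * a ≤ b →
  Integrable (fun ω => Real.exp (u * Nn a b ω)) μ ∧ ∫ ω, Real.exp (u * Nn a b ω) ∂μ ≤ (b / a) ^ C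

/-- Logarithm of the moment generating function. -/
noncomputable def lam (N : Cfg → ℕ) (u : ℝ) : ℝ := log (∫ ω, exp (u * N ω) ∂μ)

/-- All exponential moments are finite. -/
def AllExp (N : Cfg → ℕ) : Prop := ∀ u : ℝ, Integrable (fun ω => exp (u * N ω)) μ

lemma exp_lam {N : Cfg → ℕ} {u : ℝ} (h : Integrable (fun ω => exp (u * N ω)) μ) :
    exp (lam N u) = ∫ ω, exp (u * N ω) ∂μ := exp_log (integral_exp_pos h)

lemma Em_lam {N : Cfg → ℕ} {u : ℝ} (h : Integrable (fun ω => exp (u * N ω)) μ) :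
    Em μ (fun ω => u * N ω) = ENNReal.ofReal (exp (lam N u)) := by
  rw [Em_eq h, exp_lam h]

lemma EnS_lam {N : Cfg → ℕ} (hN : AllExp N) {x : ℝ} (hx : 0 < x) :
    EnS N Set.univ x = ENNReal.ofReal (exp (lam N (log x))) := by
  rw [← Em_lam (hN _)]
  unfold EnS Em
  simp only [Set.indicator_univ]
  congr 1
  ext ω
  rw [mul_comm, Real.exp_nat_mul, Real.exp_log hx]

lemma lam_zero (N : Cfg → ℕ) : lam N 0 = 0 := by simp [lam]

lemma lam_mono {N : Cfg → ℕ} (hN : AllExp N) : Monotone (lam N) := by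
  intro u v huv
  apply Real.log_le_log (integral_exp_pos (hN u))
  exact integral_mono (hN u) (hN v) fun ω => Real.exp_le_exp.2
    (mul_le_mul_of_nonneg_right huv (Nat.cast_nonneg _))

lemma aem_N {N : Cfg → ℕ} (hN : AllExp N) : AEMeasurable (fun ω => (N ω : ℝ)) μ := by
  have h := (Real.measurable_log.comp_aemeasurable (hN 1).aemeasurable)
  refine h.congr (Filter.Eventually.of_forall fun ω => ?_)
  simp [Function.comp]

lemma lam_convex {N : Cfg → ℕ} (hN : AllExp N) : ConvexOn ℝ Set.univ (lam N) := by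
  refine ⟨convex_univ, fun x _ y _ a b ha hb hab => ?_⟩
  simp only [smul_eq_mul]
  rcases ha.eq_or_lt with rfl | ha
  · simp at hab; subst hab; simp
  rcases hb.eq_or_lt with rfl | hb
  · simp at hab; subst hab; simp
  have h := Em_holderA (μ := μ) (Finset.univ : Finset Bool)
    (Y := fun i ω => if i then a * x * N ω else b * y * N ω)
    (θ := fun i => if i then a else b) (B := fun i => if i then lam N x else lam N y)
    (fun i _ => by
      cases i
      · simpa using (aem_N hN).const_mul (b * y)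
      · simpa using (aem_N hN).const_mul (a * x))
    (fun i _ => by cases i <;> simp [ha, hb])
    (by simp [hab])
    (fun i _ => by
      cases i
      · simp only [Bool.false_eq_true, if_false]
        rw [← Em_lam (hN y)]
        refine le_of_eq ?_
        congr 1
        ext ω
        field_simp
      · simp only [if_true]
        rw [← Em_lam (hN x)]
        refine le_of_eq ?_
        congr 1
        ext ω
        field_simp)
  simp only [Fintype.sum_bool, if_true, Bool.false_eq_true, if_false] at h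
  have e : (fun ω => a * x * (N ω : ℝ) + b * y * N ω) = fun ω => (a * x + b * y) * (N ω : ℝ) := by
    ext ω; ring
  rw [e, Em_lam (hN _)] at h
  have h2 := (ENNReal.ofReal_le_ofReal_iff (Real.exp_pos _).le).1 h
  exact Real.exp_le_exp.1 h2

lemma EnS_one (N : Cfg → ℕ) : EnS N Set.univ 1 = 1 := by simp [EnS]

lemma EnS_zero {N : Cfg → ℕ} (hN : Measurable N) : EnS N Set.univ 0 = μ {ω | N ω = 0} := by
  have hs : MeasurableSet {ω | N ω = 0} := hN (measurableSet_singleton 0)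
  rw [← lintegral_indicator_one hs]
  unfold EnS
  congr 1
  ext ω
  by_cases h : N ω = 0
  · simp [h]
  · simp [h]

lemma EnS_singleton {N : Cfg → ℕ} (hN : Measurable N) (y : ℝ) :
    EnS N {0} y = μ {ω | N ω = 0} := by
  have hs : MeasurableSet {ω | N ω = 0} := hN (measurableSet_singleton 0)
  rw [← lintegral_indicator_one hs]
  unfold EnS
  congr 1
  ext ω
  by_cases h : N ω = 0
  · simp [h]
  · simp [h]

lemma EnS_compl {N : Cfg → ℕ} (hN : Measurable N) (y : ℝ) :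
    EnS N Set.univ y = EnS N {0} y + EnS N {0}ᶜ y := by
  unfold EnS
  have hm : Measurable (fun ω => ({0} : Set ℕ).indicator (fun n => ENNReal.ofReal (y ^ n)) (N ω)) :=
    (measurable_of_countable (({0} : Set ℕ).indicator (fun n => ENNReal.ofReal (y ^ n)))).comp hN
  rw [← lintegral_add_left hm]
  congr 1
  ext ω
  by_cases h : N ω = 0
  · simp [h]
  · simp [h]

lemma one_le_EnS (N : Cfg → ℕ) {y : ℝ} (hy : 1 ≤ y) : 1 ≤ EnS N Set.univ y := by
  rw [← EnS_one N]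
  unfold EnS
  simp only [Set.indicator_univ]
  exact lintegral_mono fun ω => ENNReal.ofReal_le_ofReal (by
    rw [one_pow]; exact one_le_pow₀ hy)

lemma wf_wt (t : ℝ) : wf t = wt (π / 3) t := by
  rw [wf, wt, Real.cos_pi_div_three]; ring

lemma ofReal_integral_le (f : Cfg → ℝ) :
    ENNReal.ofReal (∫ ω, f ω ∂μ) ≤ ∫⁻ ω, ENNReal.ofReal |f ω| ∂μ := by
  have h := enorm_integral_le_lintegral_enorm (μ := μ) f
  simp only [Real.enorm_eq_ofReal_abs] at h
  exact le_trans (ENNReal.ofReal_le_ofReal (le_abs_self _)) h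

/-- The count between the radii `r n` and `r' n`. -/
noncomputable def NA (r r' : ℝ) (n : ℕ) (ω : Cfg) : ℕ := Nn (2 * (r * n) + 2) (r' * n - 2) ω

/-- Mean mass at radius `r n`. -/
noncomputable def nf (κ : ℝ) (m : ℝ → ℕ → ℤ × ℤ → ℝ) (r : ℝ) (n : ℕ) : ℝ :=
  nb (r * n - 2) (2 * (r * n) + 2) (κ * (r * n)) (m r n)

/-- The data of `S_gauss`. -/
def GaussAt (K : ℝ) (m : ℝ → ℕ → ℤ × ℤ → ℝ) : Prop :=
  ∀ (J : ℕ) (b r : Fin J → ℝ), (∀ j, 0 < r j) →
    (∀ i j, r i = r j ∨ 4 * r i ≤ r j ∨ 4 * r j ≤ r i) → ∑ j, b j = 0 → ∃ q : ℝ,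
      |q - cA * ∑ i, ∑ j, b i * b j * Real.log (max (r i) (r j))| ≤ K * (∑ j, |b j|) ^ 2 ∧
      Tendsto (fun n : ℕ => ∫ ω, X (fun s => ∑ j, b j * m (r j) n s) ω ∂μ) atTop
        (𝓝 (Real.exp q))

lemma gauss3 {K : ℝ} {m : ℝ → ℕ → ℤ × ℤ → ℝ} (hG : GaussAt K m) (b r : Fin 3 → ℝ)
    (h0 : 0 < r 0) (h1 : 4 * r 0 ≤ r 1) (h2 : 4 * r 1 ≤ r 2) (hb : ∑ j, b j = 0) :
    ∃ q : ℝ, |q - cA * (b 0 ^ 2 * log (r 0) + (2 * b 0 * b 1 + b 1 ^ 2) * log (r 1) +
        (2 * b 0 * b 2 + 2 * b 1 * b 2 + b 2 ^ 2) * log (r 2))| ≤ K * (∑ j, |b j|) ^ 2 ∧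
      ∀ᶠ n : ℕ in atTop, exp q / 2 ≤ ∫ ω, X (ff b (fun j => m (r j) n)) ω ∂μ ∧
        ∫ ω, X (ff b (fun j => m (r j) n)) ω ∂μ ≤ 2 * exp q := by
  have hr1 : 0 < r 1 := by linarith
  have hr2 : 0 < r 2 := by linarith
  obtain ⟨q, hq, hT⟩ := hG 3 b r (by intro j; fin_cases j <;> simp <;> assumption)
    (by
      intro i j
      fin_cases i <;> fin_cases j <;> simp <;>
        first | (right; left; linarith) | (right; right; linarith))
    hb
  refine ⟨q, ?_, ?_⟩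
  · have e : ∑ i, ∑ j, b i * b j * Real.log (max (r i) (r j)) =
        b 0 ^ 2 * log (r 0) + (2 * b 0 * b 1 + b 1 ^ 2) * log (r 1) +
        (2 * b 0 * b 2 + 2 * b 1 * b 2 + b 2 ^ 2) * log (r 2) := by
      simp only [Fin.sum_univ_three]
      rw [max_self, max_self, max_self, max_eq_right (show r 0 ≤ r 1 by linarith),
        max_eq_right (show r 0 ≤ r 2 by linarith), max_eq_left (show r 0 ≤ r 1 by linarith),
        max_eq_right (show r 1 ≤ r 2 by linarith), max_eq_left (show r 0 ≤ r 2 by linarith),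
        max_eq_left (show r 1 ≤ r 2 by linarith)]
      ring
    rw [← e]
    exact hq
  · have hp := Real.exp_pos q
    have h3 := hT.eventually (lt_mem_nhds (show exp q / 2 < exp q by linarith))
    have h4 := hT.eventually (gt_mem_nhds (show exp q < 2 * exp q by linarith))
    filter_upwards [h3, h4] with n h3 h4
    exact ⟨h3.le, h4.le⟩

/-- The counts are bounded. -/
lemma Nn_bdd (h2 : S_two) (a b : ℝ) : ∃ B : ℕ, ∀ ω, Nn a b ω ≤ B := by
  set R : ℤ := ⌈b⌉ with hR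
  let Bx : Finset (ℤ × ℤ) := (Finset.Icc (-R) R) ×ˢ (Finset.Icc (-R) R)
  refine ⟨4 * Bx.card, fun ω => le_trans ?_ (H45.LV_ncard h2 Bx ω)⟩
  refine Set.ncard_le_ncard ?_ (H45.LV_fin h2 Bx ω)
  intro ℓ hℓ
  refine ⟨hℓ.1, ?_⟩
  obtain ⟨e, he⟩ := H45.IsLoop.nonempty hℓ.1
  have hv : hdv e ∈ vs ℓ := Finset.mem_image_of_mem _ he
  refine ⟨hdv e, hv, ?_⟩
  have h1 := (hℓ.2.1 _ hv).2
  have h3 : nm (hdv e) ≤ R := by
    have h4 : (nm (hdv e) : ℝ) ≤ (⌈b⌉ : ℝ) := h1.le.trans (Int.le_ceil b)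
    exact_mod_cast h4
  rw [H45.nm_le, abs_le, abs_le] at h3
  simp only [Bx, Finset.mem_product, Finset.mem_Icc]
  exact h3

lemma allExp_Nn (h2 : S_two) (hi : S_indep) (a b : ℝ) : AllExp (Nn a b) := by
  intro u
  obtain ⟨B, hB⟩ := Nn_bdd h2 a b
  have hm : Measurable (fun ω => exp (u * (Nn a b ω : ℝ))) :=
    (measurable_of_countable (fun n : ℕ => exp (u * (n : ℝ)))).comp (hi.1 a b)
  refine Integrable.mono' (integrable_const (exp (|u| * B))) hm.aestronglyMeasurable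
    (Filter.Eventually.of_forall fun ω => ?_)
  rw [Real.norm_eq_abs, abs_of_pos (Real.exp_pos _)]
  apply Real.exp_le_exp.2
  have h1 : (Nn a b ω : ℝ) ≤ B := by exact_mod_cast hB ω
  calc u * (Nn a b ω : ℝ) ≤ |u| * (Nn a b ω : ℝ) :=
        mul_le_mul_of_nonneg_right (le_abs_self u) (Nat.cast_nonneg _)
    _ ≤ |u| * B := mul_le_mul_of_nonneg_left h1 (abs_nonneg u)

/-- All the inputs. -/
structure Ctx (Cm K κ : ℝ) (m : ℝ → ℕ → ℤ × ℤ → ℝ) : Prop where
  κ0 : 0 < κ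
  κ1 : κ ≤ 1 / 8
  small : SmallAt Cm 3 κ
  large : S_large
  up : S_cls_up
  lo : S_cls_lo
  indep : S_indep
  ring : S_ring
  mom : S_mom
  two : S_two
  chg : ∀ r > 0, ∀ᶠ n : ℕ in atTop, Chg Cm (r * n) (m r n)
  gauss : GaussAt K m

section
variable {Cm K κ : ℝ} {m : ℝ → ℕ → ℤ × ℤ → ℝ}

lemma allExp_NA (H : Ctx Cm K κ m) (r r' : ℝ) (n : ℕ) : AllExp (NA r r' n) :=
  allExp_Nn H.two H.indep _ _

lemma meas_NA (H : Ctx Cm K κ m) (r r' : ℝ) (n : ℕ) : Measurable (NA r r' n) := H.indep.1 _ _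

lemma ev_large {r : ℝ} (hr : 0 < r) (x : ℝ) : ∀ᶠ n : ℕ in atTop, x ≤ r * n := by
  have : Tendsto (fun n : ℕ => r * (n : ℝ)) atTop atTop :=
    tendsto_natCast_atTop_atTop.const_mul_atTop hr
  exact this.eventually_ge_atTop x

lemma ev_rad (H : Ctx Cm K κ m) {r : Fin 3 → ℝ} (h0 : 0 < r 0) (h1 : 4 * r 0 ≤ r 1)
    (h2 : 4 * r 1 ≤ r 2) (x : ℝ) : ∀ᶠ n : ℕ in atTop, (∀ j, x ≤ r j * n) ∧
      4 * (r 0 * n) ≤ r 1 * n ∧ 4 * (r 1 * n) ≤ r 2 * n ∧ ∀ j, Chg Cm (r j * n) (m (r j) n) := by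
  have hr : ∀ j, 0 < r j := by
    intro j
    fin_cases j
    · exact h0
    · show 0 < r 1; linarith
    · show 0 < r 2; linarith
  have e1 : ∀ᶠ n : ℕ in atTop, ∀ j, x ≤ r j * n :=
    Filter.eventually_all.2 fun j => ev_large (hr j) x
  have e2 : ∀ᶠ n : ℕ in atTop, ∀ j, Chg Cm (r j * n) (m (r j) n) :=
    Filter.eventually_all.2 fun j => H.chg (r j) (hr j)
  filter_upwards [e1, e2] with n h3 h4
  have hn : (0 : ℝ) ≤ n := Nat.cast_nonneg n
  refine ⟨h3, ?_, ?_, h4⟩ <;> nlinarith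

/-- Linear term for two charges. -/
lemma Sv_two (r : Fin 3 → ℝ) (n : ℕ) (b : ℝ) :
    Sv κ (fun j => r j * n) ![b, -b, 0] (fun j => m (r j) n) =
      b * (√3 * (nf κ m (r 1) n - nf κ m (r 0) n)) := by
  simp only [Sv, Fin.sum_univ_three, nv, nf]
  simp
  ring

/-- Upper bound for two charges. -/
theorem two_up (H : Ctx Cm K κ m) {b p : ℝ} (hb : |b| ≤ 3) (hp : 1 < p) : ∃ C, ∀ r : Fin 3 → ℝ,
    0 < r 0 → 4 * r 0 ≤ r 1 → 4 * r 1 ≤ r 2 → ∀ᶠ n : ℕ in atTop,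
      ENNReal.ofReal (exp (-(cA * b ^ 2 * log (r 1 / r 0)) - C)) ≤
      ENNReal.ofReal (exp (b * (√3 * (nf κ m (r 1) n - nf κ m (r 0) n)))) *
        (EnS (NA (r 0) (r 1) n) Set.univ (|wf b| ^ p)) ^ (1 / p) := by
  obtain ⟨C, ρ00, h⟩ := up (Cm := Cm) (T := 3) H.κ0 H.κ1 H.small H.large H.up H.indep hp
  refine ⟨K * (∑ j, |(![b, -b, 0] : Fin 3 → ℝ) j|) ^ 2 + log 2 + C, fun r h0 h1 h2 => ?_⟩
  have hr1 : 0 < r 1 := by linarith
  have hsum : ∑ j, (![b, -b, 0] : Fin 3 → ℝ) j = 0 := by simp [Fin.sum_univ_three]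
  obtain ⟨q, hq, hev⟩ := gauss3 H.gauss ![b, -b, 0] r h0 h1 h2 hsum
  filter_upwards [hev, ev_rad H h0 h1 h2 ρ00] with n hn1 hn2
  have h3 := h (fun j => r j * n) ![b, -b, 0] (fun j => m (r j) n) hn2.1 hn2.2.1 hn2.2.2.1
    hn2.2.2.2 (by intro j; fin_cases j <;> simp [hb]) hsum Set.univ
  simp only [Set.indicator_univ] at h3
  have h4 := (ofReal_integral_le (X (ff ![b, -b, 0] fun j => m (r j) n))).trans h3
  have h5 : EnS (N1 fun j => r j * n) Set.univ
      (|wf ((![b, -b, 0] : Fin 3 → ℝ) 0 + (![b, -b, 0] : Fin 3 → ℝ) 1)| ^ p) = 1 := by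
    have : wf ((![b, -b, 0] : Fin 3 → ℝ) 0 + (![b, -b, 0] : Fin 3 → ℝ) 1) = 1 := by
      simp [wf, Real.cos_pi_div_three]
    rw [this, abs_one, Real.one_rpow, EnS_one]
  rw [h5, mul_one, Real.exp_add, mul_comm (exp (Sv _ _ _ _)), ENNReal.ofReal_mul (Real.exp_pos _).le,
    Sv_two] at h4
  have h6 : ENNReal.ofReal (exp q / 2) ≤ ENNReal.ofReal (exp C) *
      (ENNReal.ofReal (exp (b * (√3 * (nf κ m (r 1) n - nf κ m (r 0) n)))) *
        (EnS (NA (r 0) (r 1) n) Set.univ (|wf b| ^ p)) ^ (1 / p)) := by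
    refine le_trans (ENNReal.ofReal_le_ofReal hn1.1) ?_
    rw [← mul_assoc]
    exact h4
  have h7 : ENNReal.ofReal (exp (-(cA * b ^ 2 * log (r 1 / r 0)) -
      (K * (∑ j, |(![b, -b, 0] : Fin 3 → ℝ) j|) ^ 2 + log 2 + C))) ≤
      ENNReal.ofReal (exp (-C)) * ENNReal.ofReal (exp q / 2) := by
    rw [← ENNReal.ofReal_mul (Real.exp_pos _).le]
    apply ENNReal.ofReal_le_ofReal
    have h8 : exp q / 2 = exp (q - log 2) := by
      rw [Real.exp_sub, Real.exp_log two_pos]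
    rw [h8, ← Real.exp_add]
    apply Real.exp_le_exp.2
    have h9 := (abs_le.1 hq).1
    have e : (![b, -b, 0] : Fin 3 → ℝ) 0 ^ 2 * log (r 0) +
        (2 * (![b, -b, 0] : Fin 3 → ℝ) 0 * (![b, -b, 0] : Fin 3 → ℝ) 1 +
          (![b, -b, 0] : Fin 3 → ℝ) 1 ^ 2) * log (r 1) +
        (2 * (![b, -b, 0] : Fin 3 → ℝ) 0 * (![b, -b, 0] : Fin 3 → ℝ) 2 +
          2 * (![b, -b, 0] : Fin 3 → ℝ) 1 * (![b, -b, 0] : Fin 3 → ℝ) 2 +
          (![b, -b, 0] : Fin 3 → ℝ) 2 ^ 2) * log (r 2) = -(b ^ 2 * log (r 1 / r 0)) := by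
      rw [Real.log_div hr1.ne' h0.ne']
      simp
      ring
    rw [e] at h9
    linarith
  refine le_trans h7 (le_trans (mul_le_mul_right h6 _) ?_)
  rw [← mul_assoc, ← ENNReal.ofReal_mul (Real.exp_pos _).le, ← Real.exp_add, neg_add_cancel,
    Real.exp_zero, ENNReal.ofReal_one, one_mul]

end

end Vale.Agent.P167.H562
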