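import Vale.Agent.P167.H562.FTop

/-!
# P167, block F: `S_F1`, `S_F2`, `S_F3`
-/

open MeasureTheory ProbabilityTheory Real Finset Filter Topology
open scoped ENNReal

namespace Vale.Agent.P167.H562

variable {Cm K κ : ℝ} {m : ℝ → ℕ → ℤ × ℤ → ℝ}

lemma Nn_mono (h2 : S_two) {a b a' b' : ℝ} (ha : a' ≤ a) (hb : b ≤ b') (ω : Cfg) :
    Nn a b ω ≤ Nn a' b' ω := by
  refine Set.ncard_le_ncard ?_ ?_
  · rintro ℓ ⟨h1, h3, h4⟩
    exact ⟨h1, fun v hv => ⟨lt_of_le_of_lt ha (h3 v hv).1, lt_of_lt_of_le (h3 v hv).2 hb⟩, h4⟩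
  · set R : ℤ := ⌈b'⌉ with hR
    let Bx : Finset (ℤ × ℤ) := (Finset.Icc (-R) R) ×ˢ (Finset.Icc (-R) R)
    refine (H45.LV_fin h2 Bx ω).subset ?_
    rintro ℓ ⟨h1, h3, h4⟩
    refine ⟨h1, ?_⟩
    obtain ⟨e, he⟩ := H45.IsLoop.nonempty h1
    have hv : hdv e ∈ vs ℓ := Finset.mem_image_of_mem _ he
    refine ⟨hdv e, hv, ?_⟩
    have h5 := (h3 _ hv).2
    have h6 : nm (hdv e) ≤ R := by
      have h7 : (nm (hdv e) : ℝ) ≤ (⌈b'⌉ : ℝ) := h5.le.trans (Int.le_ceil b')
      exact_mod_cast h7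
    rw [H45.nm_le, abs_le, abs_le] at h6
    simp only [Bx, Finset.mem_product, Finset.mem_Icc]
    exact h6

/-- Change of the variables. -/
noncomputable def psi (x : ℝ × ℕ) : ℝ × ℕ := (x.1 / 8, 2 * x.2)

lemma tendsto_psi : Tendsto psi FF FF := by
  intro P hP
  have hP' : ∀ᶠ ε in 𝓝[>] (0 : ℝ), ∀ᶠ n in atTop, P (ε, n) := hP
  show ∀ᶠ ε in 𝓝[>] (0 : ℝ), ∀ᶠ n in atTop, P (ε / 8, 2 * n)
  have h1 : Tendsto (fun ε : ℝ => ε / 8) (𝓝[>] 0) (𝓝[>] 0) := by
    refine tendsto_nhdsWithin_iff.2 ⟨?_, ?_⟩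
    · have : Tendsto (fun ε : ℝ => ε / 8) (𝓝 0) (𝓝 (0 / 8)) := tendsto_id.div_const 8
      rw [zero_div] at this
      exact this.mono_left nhdsWithin_le_nhds
    · filter_upwards [self_mem_nhdsWithin] with ε hε
      have : (0 : ℝ) < ε := hε
      exact div_pos this (by norm_num)
  have h2 : Tendsto (fun n : ℕ => 2 * n) atTop atTop :=
    Filter.tendsto_atTop_mono (fun n => by show n ≤ 2 * n; omega) tendsto_id
  filter_upwards [h1.eventually hP'] with ε hε
  exact h2.eventually hε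

lemma LL_psi {x : ℝ × ℕ} (hx : 0 < x.1) : LL (psi x) = LL x + log 8 := by
  simp only [LL, psi]
  rw [← Real.log_mul (by positivity) (by norm_num)]
  congr 1
  field_simp

/-- Ratio of the sizes. -/
lemma tendsto_ratio : Tendsto (fun x => LL (psi x) / LL x) FF (𝓝 1) := by
  have h1 : Tendsto (fun x => 1 + log 8 / LL x) FF (𝓝 (1 + 0)) :=
    (tendsto_LL.const_div_atTop (log 8)).const_add 1
  rw [add_zero] at h1
  refine h1.congr' ?_
  have h2 : ∀ᶠ x in FF, 0 < x.1 := by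
    rw [ev_FF]
    filter_upwards [ev_eps one_pos] with ε hε
    exact Filter.Eventually.of_forall fun n => hε.1
  filter_upwards [h2, tendsto_LL.eventually_gt_atTop 0] with x hx hL
  rw [LL_psi hx, add_div, div_self hL.ne']

lemma transfer {f : ℝ × ℕ → ℝ} {a : ℝ} (h : Tendsto (fun x => f x / LL x) FF (𝓝 a)) :
    Tendsto (fun x => f (psi x) / LL x) FF (𝓝 a) := by
  have h1 : Tendsto (fun x => f (psi x) / LL (psi x) * (LL (psi x) / LL x)) FF (𝓝 (a * 1)) :=
    (h.comp tendsto_psi).mul tendsto_ratio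
  rw [mul_one] at h1
  refine h1.congr' ?_
  have h2 : ∀ᶠ x in FF, 0 < LL (psi x) := tendsto_psi.eventually (tendsto_LL.eventually_gt_atTop 0)
  filter_upwards [h2] with x hx
  field_simp

/-- The count of the statement. -/
noncomputable def Ne (x : ℝ × ℕ) (ω : Cfg) : ℕ := Nn (x.1 * x.2) x.2 ω

lemma sandwich (h2 : S_two) : ∀ᶠ x in FF, ∀ ω,
    NA x.1 1 x.2 ω ≤ Ne x ω ∧ Ne x ω ≤ NA (psi x).1 1 (psi x).2 ω := by
  rw [ev_FF]
  filter_upwards [ev_eps one_pos] with ε hε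
  filter_upwards [ev_large hε.1 4, eventually_ge_atTop 2] with n h1 h3
  intro ω
  have hn : (2 : ℝ) ≤ n := by exact_mod_cast h3
  constructor
  · refine Nn_mono h2 ?_ ?_ ω
    · show ε * n ≤ 2 * (ε * n) + 2
      nlinarith
    · show 1 * (n : ℝ) - 2 ≤ n
      linarith
  · refine Nn_mono h2 ?_ ?_ ω
    · show 2 * (ε / 8 * ((2 * n : ℕ) : ℝ)) + 2 ≤ ε * n
      push_cast
      nlinarith
    · show (n : ℝ) ≤ 1 * ((2 * n : ℕ) : ℝ) - 2
      push_cast
      linarith

lemma to_eps {f : ℝ × ℕ → ℝ} {a : ℝ} (h : Tendsto f FF (𝓝 a)) : ∀ η > 0, ∃ ε0 > 0, ∀ ε : ℝ,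
    0 < ε → ε ≤ ε0 → ∀ᶠ n : ℕ in atTop, |f (ε, n) - a| ≤ η := by
  intro η hη
  have h1 : ∀ᶠ x in FF, |f x - a| ≤ η := by
    filter_upwards [(Metric.tendsto_nhds.1 h) η hη] with x hx
    rw [Real.dist_eq] at hx
    exact hx.le
  rw [ev_FF, eventually_nhdsWithin_iff, Metric.eventually_nhds_iff] at h1
  obtain ⟨δ, hδ, h2⟩ := h1
  refine ⟨δ / 2, by linarith, fun ε h3 h4 => ?_⟩
  refine h2 ?_ h3
  rw [Real.dist_eq, sub_zero, abs_of_pos h3]
  linarith

lemma lam_le {N N' : Cfg → ℕ} (hN : AllExp N) (hN' : AllExp N') (h : ∀ ω, N ω ≤ N' ω) {u : ℝ}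
    (hu : 0 ≤ u) : lam N u ≤ lam N' u := by
  apply Real.log_le_log (integral_exp_pos (hN u))
  refine integral_mono (hN u) (hN' u) fun ω => Real.exp_le_exp.2 ?_
  exact mul_le_mul_of_nonneg_left (by exact_mod_cast h ω) hu

lemma lam_ge {N N' : Cfg → ℕ} (hN : AllExp N) (hN' : AllExp N') (h : ∀ ω, N ω ≤ N' ω) {u : ℝ}
    (hu : u ≤ 0) : lam N' u ≤ lam N u := by
  apply Real.log_le_log (integral_exp_pos (hN' u))
  refine integral_mono (hN' u) (hN u) fun ω => Real.exp_le_exp.2 ?_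
  exact mul_le_mul_of_nonpos_left (by exact_mod_cast h ω) hu

lemma allExp_Ne (H : Ctx Cm K κ m) (x : ℝ × ℕ) : AllExp (Ne x) := allExp_Nn H.two H.indep _ _

/-- Limit of the logarithmic generating function. -/
theorem lim_lam (H : Ctx Cm K κ m) {b : ℝ} (hb0 : -(π / 3) < b) (hb1 : b < π / 6) :
    Tendsto (fun x : ℝ × ℕ => lam (Ne x) (log (wf b)) / LL x) FF
        (𝓝 (-(cA * (b ^ 2 + 2 * (π / 3) * b)))) := by
  have h1 := (main_lim H).1 b hb0 hb1
  have h2 : Tendsto (fun x : ℝ × ℕ => lam (NA (psi x).1 1 (psi x).2) (log (wf b)) / LL x) FF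
        (𝓝 (-(cA * (b ^ 2 + 2 * (π / 3) * b)))) :=
    transfer (f := fun x : ℝ × ℕ => lam (NA x.1 1 x.2) (log (wf b))) h1
  have hs := sandwich H.two
  have hL := tendsto_LL.eventually_gt_atTop 0
  rcases le_total 0 (log (wf b)) with hu | hu
  · refine tendsto_of_tendsto_of_tendsto_of_le_of_le' h1 h2 ?_ ?_
    · filter_upwards [hs, hL] with x hx hl
      exact div_le_div_of_nonneg_right
        (lam_le (allExp_NA H _ _ _) (allExp_Ne H x) (fun ω => (hx ω).1) hu) hl.le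
    · filter_upwards [hs, hL] with x hx hl
      exact div_le_div_of_nonneg_right
        (lam_le (allExp_Ne H x) (allExp_NA H _ _ _) (fun ω => (hx ω).2) hu) hl.le
  · refine tendsto_of_tendsto_of_tendsto_of_le_of_le' h2 h1 ?_ ?_
    · filter_upwards [hs, hL] with x hx hl
      exact div_le_div_of_nonneg_right
        (lam_ge (allExp_Ne H x) (allExp_NA H _ _ _) (fun ω => (hx ω).2) hu) hl.le
    · filter_upwards [hs, hL] with x hx hl
      exact div_le_div_of_nonneg_right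
        (lam_ge (allExp_NA H _ _ _) (allExp_Ne H x) (fun ω => (hx ω).1) hu) hl.le

/-- Limit of the probability that there is no loop. -/
theorem lim_zero (H : Ctx Cm K κ m) :
    Tendsto (fun x : ℝ × ℕ => log (μ.real {ω | Ne x ω = 0}) / LL x) FF (𝓝 (-(5 / 48))) := by
  have h1 := (main_lim H).2
  have h2 := transfer (f := ZZ) h1
  have hs := sandwich H.two
  have hL := tendsto_LL.eventually_gt_atTop 0
  have hpos : ∀ᶠ x in FF, 0 < μ.real {ω | NA x.1 1 x.2 ω = 0} := by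
    obtain ⟨C, hC⟩ := two_up0 H (p := 2) (by norm_num)
    rw [ev_FF]
    filter_upwards [ev_eps (show (0 : ℝ) < 1 / 8 by norm_num)] with ε hε
    filter_upwards [hC ![ε, 1, 4] hε.1 (by show 4 * ε ≤ 1; linarith [hε.2])
      (by show 4 * (1 : ℝ) ≤ 4; norm_num)] with n hn
    exact hn.1
  have hpos2 := tendsto_psi.eventually hpos
  refine tendsto_of_tendsto_of_tendsto_of_le_of_le' h2 h1 ?_ ?_
  · filter_upwards [hs, hL, hpos2] with x hx hl hp
    refine div_le_div_of_nonneg_right (Real.log_le_log hp ?_) hl.le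
    refine measureReal_mono (fun ω hω => ?_) (measure_ne_top _ _)
    have h3 : NA (psi x).1 1 (psi x).2 ω = 0 := hω
    have h4 := (hx ω).2
    show Ne x ω = 0
    omega
  · filter_upwards [hs, hL, hpos2] with x hx hl hp
    have hp' : 0 < μ.real {ω | Ne x ω = 0} := by
      refine lt_of_lt_of_le hp (measureReal_mono (fun ω hω => ?_) (measure_ne_top _ _))
      have h3 : NA (psi x).1 1 (psi x).2 ω = 0 := hω
      have h4 := (hx ω).2
      show Ne x ω = 0
      omega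
    refine div_le_div_of_nonneg_right (Real.log_le_log hp' ?_) hl.le
    refine measureReal_mono (fun ω hω => ?_) (measure_ne_top _ _)
    have h3 : Ne x ω = 0 := hω
    have h4 := (hx ω).1
    show NA x.1 1 x.2 ω = 0
    omega

/-- Jensen. -/
lemma mean_le {N : Cfg → ℕ} (hN : AllExp N) (u : ℝ) : u * ∫ ω, (N ω : ℝ) ∂μ ≤ lam N u := by
  have hint : Integrable (fun ω => (N ω : ℝ)) μ := by
    refine (hN 1).mono' (aem_N hN).aestronglyMeasurable (Filter.Eventually.of_forall fun ω => ?_)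
    rw [Real.norm_eq_abs, abs_of_nonneg (Nat.cast_nonneg _), one_mul]
    linarith [Real.add_one_le_exp (N ω : ℝ)]
  set M : ℝ := ∫ ω, (N ω : ℝ) ∂μ with hM
  have h1 : ∀ ω, exp (u * M) * (1 + (u * N ω - u * M)) ≤ exp (u * N ω) := by
    intro ω
    have h2 := Real.add_one_le_exp (u * N ω - u * M)
    have h3 : exp (u * N ω) = exp (u * M) * exp (u * N ω - u * M) := by
      rw [← Real.exp_add]; congr 1; ring
    rw [h3]
    exact mul_le_mul_of_nonneg_left (by linarith) (Real.exp_pos _).le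
  have hi1 : Integrable (fun ω => u * (N ω : ℝ)) μ := hint.const_mul u
  have hi2 : Integrable (fun ω => u * (N ω : ℝ) - u * M) μ := hi1.sub (integrable_const _)
  have hi3 : Integrable (fun ω => 1 + (u * (N ω : ℝ) - u * M)) μ := (integrable_const _).add hi2
  have h4 := integral_mono (hi3.const_mul (exp (u * M))) (hN u) h1
  have e1 : ∫ ω, exp (u * M) * (1 + (u * (N ω : ℝ) - u * M)) ∂μ = exp (u * M) := by
    rw [integral_const_mul, integral_add (integrable_const _) hi2,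
      integral_sub hi1 (integrable_const _), integral_const_mul, ← hM]
    simp
  rw [e1] at h4
  have h5 := Real.log_le_log (Real.exp_pos _) h4
  rw [Real.log_exp] at h5
  exact h5

lemma wf_deriv : HasDerivAt (fun b => log (wf b)) (-√3) 0 := by
  have h1 : HasDerivAt (fun b : ℝ => π / 3 + b) 1 0 := by
    simpa using (hasDerivAt_id (0 : ℝ)).const_add (π / 3)
  have h2 : HasDerivAt (fun b : ℝ => Real.cos (π / 3 + b)) (-Real.sin (π / 3 + 0) * 1) 0 :=
    h1.cos
  have h3 : HasDerivAt wf (2 * (-Real.sin (π / 3 + 0) * 1)) 0 := h2.const_mul 2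
  have h4 := h3.log (by rw [wf_zero]; norm_num)
  rw [wf_zero] at h4
  convert h4 using 1
  rw [add_zero, Real.sin_pi_div_three]
  ring

lemma quad_deriv : HasDerivAt (fun b : ℝ => -(cA * (b ^ 2 + 2 * (π / 3) * b)))
    (-(cA * (2 * (π / 3)))) 0 := by
  have h1 : HasDerivAt (fun b : ℝ => b ^ 2 + 2 * (π / 3) * b) (2 * (π / 3)) 0 := by
    have h2 : HasDerivAt (fun b : ℝ => b ^ 2 + 2 * (π / 3) * b)
        (((2 : ℕ) : ℝ) * 0 ^ (2 - 1) + 2 * (π / 3) * 1) 0 :=
      (hasDerivAt_pow 2 (0 : ℝ)).fun_add ((hasDerivAt_id' (0 : ℝ)).const_mul (2 * (π / 3)))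
    exact h2.congr_deriv (by norm_num)
  exact (h1.const_mul cA).neg

lemma ratio_lim : Tendsto (fun b : ℝ => -(cA * (b ^ 2 + 2 * (π / 3) * b)) / log (wf b)) (𝓝[≠] 0)
    (𝓝 (1 / (2 * √3 * π))) := by
  have h1 := (hasDerivAt_iff_tendsto_slope.1 quad_deriv)
  have h2 := (hasDerivAt_iff_tendsto_slope.1 wf_deriv)
  have h3 := h1.div h2 (by
    have : (0 : ℝ) < √3 := Real.sqrt_pos.2 (by norm_num)
    linarith)
  have hpi := Real.pi_pos
  have e : -(cA * (2 * (π / 3))) / -√3 = 1 / (2 * √3 * π) := by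
    have : (0 : ℝ) < √3 := Real.sqrt_pos.2 (by norm_num)
    unfold cA
    field_simp
    norm_num
  rw [e] at h3
  refine h3.congr' ?_
  filter_upwards [self_mem_nhdsWithin] with b hb
  have hb' : b ≠ 0 := hb
  simp only [slope_def_field, Pi.div_apply]
  rw [wf_zero, Real.log_one]
  simp only [sub_zero]
  have : -(cA * ((0 : ℝ) ^ 2 + 2 * (π / 3) * 0)) = 0 := by ring
  rw [this, sub_zero]
  field_simp

/-- Limit of the mean number of loops. -/
theorem lim_mean (H : Ctx Cm K κ m) :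
    Tendsto (fun x : ℝ × ℕ => (∫ ω, (Ne x ω : ℝ) ∂μ) / LL x) FF (𝓝 (1 / (2 * √3 * π))) := by
  have hpi := Real.pi_pos
  have hL := tendsto_LL.eventually_gt_atTop 0
  rw [Metric.tendsto_nhds]
  intro η hη
  have hr := (Metric.tendsto_nhds.1 ratio_lim) (η / 2) (by linarith)
  rw [eventually_nhdsWithin_iff, Metric.eventually_nhds_iff] at hr
  obtain ⟨δ, hδ, hr⟩ := hr
  set β : ℝ := min (δ / 2) (π / 12) with hβ
  have hβ0 : 0 < β := lt_min (by linarith) (by linarith)
  have hβ1 : β < δ := lt_of_le_of_lt (min_le_left _ _) (by linarith)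
  have hβ2 : β < π / 6 := lt_of_le_of_lt (min_le_right _ _) (by linarith)
  -- positive charge
  have p1 : 0 < wf β := wf_pos' (by linarith) hβ2
  have hlogp : log (wf β) < 0 := by
    apply Real.log_neg p1
    unfold wf
    have := Real.cos_lt_cos_of_nonneg_of_le_pi (x := π / 3) (y := π / 3 + β) (by linarith)
      (by linarith) (by linarith)
    rw [Real.cos_pi_div_three] at this
    linarith
  have hlogn : 0 < log (wf (-β)) := by
    apply Real.log_pos
    unfold wf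
    have := Real.cos_lt_cos_of_nonneg_of_le_pi (x := π / 3 + -β) (y := π / 3) (by linarith)
      (by linarith) (by linarith)
    rw [Real.cos_pi_div_three] at this
    linarith
  have l1 := (lim_lam H (b := β) (by linarith) hβ2).div_const (log (wf β))
  have l2 := (lim_lam H (b := -β) (by linarith) (by linarith)).div_const (log (wf (-β)))
  have r1 := hr (y := β) (by rw [Real.dist_eq, sub_zero, abs_of_pos hβ0]; exact hβ1) hβ0.ne'
  have r2 := hr (y := -β) (by rw [Real.dist_eq, sub_zero, abs_neg, abs_of_pos hβ0]; exact hβ1)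
    (by simp; exact hβ0.ne')
  rw [Real.dist_eq] at r1 r2
  have e1 := (Metric.tendsto_nhds.1 l1) (η / 2) (by linarith)
  have e2 := (Metric.tendsto_nhds.1 l2) (η / 2) (by linarith)
  filter_upwards [e1, e2, hL] with x e1 e2 hl
  rw [Real.dist_eq] at e1 e2 ⊢
  have j1 := mean_le (allExp_Ne H x) (log (wf β))
  have j2 := mean_le (allExp_Ne H x) (log (wf (-β)))
  set M : ℝ := ∫ ω, (Ne x ω : ℝ) ∂μ with hM
  have k1 : lam (Ne x) (log (wf β)) / LL x / log (wf β) ≤ M / LL x := by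
    rw [div_right_comm]
    refine div_le_div_of_nonneg_right ?_ hl.le
    rw [div_le_iff_of_neg hlogp]
    linarith
  have k2 : M / LL x ≤ lam (Ne x) (log (wf (-β))) / LL x / log (wf (-β)) := by
    rw [div_right_comm]
    refine div_le_div_of_nonneg_right ?_ hl.le
    rw [le_div_iff₀ hlogn]
    linarith
  rw [abs_lt] at e1 e2 r1 r2 ⊢
  constructor <;> linarith

/-- The inputs from the interface statements. -/
theorem exists_ctx (hG : S_gauss) (hSm : S_small) (hL : S_large) (hup : S_cls_up)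
    (hlo : S_cls_lo) (hi : S_indep) (hr : S_ring) (hm : S_mom) (h2 : S_two) :
    ∃ Cm K κ m, Ctx Cm K κ m := by
  obtain ⟨Cm, K, m, hCm, hchg, hgauss⟩ := hG
  obtain ⟨κ, h0, h1, hs⟩ := hSm Cm 3 hCm (by norm_num)
  exact ⟨Cm, K, κ, m, ⟨h0, h1, hs, hL, hup, hlo, hi, hr, hm, h2, hchg, hgauss⟩⟩

/-- Block F. -/
theorem s_F (hG : S_gauss) (hSm : S_small) (hL : S_large) (hup : S_cls_up)
    (hlo : S_cls_lo) (hi : S_indep) (hr : S_ring) (hm : S_mom) (h2 : S_two) :
    S_F1 ∧ S_F2 ∧ S_F3 := by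
  obtain ⟨Cm, K, κ, m, H⟩ := exists_ctx hG hSm hL hup hlo hi hr hm h2
  have hpi := Real.pi_pos
  refine ⟨?_, ?_, ?_⟩
  · intro η hη
    obtain ⟨ε0, h0, h⟩ := to_eps (lim_zero H) η hη
    refine ⟨ε0, h0, fun ε h1 h2 => ?_⟩
    filter_upwards [h ε h1 h2] with n hn
    rw [sub_neg_eq_add] at hn
    exact hn
  · intro u hu0 hu1 η hη
    obtain ⟨ε0, h0, h⟩ := to_eps (lim_lam H (b := u - π / 3) (by linarith) (by linarith)) η hη
    refine ⟨ε0, h0, fun ε h1 h2 => ?_⟩
    filter_upwards [h ε h1 h2] with n hn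
    have e1 : wf (u - π / 3) = 2 * Real.cos u := by
      unfold wf; congr 2; ring
    have hc : 0 < 2 * Real.cos u := by
      have := Real.cos_pos_of_mem_Ioo (x := u) ⟨by linarith, hu1⟩
      linarith
    have e2 : lam (Ne (ε, n)) (log (wf (u - π / 3))) =
        Real.log (∫ ω, (2 * Real.cos u) ^ (Nn (ε * n) n ω) ∂μ) := by
      unfold lam
      congr 2
      ext ω
      rw [e1, mul_comm, Real.exp_nat_mul, Real.exp_log hc]
      rfl
    have e3 : -(cA * ((u - π / 3) ^ 2 + 2 * (π / 3) * (u - π / 3))) =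
        cA * (π ^ 2 / 9 - u ^ 2) := by ring
    rw [e2, e3] at hn
    exact hn
  · intro η hη
    obtain ⟨ε0, h0, h⟩ := to_eps (lim_mean H) η hη
    refine ⟨ε0, h0, fun ε h1 h2 => ?_⟩
    filter_upwards [h ε h1 h2] with n hn
    exact hn

end Vale.Agent.P167.H562
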