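import Vale.Agent.P167.H562.FFin

/-!
# P167, block F: application of the extraction lemma
-/

open MeasureTheory ProbabilityTheory Real Finset Filter Topology
open scoped ENNReal

namespace Vale.Agent.P167.H562

variable {Cm K κ : ℝ} {m : ℝ → ℕ → ℤ × ℤ → ℝ}

lemma le_or_of_exp {a x y z δ p c0 : ℝ}
    (h : ENNReal.ofReal (exp a) ≤ ENNReal.ofReal (exp x) +
      ENNReal.ofReal (exp y) * (ENNReal.ofReal (exp δ)) ^ (1 / p))
    (hx : x + log 2 ≤ z) (hy : y + δ / p + log 2 ≤ c0) : a ≤ z ∨ a ≤ c0 := by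
  rw [ENNReal.ofReal_rpow_of_pos (Real.exp_pos _), ← Real.exp_mul,
    ← ENNReal.ofReal_mul (Real.exp_pos _).le, ← Real.exp_add,
    ← ENNReal.ofReal_add (Real.exp_pos _).le (Real.exp_pos _).le] at h
  have h1 := (ENNReal.ofReal_le_ofReal_iff (by positivity)).1 h
  rw [mul_one_div] at h1
  by_contra hcon
  push Not at hcon
  obtain ⟨h2, h3⟩ := hcon
  have h4 : exp x ≤ exp (z - log 2) := Real.exp_le_exp.2 (by linarith)
  have h5 : exp (y + δ / p) ≤ exp (c0 - log 2) := Real.exp_le_exp.2 (by linarith)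
  rw [Real.exp_sub, Real.exp_log two_pos] at h4 h5
  have h6 := Real.exp_lt_exp.2 h2
  have h7 := Real.exp_lt_exp.2 h3
  linarith

/-- The result of block F along the filter `FF`. -/
theorem main_lim (H : Ctx Cm K κ m) :
    (∀ b, -(π / 3) < b → b < π / 6 →
      Tendsto (fun x : ℝ × ℕ => lam (NA x.1 1 x.2) (log (wf b)) / LL x) FF
        (𝓝 (-(cA * (b ^ 2 + 2 * (π / 3) * b))))) ∧
    Tendsto (fun x => ZZ x / LL x) FF (𝓝 (-(5 / 48))) := by
  have hpi := Real.pi_pos
  have hpi2 := Real.pi_lt_four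
  obtain ⟨cr, Cr, hcr, hCr, hring⟩ := ring_bound H
  -- the radii
  have rad1 : ∀ ε : ℝ, 0 < ε → ε < 1 / 8 → 0 < (![ε, 1, 4] : Fin 3 → ℝ) 0 ∧
      4 * (![ε, 1, 4] : Fin 3 → ℝ) 0 ≤ (![ε, 1, 4] : Fin 3 → ℝ) 1 ∧
      4 * (![ε, 1, 4] : Fin 3 → ℝ) 1 ≤ (![ε, 1, 4] : Fin 3 → ℝ) 2 := by
    intro ε h0 h1
    refine ⟨h0, ?_, ?_⟩
    · show 4 * ε ≤ 1
      linarith
    · show 4 * (1 : ℝ) ≤ 4
      norm_num
  have inv8 : ∀ ε : ℝ, 0 < ε → ε < 1 / 8 → 8 < 1 / ε := by
    intro ε h0 h1
    rw [lt_div_iff₀ h0]; linarith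
  have rad2 : ∀ ε : ℝ, 0 < ε → ε < 1 / 8 → 0 < (![1, 1 / ε, 4 / ε] : Fin 3 → ℝ) 0 ∧
      4 * (![1, 1 / ε, 4 / ε] : Fin 3 → ℝ) 0 ≤ (![1, 1 / ε, 4 / ε] : Fin 3 → ℝ) 1 ∧
      4 * (![1, 1 / ε, 4 / ε] : Fin 3 → ℝ) 1 ≤ (![1, 1 / ε, 4 / ε] : Fin 3 → ℝ) 2 := by
    intro ε h0 h1
    have := inv8 ε h0 h1
    refine ⟨one_pos, ?_, ?_⟩
    · show 4 * (1 : ℝ) ≤ 1 / ε
      linarith
    · show 4 * (1 / ε) ≤ 4 / ε
      rw [mul_one_div]
  have rad3 : ∀ ε : ℝ, 0 < ε → ε < 1 / 8 → 0 < (![ε, 1, 1 / ε] : Fin 3 → ℝ) 0 ∧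
      4 * (![ε, 1, 1 / ε] : Fin 3 → ℝ) 0 ≤ (![ε, 1, 1 / ε] : Fin 3 → ℝ) 1 ∧
      4 * (![ε, 1, 1 / ε] : Fin 3 → ℝ) 1 ≤ (![ε, 1, 1 / ε] : Fin 3 → ℝ) 2 := by
    intro ε h0 h1
    have := inv8 ε h0 h1
    refine ⟨h0, ?_, ?_⟩
    · show 4 * ε ≤ 1
      linarith
    · show 4 * (1 : ℝ) ≤ 1 / ε
      linarith
  have h18 : (0 : ℝ) < 1 / 8 := by norm_num
  have hwt : ∀ t, wt (π / 3) t = wf t := fun t => (wf_wt t).symm
  have key := fabs (F := FF) (L := LL) tendsto_LL (μ := π / 3) (A := cA) (by linarith) (by linarith)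
    (m := 2) two_pos (Λ := Lam) (Z := ZZ) (D := DD κ m) (c := cr / 2) (by linarith)
    (by
      intro k _
      refine Filter.Eventually.of_forall fun x => ?_
      unfold Lam
      split_ifs
      · exact lam_convex (allExp_NA H _ _ _)
      · exact lam_convex (allExp_NA H _ _ _))
    (by
      intro k _
      refine Filter.Eventually.of_forall fun x => ?_
      unfold Lam
      split_ifs
      · exact lam_zero _
      · exact lam_zero _)
    (by
      intro k _
      refine Filter.Eventually.of_forall fun x => ?_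
      unfold Lam
      split_ifs
      · exact lam_mono (allExp_NA H _ _ _)
      · exact lam_mono (allExp_NA H _ _ _))
    (by
      intro u
      obtain ⟨C, hC⟩ := two_up0 H (p := 2) (by norm_num)
      rw [ev_FF]
      filter_upwards [ev_eps h18] with ε hε
      obtain ⟨a1, a2, a3⟩ := rad1 ε hε.1 hε.2
      filter_upwards [hC _ a1 a2 a3] with n hn
      have hpos : 0 < μ.real {ω | NA ε 1 n ω = 0} := hn.1
      show log (μ.real {ω | NA ε 1 n ω = 0}) ≤ Lam 0 (ε, n) u
      unfold Lam lam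
      simp only [if_true]
      apply Real.log_le_log hpos
      have hA := allExp_NA H ε 1 n u
      have hs : MeasurableSet {ω | NA ε 1 n ω = 0} :=
        meas_NA H ε 1 n (measurableSet_singleton 0)
      have e1 : μ.real {ω | NA ε 1 n ω = 0} =
          ∫ ω, ({ω | NA ε 1 n ω = 0} : Set Cfg).indicator (fun _ => (1 : ℝ)) ω ∂μ := by
        rw [integral_indicator_const _ hs]; simp
      rw [e1]
      refine integral_mono ((integrable_const 1).indicator hs) hA fun ω => ?_
      by_cases h : NA ε 1 n ω = 0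
      · rw [Set.indicator_of_mem (by exact h)]
        simp [h]
      · rw [Set.indicator_of_notMem (by exact h)]
        exact (Real.exp_pos _).le)
    (by
      intro k _ u
      obtain ⟨C, hC0, hC⟩ := mom_bound H u
      refine ⟨C, ?_⟩
      rw [ev_FF]
      filter_upwards [ev_eps h18] with ε hε
      have h8 := inv8 ε hε.1 hε.2
      filter_upwards [hC ε 1 hε.1 (by linarith [hε.2]), hC 1 (1 / ε) one_pos (by linarith)]
        with n h1 h2
      unfold Lam LL
      split_ifs
      · exact h1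
      · rw [div_one] at h2; exact h2)
    (by
      intro k hk b p hb0 hb1 hp _
      obtain ⟨C, hC⟩ := two_up' H (b := b) (p := p) hb0 (by linarith) hp
      refine ⟨C, ?_⟩
      rw [ev_FF]
      filter_upwards [ev_eps h18] with ε hε
      obtain ⟨a1, a2, a3⟩ := rad1 ε hε.1 hε.2
      obtain ⟨a4, a5, a6⟩ := rad2 ε hε.1 hε.2
      filter_upwards [hC _ a1 a2 a3, hC _ a4 a5 a6] with n h1 h2
      rw [hwt]
      unfold Lam DD LL
      split_ifs
      · exact h1
      · have h2' : -(cA * b ^ 2 * log (1 / ε / 1)) - C ≤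
          b * (√3 * (nf κ m (1 / ε) n - nf κ m 1 n)) + lam (NA 1 (1 / ε) n) (p * log (wf b)) / p := h2
        rw [div_one] at h2'
        exact h2')
    (by
      intro p hp _
      obtain ⟨C, hC⟩ := two_up0 H (p := p) hp
      refine ⟨C, ?_⟩
      rw [ev_FF]
      filter_upwards [ev_eps h18] with ε hε
      obtain ⟨a1, a2, a3⟩ := rad1 ε hε.1 hε.2
      filter_upwards [hC _ a1 a2 a3] with n h1
      have e : π / 2 - π / 3 = π / 6 := by ring
      rw [e]
      unfold DD LL ZZ
      simp only [if_true]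
      exact h1.2)
    (by
      intro b p hb0 hb1 hp _
      obtain ⟨C, hC⟩ := two_lo H (b := b) (p := p) hb0 (by linarith) hp
      refine ⟨C, ?_⟩
      rw [ev_FF]
      filter_upwards [ev_eps h18] with ε hε
      obtain ⟨a1, a2, a3⟩ := rad1 ε hε.1 hε.2
      filter_upwards [hC _ a1 a2 a3] with n h1
      rw [hwt]
      unfold Lam DD LL
      simp only [if_true]
      exact h1)
    (by
      intro b p hb0 hb1 hp hp2
      have hp0 : 0 < p := by linarith
      obtain ⟨C, hC⟩ := three_lo H (b := b) (p := p) hb0 hb1 hp hp2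
      refine ⟨|C| + log 2 + |log Cr|, ?_⟩
      have hlog2 : 0 < log 2 := Real.log_pos (by norm_num)
      rw [ev_FF]
      -- smallness of `ε`
      have hsm : ∀ᶠ ε in 𝓝[>] (0 : ℝ), Cr * (ε / 1) ^ cr ≤ 1 / 2 := by
        have h1 : Tendsto (fun ε : ℝ => Cr * (ε / 1) ^ cr) (𝓝[>] 0) (𝓝 (Cr * 0)) := by
          refine Tendsto.const_mul _ ?_
          have h2 : Tendsto (fun ε : ℝ => ε ^ cr) (𝓝[>] 0) (𝓝 (0 ^ cr)) :=
            ((Real.continuous_rpow_const hcr.le).tendsto 0).mono_left nhdsWithin_le_nhds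
          rw [Real.zero_rpow hcr.ne'] at h2
          simpa using h2
        rw [mul_zero] at h1
        filter_upwards [h1.eventually (gt_mem_nhds (show (0 : ℝ) < 1 / 2 by norm_num))] with ε hε
        exact hε.le
      filter_upwards [ev_eps h18, hsm] with ε hε hε2
      have h8 := inv8 ε hε.1 hε.2
      obtain ⟨a1, a2, a3⟩ := rad3 ε hε.1 hε.2
      filter_upwards [hC _ a1 a2 a3, hring 1 (1 / ε) one_pos (by linarith)] with n h1 h2
      have h2' : μ.real {ω | NA 1 (1 / ε) n ω = 0} ≤ Cr * ε ^ cr := by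
        rw [show (1 : ℝ) / (1 / ε) = ε by field_simp] at h2; exact h2
      have hε1 : 0 < ε := hε.1
      have hδ : μ {ω | NA 1 (1 / ε) n ω = 0} ≤ ENNReal.ofReal (exp (log Cr + cr * log ε)) := by
        rw [← ofReal_measureReal]
        apply ENNReal.ofReal_le_ofReal
        refine h2'.trans (le_of_eq ?_)
        rw [Real.exp_add, Real.exp_log hCr, mul_comm cr, ← Real.rpow_def_of_pos hε1]
      have hhalf : μ {ω | NA ((![ε, 1, 1 / ε] : Fin 3 → ℝ) 1) ((![ε, 1, 1 / ε] : Fin 3 → ℝ) 2) n ω =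
          0} ≤ 1 / 2 := by
        show μ {ω | NA 1 (1 / ε) n ω = 0} ≤ 1 / 2
        rw [← ofReal_measureReal]
        have : (1 / 2 : ℝ≥0∞) = ENNReal.ofReal (1 / 2) := by
          rw [ENNReal.ofReal_div_of_pos two_pos]; simp
        rw [this]
        apply ENNReal.ofReal_le_ofReal
        rw [div_one] at hε2
        exact h2'.trans hε2
      have h3 := h1 hhalf
      have hLL : log (1 / ε) = -log ε := by rw [one_div, Real.log_inv]
      have e1 : log ((![ε, 1, 1 / ε] : Fin 3 → ℝ) 1 / (![ε, 1, 1 / ε] : Fin 3 → ℝ) 0) =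
        log (1 / ε) := rfl
      have e2 : log ((![ε, 1, 1 / ε] : Fin 3 → ℝ) 2 / (![ε, 1, 1 / ε] : Fin 3 → ℝ) 1) =
        log (1 / ε) := by
        show log (1 / ε / 1) = log (1 / ε)
        rw [div_one]
      rw [e1, e2] at h3
      have h4 := h3.trans (add_le_add_right (mul_le_mul_right
        (ENNReal.rpow_le_rpow hδ (by positivity : (0 : ℝ) ≤ 1 / p)) _) _)
      have hlogε : log ε < 0 := Real.log_neg hε1 (by linarith [hε.2])
      have h5 := le_or_of_exp h4
        (z := -((cA * (b ^ 2 + (b / 2) ^ 2)) * log (1 / ε)) + (|C| + log 2 + |log Cr|))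
        (c0 := b * (√3 * (nf κ m 1 n - nf κ m ε n)) + b / 2 * (√3 * (nf κ m (1 / ε) n - nf κ m 1 n)) -
          cr / 2 * log (1 / ε) + (|C| + log 2 + |log Cr|) +
          lam (NA ε 1 n) (p * log (wf b)) / p)
        (by
          have := le_abs_self C
          have := abs_nonneg (log Cr)
          nlinarith)
        (by
          have g1 := le_abs_self C
          have g2 : (log Cr + cr * log ε) / p ≤ |log Cr| - cr / 2 * log (1 / ε) := by
            rw [div_le_iff₀ hp0, hLL]
            have g3 := le_abs_self (log Cr)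
            have g4 := abs_nonneg (log Cr)
            have g5 : 0 < -(cr * log ε) := by nlinarith
            have g6 : cr * log ε ≤ -(cr / 2 * -log ε) * p := by nlinarith
            nlinarith
          show b * (√3 * (nf κ m 1 n - nf κ m ε n)) + b / 2 * (√3 * (nf κ m (1 / ε) n - nf κ m 1 n)) +
            C + lam (NA ε 1 n) (p * log (wf b)) / p + (log Cr + cr * log ε) / p + log 2 ≤ _
          linarith)
      have hb1' : bt b 2 1 = b / 2 := by unfold bt; push_cast; ring
      have er : (range 2).erase 1 = {0} := by decide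
      rcases h5 with h5 | h5
      · left
        rw [Finset.sum_range_succ, Finset.sum_range_one, Finset.sum_range_succ,
          Finset.sum_range_one, bt_zero, hb1', hwt, hwt]
        unfold Lam DD LL
        simp only [if_true, one_ne_zero, if_false]
        refine le_trans (le_of_eq ?_) h5
        show _ = b * (√3 * (nf κ m 1 n - nf κ m ε n)) +
          b / 2 * (√3 * (nf κ m (1 / ε) n - nf κ m 1 n)) +
          p * lam (NA ε 1 n) (log (wf b) / p) + p * lam (NA 1 (1 / ε) n) (log (wf (b / 2)) / p)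
        ring
      · right
        refine ⟨1, by norm_num, ?_⟩
        rw [er, Finset.sum_singleton, Finset.sum_range_succ, Finset.sum_range_one,
          Finset.sum_range_succ, Finset.sum_range_one, bt_zero, hb1', hwt, hwt]
        unfold Lam DD LL
        simp only [if_true, one_ne_zero, if_false]
        refine le_trans (le_of_eq ?_) h5
        show _ = b * (√3 * (nf κ m 1 n - nf κ m ε n)) +
          b / 2 * (√3 * (nf κ m (1 / ε) n - nf κ m 1 n)) +
          p * lam (NA ε 1 n) (log (wf b) / p) + p * lam (NA 1 (1 / ε) n) (log (wf (b / 2)) / p)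
        ring)
  obtain ⟨_, k2, k3⟩ := key
  refine ⟨?_, ?_⟩
  · intro b hb0 hb1
    have := k2 b hb0 (by linarith)
    rw [hwt] at this
    exact this
  · have e : -(cA * (π ^ 2 / 4 - (π / 3) ^ 2)) = -(5 / 48) := by
      unfold cA
      field_simp
      ring
    rw [e] at k3
    exact k3

end Vale.Agent.P167.H562
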