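import Vale.Agent.P167.H562.GNu

/-!
# P167, general `q`: means under the conditioned measures
-/

namespace Vale.Agent.P167.H562.GL

open Finset Filter Topology MeasureTheory Vale.Agent.P167.FK Vale.Agent.P167.FKA
open Vale.Agent.P167.H519 (IsLim loc_cont Bq_mono exists_Bq)
open Vale.Agent.P167.H259 (f_markov f_fkg f_comp)

variable {Q : ℝ} {P : Measure Cfg}

/-- Mixing for `P`. -/
theorem lim_mix (hQ : 1 ≤ Q) {α C : ℝ} (hA : ArmDec Q α C) (hP : IsLim Q P) {x : ℤ × ℤ} {r R : ℤ}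
    (hr : 1 ≤ r) (hrR : r ≤ R) {V : Finset (ℤ × ℤ)} (hV : V ⊆ Bq x r) {F : Cfg → ℝ}
    (hF0 : ∀ ω, 0 ≤ F ω) (hF1 : ∀ ω, F ω ≤ 1) (hL : Loc V F) {B : Finset (ℤ × ℤ)} {G : Cfg → ℝ}
    (hG0 : ∀ ω, 0 ≤ G ω) (hG : Loc B G) (hI : Ind (Bq x R) G) :
    |∫ ω, G ω * F ω ∂P - Ex Q (Bq x R) eta1 F * ∫ ω, G ω ∂P| ≤
      C * ((r : ℝ) / R) ^ α * ∫ ω, G ω ∂P := by
  have hQ0 : 0 < Q := by linarith
  set c := Ex Q (Bq x R) eta1 F with hc
  set δ := C * ((r : ℝ) / R) ^ α with hδ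
  have hGF : Loc (B ∪ V) (fun ω => G ω * F ω) := Loc.mulU hG hL
  have h1 : ∫ ω, G ω * F ω ∂P ≤ (c + δ) * ∫ ω, G ω ∂P := by
    refine lim_le hP hGF hG (D0 := Bq x R) fun D hD => ?_
    rw [markov f_markov hQ0 hD f_good.2.1 hI, ← Ex_mul_left]
    refine Ex_mono hQ0 fun S _ => ?_
    rw [mul_comm (c + δ)]
    refine mul_le_mul_of_nonneg_left ?_ (hG0 _)
    have := tv_box hQ hA hr hrR hV hF0 hF1 hL (f_good.1 D eta0 S f_good.2.1)
    rw [abs_le] at this
    linarith [this.2]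
  have h2 : ∫ ω, -(G ω * F ω) ∂P ≤ (-(c - δ)) * ∫ ω, G ω ∂P := by
    refine lim_le hP (A := B ∪ V) (fun ω ω' hw => ?_) hG (D0 := Bq x R) fun D hD => ?_
    · exact congrArg Neg.neg (hGF ω ω' hw)
    · rw [Ex_neg, markov f_markov hQ0 hD f_good.2.1 hI, neg_mul, neg_le_neg_iff, ← Ex_mul_left]
      refine Ex_mono hQ0 fun S _ => ?_
      rw [mul_comm (c - δ)]
      refine mul_le_mul_of_nonneg_left ?_ (hG0 _)
      have := tv_box hQ hA hr hrR hV hF0 hF1 hL (f_good.1 D eta0 S f_good.2.1)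
      rw [abs_le] at this
      linarith [this.1]
  rw [integral_neg] at h2
  rw [abs_le]
  constructor <;> nlinarith

/-- Mixing for the conditioned measures. -/
theorem nu_mix (hQ : 1 ≤ Q) {α C : ℝ} (hA : ArmDec Q α C) (hP : IsLim Q P) {x : ℤ × ℤ} {r R : ℤ}
    (hr : 1 ≤ r) (hrR : r ≤ R) {U : Finset (ℤ × ℤ)} (hU : Bq x R ⊆ U) {ν : Measure Cfg}
    (hν : Nu P ν U) {V : Finset (ℤ × ℤ)} (hV : V ⊆ Bq x r) {F : Cfg → ℝ}
    (hF0 : ∀ ω, 0 ≤ F ω) (hF1 : ∀ ω, F ω ≤ 1) (hL : Loc V F) :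
    |∫ ω, F ω ∂ν - ∫ ω, F ω ∂P| ≤ 2 * (C * ((r : ℝ) / R) ^ α) := by
  have hPp : IsProbabilityMeasure P := hP.1
  obtain ⟨G, B, hG0, hG, hI, hpos, hν⟩ := hν.ex
  have h1 := lim_mix hQ hA hP hr hrR hV hF0 hF1 hL hG0 hG (hI.mono hU)
  have h2 := lim_mix hQ hA hP hr hrR hV hF0 hF1 hL (G := fun _ => 1) (B := ∅)
    (fun _ => zero_le_one) (fun _ _ _ => rfl) (fun _ _ _ => rfl)
  simp only [one_mul, integral_const, probReal_univ, smul_eq_mul, mul_one] at h2
  rw [hν F V hL]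
  have h3 : |(∫ ω, G ω * F ω ∂P) / ∫ ω, G ω ∂P - Ex Q (Bq x R) eta1 F| ≤
      C * ((r : ℝ) / R) ^ α := by
    have e : (∫ ω, G ω * F ω ∂P) / ∫ ω, G ω ∂P - Ex Q (Bq x R) eta1 F =
        (∫ ω, G ω * F ω ∂P - Ex Q (Bq x R) eta1 F * ∫ ω, G ω ∂P) / ∫ ω, G ω ∂P := by
      field_simp
    rw [e, abs_div, abs_of_pos hpos, div_le_iff₀ hpos]
    exact h1
  rw [abs_le] at h2 h3 ⊢
  constructor <;> linarith [h2.1, h2.2, h3.1, h3.2]

theorem sq_le_exp {x : ℝ} (hx : 0 ≤ x) : x ^ 2 ≤ 2 * Real.exp x := by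
  have := Real.quadratic_le_exp_of_nonneg hx
  nlinarith

theorem int_sq_le {ν : Measure Cfg} {K : Cfg → ℝ} (hK : Measurable K)
    (hK0 : ∀ ω, 0 ≤ K ω) {M : ℝ} (hM : 0 ≤ M) (h : Em ν K ≤ ENNReal.ofReal M) :
    Integrable (fun ω => K ω ^ 2) ν ∧ ∫ ω, K ω ^ 2 ∂ν ≤ 2 * M := by
  have hi := integrable_exp_of_Em hK h
  have h1 : ∀ ω, K ω ^ 2 ≤ 2 * Real.exp (K ω) := fun ω => sq_le_exp (hK0 ω)
  have h2 : Integrable (fun ω => K ω ^ 2) ν :=
    (hi.const_mul 2).mono' (hK.pow_const 2).aestronglyMeasurable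
      (Eventually.of_forall fun ω => by
        rw [Real.norm_eq_abs, abs_of_nonneg (sq_nonneg _)]; exact h1 ω)
  refine ⟨h2, ?_⟩
  have h3 := integral_mono h2 (hi.const_mul 2) h1
  rw [integral_const_mul] at h3
  rw [Em_eq hi, ENNReal.ofReal_le_ofReal_iff hM] at h
  linarith

/-- Bias of an unbounded local variable. -/
theorem bias {ν : Measure Cfg} [IsProbabilityMeasure P] [IsProbabilityMeasure ν]
    {V : Finset (ℤ × ℤ)} {X K : Cfg → ℝ} (hX : Loc V X) (hK : Measurable K) (hK0 : ∀ ω, 0 ≤ K ω)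
    {a M ε : ℝ} (ha : 0 < a) (hM : 0 ≤ M) (hε : 0 < ε) (hXK : ∀ ω, |X ω| ≤ a * K ω)
    (h1 : Em ν K ≤ ENNReal.ofReal M) (h2 : Em P K ≤ ENNReal.ofReal M)
    (hmix : ∀ F : Cfg → ℝ, (∀ ω, 0 ≤ F ω) → (∀ ω, F ω ≤ 1) → Loc V F →
      |∫ ω, F ω ∂ν - ∫ ω, F ω ∂P| ≤ ε ^ 2) :
    |∫ ω, X ω ∂ν - ∫ ω, X ω ∂P| ≤ a * ε * (2 + 4 * M) := by
  set N : ℝ := 1 / ε with hN
  have hN0 : 0 < N := by positivity
  have haN : 0 < a * N := by positivity
  set XN : Cfg → ℝ := fun ω => max (-(a * N)) (min (a * N) (X ω)) with hXN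
  set F : Cfg → ℝ := fun ω => (XN ω + a * N) / (2 * (a * N)) with hF
  have hXNl : Loc V XN := fun ω ω' hw => by simp only [hXN]; rw [hX ω ω' hw]
  have hFl : Loc V F := fun ω ω' hw => by simp only [hF]; rw [hXNl ω ω' hw]
  have hb1 : ∀ ω, -(a * N) ≤ XN ω := fun ω => le_max_left _ _
  have hb2 : ∀ ω, XN ω ≤ a * N := fun ω => max_le (by linarith) (min_le_left _ _)
  have h3 := hmix F (fun ω => div_nonneg (by linarith [hb1 ω]) (by positivity))
    (fun ω => by rw [div_le_one (by positivity)]; linarith [hb2 ω]) hFl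
  -- truncated part
  have e1 : ∀ (η : Measure Cfg) [IsProbabilityMeasure η],
      ∫ ω, XN ω ∂η = 2 * (a * N) * ∫ ω, F ω ∂η - a * N := by
    intro η _
    have hFi : Integrable F η := loc_integrable hFl
    have e2 : ∀ ω, XN ω = 2 * (a * N) * F ω - a * N := fun ω => by
      simp only [hF]; field_simp; ring
    simp only [e2]
    rw [integral_sub (hFi.const_mul _) (integrable_const _), integral_const_mul, integral_const]
    simp
  have h4 : |∫ ω, XN ω ∂ν - ∫ ω, XN ω ∂P| ≤ 2 * (a * ε) := by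
    rw [e1 ν, e1 P]
    have e3 : 2 * (a * N) * ∫ ω, F ω ∂ν - a * N - (2 * (a * N) * ∫ ω, F ω ∂P - a * N) =
        2 * (a * N) * (∫ ω, F ω ∂ν - ∫ ω, F ω ∂P) := by ring
    rw [e3, abs_mul, abs_of_pos (by positivity : 0 < 2 * (a * N))]
    calc 2 * (a * N) * |∫ ω, F ω ∂ν - ∫ ω, F ω ∂P| ≤ 2 * (a * N) * ε ^ 2 :=
          mul_le_mul_of_nonneg_left h3 (by positivity)
      _ = 2 * (a * ε) := by rw [hN]; field_simp
  -- the rest
  have hpt : ∀ ω, |X ω - XN ω| ≤ a * ε * K ω ^ 2 := by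
    intro ω
    have hk := hXK ω
    by_cases hle : |X ω| ≤ a * N
    · have : XN ω = X ω := by
        rw [abs_le] at hle
        simp only [hXN]
        rw [min_eq_right hle.2, max_eq_right hle.1]
      rw [this, sub_self, abs_zero]
      positivity
    · push Not at hle
      have h5 : |X ω - XN ω| ≤ |X ω| := by
        rcases le_total 0 (X ω) with h | h
        · rw [abs_of_nonneg h] at hle
          have : XN ω = a * N := by
            simp only [hXN]
            rw [min_eq_left hle.le, max_eq_right (by linarith)]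
          rw [this, abs_of_nonneg (by linarith), abs_of_nonneg h]
          linarith
        · rw [abs_of_nonpos h] at hle
          have : XN ω = -(a * N) := by
            simp only [hXN]
            rw [min_eq_right (by linarith), max_eq_left (by linarith)]
          rw [this, abs_of_nonpos (by linarith), abs_of_nonpos h]
          linarith
      have h6 : N < K ω := by
        have : a * N < a * K ω := hle.trans_le hk
        exact lt_of_mul_lt_mul_left this ha.le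
      have h7 : K ω ≤ ε * K ω ^ 2 := by
        have h8 : 1 ≤ ε * K ω := by
          rw [hN, div_lt_iff₀ hε] at h6
          linarith
        nlinarith [hK0 ω]
      calc |X ω - XN ω| ≤ |X ω| := h5
        _ ≤ a * K ω := hk
        _ ≤ a * (ε * K ω ^ 2) := mul_le_mul_of_nonneg_left h7 ha.le
        _ = _ := by ring
  have h5 : ∀ (η : Measure Cfg) [IsProbabilityMeasure η], Em η K ≤ ENNReal.ofReal M →
      |∫ ω, X ω ∂η - ∫ ω, XN ω ∂η| ≤ 2 * (a * ε) * M := by
    intro η _ hη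
    obtain ⟨g1, g2⟩ := int_sq_le hK hK0 hM hη
    have hXi : Integrable X η := loc_integrable hX
    have hXNi : Integrable XN η := loc_integrable hXNl
    rw [← integral_sub hXi hXNi]
    calc |∫ ω, (X ω - XN ω) ∂η| ≤ ∫ ω, |X ω - XN ω| ∂η := abs_integral_le_integral_abs
      _ ≤ ∫ ω, a * ε * K ω ^ 2 ∂η :=
          integral_mono (hXi.sub hXNi).abs (g1.const_mul _) hpt
      _ = a * ε * ∫ ω, K ω ^ 2 ∂η := integral_const_mul _ _
      _ ≤ a * ε * (2 * M) := mul_le_mul_of_nonneg_left g2 (by positivity)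
      _ = _ := by ring
  have k1 := h5 ν h1
  have k2 := h5 P h2
  have e : ∫ ω, X ω ∂ν - ∫ ω, X ω ∂P = (∫ ω, X ω ∂ν - ∫ ω, XN ω ∂ν) +
      (∫ ω, XN ω ∂ν - ∫ ω, XN ω ∂P) + (-(∫ ω, X ω ∂P - ∫ ω, XN ω ∂P)) := by ring
  rw [e]
  refine (abs_add_three _ _ _).trans ?_
  rw [abs_neg]
  linarith

/-- Iteration over disjoint regions. -/
theorem prod_nu [IsProbabilityMeasure P] {ι : Type*} [DecidableEq ι] {Y : ι → Cfg → ℝ}
    {A U : ι → Finset (ℤ × ℤ)} {β : ℝ} (J : Finset ι) (hL : ∀ i ∈ J, Loc (A i) (Y i))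
    (hd : ∀ i ∈ J, ∀ j ∈ J, i ≠ j → Disjoint (A i) (U j))
    (hE : ∀ i ∈ J, ∀ ν, Nu P ν (U i) → Em ν (Y i) ≤ ENNReal.ofReal (Real.exp β)) :
    Em P (fun ω => ∑ i ∈ J, Y i ω) ≤ ENNReal.ofReal (Real.exp (J.card * β)) := by
  induction J using Finset.induction_on with
  | empty => unfold Em; simp
  | insert i J hi ih =>
    have h1 := ih (fun j hj => hL j (Finset.mem_insert_of_mem hj))
      (fun i hi j hj => hd i (Finset.mem_insert_of_mem hi) j (Finset.mem_insert_of_mem hj))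
      (fun j hj => hE j (Finset.mem_insert_of_mem hj))
    set G : Cfg → ℝ := fun ω => Real.exp (∑ j ∈ J, Y j ω) with hG
    have hGl : Loc (J.biUnion A) G := by
      intro ω ω' hw
      simp only [hG]
      congr 1
      refine Finset.sum_congr rfl fun j hj => ?_
      exact hL j (Finset.mem_insert_of_mem hj) ω ω' fun v hv =>
        hw v (Finset.mem_biUnion.2 ⟨j, hj, hv⟩)
    have hGI : Ind (U i) G := by
      refine Loc.ind ?_ hGl
      rw [Finset.disjoint_biUnion_left]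
      intro j hj
      exact hd j (Finset.mem_insert_of_mem hj) i (Finset.mem_insert_self _ _)
        (fun h => hi (h ▸ hj))
    have hGi : Integrable G P := loc_integrable hGl
    have hGpos : 0 < ∫ ω, G ω ∂P := integral_exp_pos hGi
    obtain ⟨ν, hν, hν2⟩ := exists_nu (fun ω => (Real.exp_pos _).le) hGl hGI hGpos
    have hνp := hν.prob
    have hYl : Loc (A i) (fun ω => Real.exp (Y i ω)) := fun ω ω' hw => by
      show Real.exp (Y i ω) = Real.exp (Y i ω')
      rw [hL i (Finset.mem_insert_self _ _) ω ω' hw]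
    have h2 := hE i (Finset.mem_insert_self _ _) ν hν
    rw [Em_eq (loc_integrable hYl), hν2 _ _ hYl] at h2
    rw [ENNReal.ofReal_le_ofReal_iff (Real.exp_pos _).le, div_le_iff₀ hGpos] at h2
    rw [Em_eq hGi, ENNReal.ofReal_le_ofReal_iff (Real.exp_pos _).le] at h1
    have e : ∀ ω, Real.exp (∑ j ∈ insert i J, Y j ω) = G ω * Real.exp (Y i ω) := fun ω => by
      rw [Finset.sum_insert hi, Real.exp_add, mul_comm]
    have hint : Integrable (fun ω => Real.exp (∑ j ∈ insert i J, Y j ω)) P := by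
      simp only [e]
      exact loc_integrable (Loc.mulU hGl hYl)
    rw [Em_eq hint]
    refine ENNReal.ofReal_le_ofReal ?_
    simp only [e]
    calc ∫ ω, G ω * Real.exp (Y i ω) ∂P ≤ Real.exp β * ∫ ω, G ω ∂P := h2
      _ ≤ Real.exp β * Real.exp (J.card * β) :=
          mul_le_mul_of_nonneg_left h1 (Real.exp_pos _).le
      _ = _ := by
          rw [← Real.exp_add, Finset.card_insert_of_notMem hi]
          congr 1
          push_cast
          ring

end Vale.Agent.P167.H562.GL
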