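import Vale.Agent.P167.H562.FAbs

/-!
# P167: extraction of the exponents, one scale, general angle
-/

open Filter Topology Real Finset

namespace Vale.Agent.P167.H562

theorem lim_core2 {μ A : ℝ} (hμ0 : 0 < μ) (hμ1 : μ < π / 2)
    {g : ℝ → ℝ} {z d : ℝ} {c : ℝ} (hc : 0 < c)
    (hconv : ConvexOn ℝ Set.univ g) (hzero : g 0 = 0)
    (hmono : Monotone g) (hz : ∀ u, z ≤ g u)
    (hU : ∀ b p, -(2 * μ) ≤ b → b < π / 2 - μ → 1 < p → p ≤ 2 →
      -(A * b ^ 2) ≤ b * d + g (p * log (wt μ b)) / p)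
    (hU0 : ∀ p, 1 < p → p ≤ 2 → -(A * (π / 2 - μ) ^ 2) ≤ (π / 2 - μ) * d + z / p)
    (hL1 : ∀ b p, 0 < b → b < π / 2 - μ → 1 < p → p ≤ 2 →
      b * d + p * g (log (wt μ b) / p) ≤ -(A * b ^ 2))
    (hL2 : ∀ b, -μ < b → b < 0 → ∃ C0 : ℝ, ∀ p θ, 1 < p → p ≤ 2 → 0 < θ → θ ≤ 1 →
      b * d + p * g (log (wt μ b) / p) ≤ -(A * b ^ 2) + C0 * θ ∨
      p * g (log (wt μ b) / p) ≤ -(c * θ) + g (p * log (wt μ b)) / p) :
    d = 2 * μ * A ∧
    (∀ b, -μ < b → b < π / 2 - μ → g (log (wt μ b)) = -(A * (b ^ 2 + 2 * μ * b))) ∧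
    z = -(A * (π ^ 2 / 4 - μ ^ 2)) := by
  have hcont : Continuous g := by
    rw [← continuousOn_univ]
    exact hconv.continuousOn isOpen_univ
  have hU' : ∀ b, -(2 * μ) ≤ b → b < π / 2 - μ →
      -(A * b ^ 2) ≤ b * d + g (log (wt μ b)) := by
    intro b hb hb'
    refine ge_of_tendsto ((tendsto_mul_div hcont (log (wt μ b))).const_add (b * d)) ?_
    filter_upwards [ev_p] with p hp
    exact hU b p hb hb' hp.1 hp.2
  have hU0' : -(A * (π / 2 - μ) ^ 2) ≤ (π / 2 - μ) * d + z := by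
    have h1 : Tendsto (fun p : ℝ => z / p) (𝓝[>] 1) (𝓝 z) := by
      have := tendsto_mul_div (g := fun _ => z) continuous_const 0
      simpa using this
    refine ge_of_tendsto (h1.const_add ((π / 2 - μ) * d)) ?_
    filter_upwards [ev_p] with p hp
    exact hU0 p hp.1 hp.2
  have hL1' : ∀ b, 0 < b → b < π / 2 - μ → b * d + g (log (wt μ b)) ≤ -(A * b ^ 2) := by
    intro b hb hb'
    refine le_of_tendsto ((tendsto_div_mul hcont (log (wt μ b))).const_add (b * d)) ?_
    filter_upwards [ev_p] with p hp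
    exact hL1 b p hb hb' hp.1 hp.2
  have hL2' : ∀ b, -μ < b → b < 0 → b * d + g (log (wt μ b)) ≤ -(A * b ^ 2) := by
    intro b hb hb'
    obtain ⟨C0, hC0⟩ := hL2 b hb hb'
    have hθ : ∀ θ, 0 < θ → θ ≤ 1 → b * d + g (log (wt μ b)) ≤ -(A * b ^ 2) + C0 * θ := by
      intro θ h0 h1
      by_contra hcon
      push Not at hcon
      have hT := (tendsto_div_mul hcont (log (wt μ b)))
      have e1 := (hT.const_add (b * d)).eventually (lt_mem_nhds hcon)
      have hT2 : Tendsto (fun p : ℝ => -(c * θ) + g (p * log (wt μ b)) / p) (𝓝[>] 1)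
          (𝓝 (-(c * θ) + g (log (wt μ b)))) := (tendsto_mul_div hcont (log (wt μ b))).const_add _
      have e2 := hT2.eventually_lt hT (by nlinarith [mul_pos hc h0])
      obtain ⟨p, ⟨hp1, hp2⟩, hp3, hp4⟩ := (ev_p.and (e1.and e2)).exists
      rcases hC0 p θ hp1 hp2 h0 h1 with h | h
      · linarith
      · linarith
    have h1 : Tendsto (fun θ : ℝ => -(A * b ^ 2) + C0 * θ) (𝓝[>] 0)
        (𝓝 (-(A * b ^ 2) + C0 * 0)) := by
      have : Continuous fun θ : ℝ => -(A * b ^ 2) + C0 * θ := by fun_prop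
      exact this.continuousAt.tendsto.mono_left nhdsWithin_le_nhds
    rw [mul_zero, add_zero] at h1
    refine ge_of_tendsto h1 ?_
    have h3 : Set.Ioo (0 : ℝ) 1 ∈ 𝓝[>] (0 : ℝ) := Ioo_mem_nhdsGT one_pos
    filter_upwards [h3] with θ hθ'
    exact hθ θ hθ'.1 hθ'.2.le
  have hEq : ∀ b, -μ < b → b < 0 → b * d + g (log (wt μ b)) = -(A * b ^ 2) := by
    intro b hb hb'
    have h1 := hL2' b hb hb'
    have h2 := hU' b (by linarith) (by linarith)
    linarith
  have hd1 : d ≤ 2 * μ * A := by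
    have h := hU' (-(2 * μ)) le_rfl (by linarith)
    rw [wt_neg_two hμ0 hμ1, Real.log_one, hzero] at h
    have : 0 ≤ 2 * μ * (2 * μ * A - d) := by nlinarith
    have h2 : 0 ≤ 2 * μ * A - d := nonneg_of_mul_nonneg_right this (by linarith)
    linarith
  have hd2 : ∀ b, -μ < b → b < 0 → -(2 * A * b) ≤ d := by
    intro b1 hb1 hb1'
    have h1 : ∀ b2, b1 < b2 → b2 < 0 → -(A * (b1 + b2)) ≤ d := by
      intro b2 h12 hb2
      have e1 := hEq b1 hb1 hb1'
      have e2 := hEq b2 (by linarith) hb2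
      have hw : wt μ b2 ≤ wt μ b1 := by
        unfold wt
        apply div_le_div_of_nonneg_right _ (cos_pos' hμ0 hμ1).le
        apply Real.cos_le_cos_of_nonneg_of_le_pi (by linarith) (by linarith [Real.pi_pos])
          (by linarith)
      have hpos : 0 < wt μ b2 := wt_pos hμ0 hμ1 (by linarith) (by linarith)
      have hm1 := hmono (Real.log_le_log hpos hw)
      have : 0 ≤ (b2 - b1) * (d + A * (b1 + b2)) := by nlinarith
      have h3 : 0 ≤ d + A * (b1 + b2) := nonneg_of_mul_nonneg_right this (by linarith)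
      linarith
    have h2 : Tendsto (fun b2 : ℝ => -(A * (b1 + b2))) (𝓝[>] b1) (𝓝 (-(A * (b1 + b1)))) := by
      have : Continuous fun b2 : ℝ => -(A * (b1 + b2)) := by fun_prop
      exact this.continuousAt.tendsto.mono_left nhdsWithin_le_nhds
    have h3 : ∀ᶠ b2 : ℝ in 𝓝[>] b1, -(A * (b1 + b2)) ≤ d := by
      have h4 : Set.Ioo b1 0 ∈ 𝓝[>] b1 := Ioo_mem_nhdsGT hb1'
      filter_upwards [h4] with b2 hb2
      exact h1 b2 hb2.1 hb2.2
    have h5 := le_of_tendsto h2 h3
    linarith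
  have hd : d = 2 * μ * A := by
    apply le_antisymm hd1
    have h2 : Tendsto (fun b : ℝ => -(2 * A * b)) (𝓝[>] (-μ)) (𝓝 (-(2 * A * (-μ)))) := by
      have : Continuous fun b : ℝ => -(2 * A * b) := by fun_prop
      exact this.continuousAt.tendsto.mono_left nhdsWithin_le_nhds
    have h3 : ∀ᶠ b : ℝ in 𝓝[>] (-μ), -(2 * A * b) ≤ d := by
      have h4 : Set.Ioo (-μ) 0 ∈ 𝓝[>] (-μ) := Ioo_mem_nhdsGT (by linarith)
      filter_upwards [h4] with b hb
      exact hd2 b hb.1 hb.2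
    have h5 := le_of_tendsto h2 h3
    linarith
  have hg : ∀ b, -μ < b → b < π / 2 - μ → g (log (wt μ b)) = -(A * (b ^ 2 + 2 * μ * b)) := by
    intro b hb hb'
    rcases lt_trichotomy b 0 with h | h | h
    · have := hEq b hb h
      rw [hd] at this; linarith
    · subst h
      simp only [wt, add_zero, div_self (cos_pos' hμ0 hμ1).ne', Real.log_one]
      rw [hzero]; ring
    · have h1 := hL1' b h hb'
      have h2 := hU' b (by linarith) hb'
      rw [hd] at h1 h2
      linarith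
  refine ⟨hd, hg, le_antisymm ?_ ?_⟩
  · have h1 : Tendsto (fun b : ℝ => -(A * (b ^ 2 + 2 * μ * b))) (𝓝[<] (π / 2 - μ))
        (𝓝 (-(A * ((π / 2 - μ) ^ 2 + 2 * μ * (π / 2 - μ))))) := by
      have : Continuous fun b : ℝ => -(A * (b ^ 2 + 2 * μ * b)) := by fun_prop
      exact this.continuousAt.tendsto.mono_left nhdsWithin_le_nhds
    have h2 : ∀ᶠ b : ℝ in 𝓝[<] (π / 2 - μ), z ≤ -(A * (b ^ 2 + 2 * μ * b)) := by
      have h3 : Set.Ioo (0 : ℝ) (π / 2 - μ) ∈ 𝓝[<] (π / 2 - μ) := Ioo_mem_nhdsLT (by linarith)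
      filter_upwards [h3] with b hb
      rw [← hg b (by linarith [hb.1]) hb.2]
      exact hz _
    have h4 := ge_of_tendsto h1 h2
    refine le_trans h4 (le_of_eq ?_)
    ring
  · rw [hd] at hU0'
    have : A * (π ^ 2 / 4 - μ ^ 2) = A * (π / 2 - μ) ^ 2 + (π / 2 - μ) * (2 * μ * A) := by ring
    linarith

variable {α : Type*}

/-- Extraction along a filter, one scale. -/
theorem fabs2 {F : Filter α} {L : α → ℝ} (hL : Tendsto L F atTop)
    {μ A : ℝ} (hμ0 : 0 < μ) (hμ1 : μ < π / 2)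
    {Λ : α → ℝ → ℝ} {Z : α → ℝ} {D : α → ℝ} {c : ℝ} (hc : 0 < c)
    (hconv : ∀ᶠ n in F, ConvexOn ℝ Set.univ (Λ n))
    (hzero : ∀ᶠ n in F, Λ n 0 = 0)
    (hmono : ∀ᶠ n in F, Monotone (Λ n))
    (hZ : ∀ u, ∀ᶠ n in F, Z n ≤ Λ n u)
    (hN : ∀ u, ∃ C, ∀ᶠ n in F, Λ n u ≤ C * L n)
    (hU : ∀ b p, -(2 * μ) ≤ b → b < π / 2 - μ → 1 < p → p ≤ 2 → ∃ C, ∀ᶠ n in F,
      -(A * b ^ 2 * L n) - C ≤ b * D n + Λ n (p * log (wt μ b)) / p)
    (hU0 : ∀ p, 1 < p → p ≤ 2 → ∃ C, ∀ᶠ n in F,
      -(A * (π / 2 - μ) ^ 2 * L n) - C ≤ (π / 2 - μ) * D n + Z n / p)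
    (hL1 : ∀ b p, 0 < b → b < π / 2 - μ → 1 < p → p ≤ 2 → ∃ C, ∀ᶠ n in F,
      b * D n + p * Λ n (log (wt μ b) / p) ≤ -(A * b ^ 2 * L n) + C)
    (hL2 : ∀ b, -μ < b → b < 0 → ∃ C0 : ℝ, ∀ p θ, 1 < p → p ≤ 2 → 0 < θ → θ ≤ 1 →
      ∃ C, ∀ᶠ n in F,
      b * D n + p * Λ n (log (wt μ b) / p) ≤ -(A * b ^ 2 * L n) + C0 * θ * L n + C ∨
      p * Λ n (log (wt μ b) / p) ≤ -(c * θ * L n) + C + Λ n (p * log (wt μ b)) / p) :
    (∀ b, -μ < b → b < π / 2 - μ →
      Tendsto (fun n => Λ n (log (wt μ b)) / L n) F (𝓝 (-(A * (b ^ 2 + 2 * μ * b))))) ∧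
    Tendsto (fun n => Z n / L n) F (𝓝 (-(A * (π ^ 2 / 4 - μ ^ 2)))) := by
  suffices H : ∀ G : Ultrafilter α, (G : Filter α) ≤ F →
      (∀ b, -μ < b → b < π / 2 - μ →
        Tendsto (fun n => Λ n (log (wt μ b)) / L n) G (𝓝 (-(A * (b ^ 2 + 2 * μ * b))))) ∧
      Tendsto (fun n => Z n / L n) G (𝓝 (-(A * (π ^ 2 / 4 - μ ^ 2)))) by
    refine ⟨?_, ?_⟩
    · intro b hb hb'; rw [tendsto_iff_ultrafilter]; intro G hG; exact (H G hG).1 b hb hb'
    · rw [tendsto_iff_ultrafilter]; intro G hG; exact (H G hG).2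
  intro G hG
  have hLG : Tendsto L G atTop := hL.mono_left hG
  have hLpos : ∀ᶠ n in (G : Filter α), 0 < L n := hLG.eventually_gt_atTop 0
  have hinv : ∀ C : ℝ, Tendsto (fun n => C / L n) G (𝓝 0) := fun C => hLG.const_div_atTop C
  have hself : Tendsto (fun n => L n / L n) G (𝓝 1) := by
    refine tendsto_const_nhds.congr' ?_
    filter_upwards [hLpos] with n hn
    exact (div_self hn.ne').symm
  have exΛ : ∀ u, ∃ x, Tendsto (fun n => Λ n u / L n) G (𝓝 x) := by
    intro u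
    obtain ⟨C1, h1⟩ := hN u
    obtain ⟨C2, h2⟩ := hN (-u)
    refine exists_lim G (C := max |C1| |C2|) ?_
    filter_upwards [hLpos, hG h1, hG h2, hG hconv, hG hzero] with n hn h1 h2 h3 h4
    have h5 : 0 ≤ Λ n u + Λ n (-u) := by
      have := h3.2 (Set.mem_univ u) (Set.mem_univ (-u)) (by norm_num : (0 : ℝ) ≤ 1 / 2)
        (by norm_num : (0 : ℝ) ≤ 1 / 2) (by norm_num)
      simp only [smul_eq_mul] at this
      rw [show (1 : ℝ) / 2 * u + 1 / 2 * -u = 0 by ring, h4] at this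
      linarith
    rw [abs_le]
    constructor
    · rw [le_div_iff₀ hn]
      have : |C2| * L n ≤ max |C1| |C2| * L n :=
        mul_le_mul_of_nonneg_right (le_max_right _ _) hn.le
      have h4 : C2 * L n ≤ |C2| * L n := mul_le_mul_of_nonneg_right (le_abs_self _) hn.le
      linarith
    · rw [div_le_iff₀ hn]
      have : |C1| * L n ≤ max |C1| |C2| * L n :=
        mul_le_mul_of_nonneg_right (le_max_left _ _) hn.le
      have h4 : C1 * L n ≤ |C1| * L n := mul_le_mul_of_nonneg_right (le_abs_self _) hn.le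
      linarith
  have exD : ∃ x, Tendsto (fun n => D n / L n) G (𝓝 x) := by
    have hpi := Real.pi_pos
    obtain ⟨b, hb1, hb2⟩ : ∃ b : ℝ, 0 < b ∧ b < π / 2 - μ := ⟨(π / 2 - μ) / 2, by linarith, by linarith⟩
    obtain ⟨C1, h1⟩ := hU b 2 (by linarith) hb2 (by norm_num) le_rfl
    obtain ⟨C2, h2⟩ := hU (-(2 * μ)) 2 le_rfl (by linarith) (by norm_num) le_rfl
    obtain ⟨x1, hx1⟩ := exΛ (2 * log (wt μ b))
    obtain ⟨x2, hx2⟩ := exΛ (2 * log (wt μ (-(2 * μ))))
    refine exists_lim G (C := max ((|A| * b ^ 2 + 1 + (|x1| + 1)) / b)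
      ((|A| * (2 * μ) ^ 2 + 1 + (|x2| + 1)) / (2 * μ))) ?_
    have e1 := hx1.eventually (gt_mem_nhds (show x1 < |x1| + 1 by linarith [le_abs_self x1]))
    have e2 := hx2.eventually (gt_mem_nhds (show x2 < |x2| + 1 by linarith [le_abs_self x2]))
    have e3 := (hinv C1).eventually (gt_mem_nhds (show (0 : ℝ) < 1 by norm_num))
    have e4 := (hinv C2).eventually (gt_mem_nhds (show (0 : ℝ) < 1 by norm_num))
    filter_upwards [hLpos, hG h1, hG h2, e1, e2, e3, e4] with n hn h1 h2 e1 e2 e3 e4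
    have d1 : -(A * b ^ 2) - C1 / L n ≤ b * (D n / L n) + (Λ n (2 * log (wt μ b)) / L n) / 2 := by
      have := div_le_div_of_nonneg_right h1 hn.le
      have e : (-(A * b ^ 2 * L n) - C1) / L n = -(A * b ^ 2) - C1 / L n := by field_simp
      have e' : (b * D n + Λ n (2 * log (wt μ b)) / 2) / L n =
          b * (D n / L n) + (Λ n (2 * log (wt μ b)) / L n) / 2 := by field_simp
      rw [e, e'] at this; exact this
    have d2 : -(A * (-(2 * μ)) ^ 2) - C2 / L n ≤
        -(2 * μ) * (D n / L n) + (Λ n (2 * log (wt μ (-(2 * μ)))) / L n) / 2 := by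
      have := div_le_div_of_nonneg_right h2 hn.le
      have e : (-(A * (-(2 * μ)) ^ 2 * L n) - C2) / L n = -(A * (-(2 * μ)) ^ 2) - C2 / L n := by
        field_simp
      have e' : (-(2 * μ) * D n + Λ n (2 * log (wt μ (-(2 * μ)))) / 2) / L n =
          -(2 * μ) * (D n / L n) + (Λ n (2 * log (wt μ (-(2 * μ)))) / L n) / 2 := by field_simp
      rw [e, e'] at this; exact this
    have hA1 : A * b ^ 2 ≤ |A| * b ^ 2 := mul_le_mul_of_nonneg_right (le_abs_self A) (sq_nonneg b)
    have hA2 : A * (-(2 * μ)) ^ 2 ≤ |A| * (2 * μ) ^ 2 := by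
      have := mul_le_mul_of_nonneg_right (le_abs_self A) (sq_nonneg (2 * μ))
      linarith [this, show (-(2 * μ)) ^ 2 = (2 * μ) ^ 2 by ring, show A * (-(2 * μ)) ^ 2 = A * (2 * μ) ^ 2 by ring]
    have hx1' := abs_nonneg x1
    have hx2' := abs_nonneg x2
    rw [abs_le]
    constructor
    · have h5 : -(D n / L n) ≤ (|A| * b ^ 2 + 1 + (|x1| + 1)) / b := by
        rw [le_div_iff₀ hb1]
        nlinarith
      have := le_max_left ((|A| * b ^ 2 + 1 + (|x1| + 1)) / b)
        ((|A| * (2 * μ) ^ 2 + 1 + (|x2| + 1)) / (2 * μ))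
      linarith
    · have h5 : D n / L n ≤ (|A| * (2 * μ) ^ 2 + 1 + (|x2| + 1)) / (2 * μ) := by
        rw [le_div_iff₀ (by linarith)]
        nlinarith
      exact le_trans h5 (le_max_right _ _)
  have exZ : ∃ x, Tendsto (fun n => Z n / L n) G (𝓝 x) := by
    obtain ⟨x0, hx0⟩ := exΛ 0
    obtain ⟨y, hy⟩ := exD
    obtain ⟨C, h1⟩ := hU0 2 (by norm_num) le_rfl
    have hpi : 0 < π / 2 - μ := by linarith
    refine exists_lim G (C := max (|x0| + 1)
      (2 * (|A| * (π / 2 - μ) ^ 2 + 1 + (π / 2 - μ) * (|y| + 1)))) ?_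
    have e1 := hx0.eventually (gt_mem_nhds (show x0 < |x0| + 1 by linarith [le_abs_self x0]))
    have e2 := hy.eventually (gt_mem_nhds (show y < |y| + 1 by linarith [le_abs_self y]))
    have e3 := (hinv C).eventually (gt_mem_nhds (show (0 : ℝ) < 1 by norm_num))
    filter_upwards [hLpos, hG h1, hG (hZ 0), e1, e2, e3] with n hn h1 h2 e1 e2 e3
    have d1 : -(A * (π / 2 - μ) ^ 2) - C / L n ≤
        (π / 2 - μ) * (D n / L n) + (Z n / L n) / 2 := by
      have := div_le_div_of_nonneg_right h1 hn.le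
      have e : (-(A * (π / 2 - μ) ^ 2 * L n) - C) / L n = -(A * (π / 2 - μ) ^ 2) - C / L n := by
        field_simp
      have e' : ((π / 2 - μ) * D n + Z n / 2) / L n =
          (π / 2 - μ) * (D n / L n) + (Z n / L n) / 2 := by field_simp
      rw [e, e'] at this; exact this
    have d2 : Z n / L n ≤ Λ n 0 / L n := div_le_div_of_nonneg_right h2 hn.le
    have hA1 : A * (π / 2 - μ) ^ 2 ≤ |A| * (π / 2 - μ) ^ 2 :=
      mul_le_mul_of_nonneg_right (le_abs_self A) (sq_nonneg _)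
    have d3 : (π / 2 - μ) * (D n / L n) ≤ (π / 2 - μ) * (|y| + 1) :=
      mul_le_mul_of_nonneg_left e2.le hpi.le
    rw [abs_le]
    constructor
    · have := le_max_right (|x0| + 1)
        (2 * (|A| * (π / 2 - μ) ^ 2 + 1 + (π / 2 - μ) * (|y| + 1)))
      linarith
    · have := le_max_left (|x0| + 1)
        (2 * (|A| * (π / 2 - μ) ^ 2 + 1 + (π / 2 - μ) * (|y| + 1)))
      linarith
  choose g hg using exΛ
  obtain ⟨z, hz⟩ := exZ
  obtain ⟨d, hd⟩ := exD
  have key := lim_core2 (A := A) hμ0 hμ1 (g := g) (z := z) (d := d) (c := c) hc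
    (convexOn_lim hLpos (hG hconv) hg)
    (by
      refine tendsto_nhds_unique (hg 0) ?_
      refine tendsto_const_nhds.congr' ?_
      filter_upwards [hG hzero] with n hn
      rw [hn, zero_div])
    (fun x y hxy => by
      refine le_of_tendsto_of_tendsto (hg x) (hg y) ?_
      filter_upwards [hG hmono, hLpos] with n hn hl
      exact div_le_div_of_nonneg_right (hn hxy) hl.le)
    (fun u => by
      refine le_of_tendsto_of_tendsto hz (hg u) ?_
      filter_upwards [hG (hZ u), hLpos] with n hn hl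
      exact div_le_div_of_nonneg_right hn hl.le)
    (fun b p hb1 hb2 hp1 hp2 => by
      obtain ⟨C, hC⟩ := hU b p hb1 hb2 hp1 hp2
      have h1 : Tendsto (fun n => -(A * b ^ 2) - C / L n) G (𝓝 (-(A * b ^ 2) - 0)) :=
        (hinv C).const_sub _
      rw [sub_zero] at h1
      refine le_of_tendsto_of_tendsto h1
        ((hd.const_mul b).add ((hg (p * log (wt μ b))).div_const p)) ?_
      filter_upwards [hG hC, hLpos] with n hn hl
      have := div_le_div_of_nonneg_right hn hl.le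
      have e : (-(A * b ^ 2 * L n) - C) / L n = -(A * b ^ 2) - C / L n := by field_simp
      have e' : (b * D n + Λ n (p * log (wt μ b)) / p) / L n =
          b * (D n / L n) + Λ n (p * log (wt μ b)) / L n / p := by field_simp
      rw [e, e'] at this; exact this)
    (fun p hp1 hp2 => by
      obtain ⟨C, hC⟩ := hU0 p hp1 hp2
      have h1 : Tendsto (fun n => -(A * (π / 2 - μ) ^ 2) - C / L n) G
          (𝓝 (-(A * (π / 2 - μ) ^ 2) - 0)) := (hinv C).const_sub _
      rw [sub_zero] at h1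
      refine le_of_tendsto_of_tendsto h1
        ((hd.const_mul (π / 2 - μ)).add (hz.div_const p)) ?_
      filter_upwards [hG hC, hLpos] with n hn hl
      have := div_le_div_of_nonneg_right hn hl.le
      have e : (-(A * (π / 2 - μ) ^ 2 * L n) - C) / L n = -(A * (π / 2 - μ) ^ 2) - C / L n := by
        field_simp
      have e' : ((π / 2 - μ) * D n + Z n / p) / L n =
          (π / 2 - μ) * (D n / L n) + Z n / L n / p := by field_simp
      rw [e, e'] at this; exact this)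
    (fun b p hb1 hb2 hp1 hp2 => by
      obtain ⟨C, hC⟩ := hL1 b p hb1 hb2 hp1 hp2
      have h1 : Tendsto (fun n => -(A * b ^ 2) + C / L n) G (𝓝 (-(A * b ^ 2) + 0)) :=
        (hinv C).const_add _
      rw [add_zero] at h1
      refine le_of_tendsto_of_tendsto
        ((hd.const_mul b).add ((hg (log (wt μ b) / p)).const_mul p)) h1 ?_
      filter_upwards [hG hC, hLpos] with n hn hl
      have := div_le_div_of_nonneg_right hn hl.le
      have e : (-(A * b ^ 2 * L n) + C) / L n = -(A * b ^ 2) + C / L n := by field_simp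
      have e' : (b * D n + p * Λ n (log (wt μ b) / p)) / L n =
          b * (D n / L n) + p * (Λ n (log (wt μ b) / p) / L n) := by field_simp
      rw [e, e'] at this; exact this)
    (fun b hb1 hb2 => by
      obtain ⟨C0, hC0⟩ := hL2 b hb1 hb2
      refine ⟨C0, fun p θ hp1 hp2 hθ1 hθ2 => ?_⟩
      obtain ⟨C, hC⟩ := hC0 p θ hp1 hp2 hθ1 hθ2
      rcases Ultrafilter.eventually_or.1 (hG hC) with h | h
      · left
        have h1 : Tendsto (fun n => -(A * b ^ 2) + C0 * θ + C / L n) G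
            (𝓝 (-(A * b ^ 2) + C0 * θ + 0)) := (hinv C).const_add _
        rw [add_zero] at h1
        refine le_of_tendsto_of_tendsto
          ((hd.const_mul b).add ((hg (log (wt μ b) / p)).const_mul p)) h1 ?_
        filter_upwards [h, hLpos] with n hn hl
        have := div_le_div_of_nonneg_right hn hl.le
        have e : (-(A * b ^ 2 * L n) + C0 * θ * L n + C) / L n =
            -(A * b ^ 2) + C0 * θ + C / L n := by field_simp
        have e' : (b * D n + p * Λ n (log (wt μ b) / p)) / L n =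
            b * (D n / L n) + p * (Λ n (log (wt μ b) / p) / L n) := by field_simp
        rw [e, e'] at this; exact this
      · right
        have h1 : Tendsto (fun n => -(c * θ) + C / L n + Λ n (p * log (wt μ b)) / L n / p) G
            (𝓝 (-(c * θ) + 0 + g (p * log (wt μ b)) / p)) :=
          ((hinv C).const_add _).add ((hg _).div_const p)
        rw [add_zero] at h1
        refine le_of_tendsto_of_tendsto ((hg (log (wt μ b) / p)).const_mul p) h1 ?_
        filter_upwards [h, hLpos] with n hn hl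
        have := div_le_div_of_nonneg_right hn hl.le
        have e : (-(c * θ * L n) + C + Λ n (p * log (wt μ b)) / p) / L n =
            -(c * θ) + C / L n + Λ n (p * log (wt μ b)) / L n / p := by field_simp
        have e' : p * Λ n (log (wt μ b) / p) / L n =
            p * (Λ n (log (wt μ b) / p) / L n) := by field_simp
        rw [e, e'] at this; exact this)
  obtain ⟨k1, k2, k3⟩ := key
  refine ⟨?_, ?_⟩
  · intro b hb hb'
    rw [← k2 b hb hb']; exact hg _
  · rw [← k3]; exact hz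

end Vale.Agent.P167.H562
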