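import Vale.Agent.P167.H562.GDefs
import Vale.Agent.P167.H562.GLim
import Vale.Agent.P167.H562.FHold
import Vale.Agent.P167.H45.Cnt

/-!
# P167, block F for a general angle: moment estimates from the interface statements
-/

open MeasureTheory ProbabilityTheory Real Finset Filter Topology
open scoped ENNReal

namespace Vale.Agent.P167.H562.GQ

variable {P : Measure Cfg}

/-- Near part of the product, charge `j`. -/
noncomputable def Yv (a κ : ℝ) (ρ b : Fin 3 → ℝ) (mm : Fin 3 → ℤ × ℤ → ℝ) (j : Fin 3) (ω : Cfg) : ℝ :=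
  Yna a (ρ j - 2) (2 * ρ j + 2) (κ * ρ j) (fun x => b j * mm j x) ω

/-- Number of large loops near the charge `j`. -/
noncomputable def Kv (κ : ℝ) (ρ : Fin 3 → ℝ) (j : Fin 3) (ω : Cfg) : ℕ :=
  Kn (ρ j - 2) (2 * ρ j + 2) (κ * ρ j) ω

/-- Mean mass. -/
noncomputable def nv (P : Measure Cfg) (κ : ℝ) (ρ : Fin 3 → ℝ) (mm : Fin 3 → ℤ × ℤ → ℝ)
    (j : Fin 3) : ℝ :=
  nbP P (ρ j - 2) (2 * ρ j + 2) (κ * ρ j) (mm j)

/-- Logarithm of the near part. -/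
noncomputable def vv (a κ τ : ℝ) (ρ b : Fin 3 → ℝ) (mm : Fin 3 → ℤ × ℤ → ℝ) (ω : Cfg) : ℝ :=
  ∑ j, (log (Yv a κ ρ b mm j ω) + τ * Kv κ ρ j ω)

/-- Linear term. -/
noncomputable def Sv (a : ℝ) (P : Measure Cfg) (κ : ℝ) (ρ b : Fin 3 → ℝ)
    (mm : Fin 3 → ℤ × ℤ → ℝ) : ℝ :=
  -Real.tan a * ∑ j, b j * nv P κ ρ mm j

/-- The content of `G_small` for fixed `Cm`, `T`, `κ`. -/
def SmallAt (a : ℝ) (P : Measure Cfg) (Cm T κ : ℝ) : Prop := ∀ s : ℝ,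
  ∃ C ρ0 : ℝ, 0 < C ∧ ∀ ρ : ℝ, ρ0 ≤ ρ → ∀ m, Chg Cm ρ m → ∀ t : ℝ, |t| ≤ T →
    (∀ ω, 0 < Yna a (ρ - 2) (2 * ρ + 2) (κ * ρ) (fun x => t * m x) ω) ∧
    Measurable (Yna a (ρ - 2) (2 * ρ + 2) (κ * ρ) (fun x => t * m x)) ∧
    Integrable (fun ω => Yna a (ρ - 2) (2 * ρ + 2) (κ * ρ) (fun x => t * m x) ω ^ s) P ∧
    ∫ ω, Yna a (ρ - 2) (2 * ρ + 2) (κ * ρ) (fun x => t * m x) ω ^ s ∂P ≤
      C * Real.exp (-Real.tan a * s * t * nbP P (ρ - 2) (2 * ρ + 2) (κ * ρ) m)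

theorem vmom [IsProbabilityMeasure P] {a Cm T κ : ℝ} (hκ : 0 < κ) (hS : SmallAt a P Cm T κ)
    (hL : G_large P) (s τ : ℝ) :
    ∃ C ρ00 : ℝ, ∀ (ρ b : Fin 3 → ℝ) (mm : Fin 3 → ℤ × ℤ → ℝ), (∀ j, ρ00 ≤ ρ j) →
      (∀ j, Chg Cm (ρ j) (mm j)) → (∀ j, |b j| ≤ T) →
      (∀ j ω, 0 < Yv a κ ρ b mm j ω) ∧ AEMeasurable (vv a κ τ ρ b mm) P ∧
      Em P (fun ω => s * vv a κ τ ρ b mm ω) ≤
        ENNReal.ofReal (exp (s * Sv a P κ ρ b mm + C)) := by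
  obtain ⟨C1, ρ1, hC1, h1⟩ := hS (6 * s)
  obtain ⟨C2, ρ2, h2⟩ := hL κ (6 * (s * τ)) hκ
  obtain ⟨C3, ρ3, h3⟩ := hL κ 1 hκ
  refine ⟨(1 / 2) * (log C1 + log (max C2 1)), max ρ1 (max ρ2 ρ3), fun ρ b mm hρ hm hb => ?_⟩
  have hY : ∀ j ω, 0 < Yv a κ ρ b mm j ω := fun j ω =>
    (h1 (ρ j) (le_trans (le_max_left _ _) (hρ j)) (mm j) (hm j) (b j) (hb j)).1 ω
  have hYm : ∀ j, Measurable (Yv a κ ρ b mm j) := fun j =>
    (h1 (ρ j) (le_trans (le_max_left _ _) (hρ j)) (mm j) (hm j) (b j) (hb j)).2.1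
  have hKm : ∀ j, AEMeasurable (fun ω => (Kv κ ρ j ω : ℝ)) P := fun j => by
    have h := (h3 (ρ j) (le_trans (le_trans (le_max_right _ _) (le_max_right _ _)) (hρ j))).1
    have h' := (Real.measurable_log.comp_aemeasurable h.aemeasurable)
    refine h'.congr (Filter.Eventually.of_forall fun ω => ?_)
    simp [Kv, Function.comp]
  have hlog : ∀ j, Measurable (fun ω => log (Yv a κ ρ b mm j ω)) := fun j => (hYm j).log
  refine ⟨hY, ?_, ?_⟩
  · unfold vv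
    exact Finset.aemeasurable_fun_sum _ fun j _ =>
      (hlog j).aemeasurable.add ((hKm j).const_mul τ)
  · let F : Fin 3 × Bool → Cfg → ℝ := fun i ω =>
      if i.2 then s * τ * Kv κ ρ i.1 ω else s * log (Yv a κ ρ b mm i.1 ω)
    let B : Fin 3 × Bool → ℝ := fun i =>
      if i.2 then log (max C2 1) else log C1 + 6 * s * (-Real.tan a * (b i.1 * nv P κ ρ mm i.1))
    have hF : ∀ i ∈ (Finset.univ : Finset (Fin 3 × Bool)), AEMeasurable (F i) P := by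
      rintro ⟨j, x⟩ _
      cases x
      · simpa [F] using ((hlog j).const_mul s).aemeasurable
      · simpa [F] using (hKm j).const_mul (s * τ)
    have hB : ∀ i ∈ (Finset.univ : Finset (Fin 3 × Bool)),
        Em P (fun ω => ((1 : ℝ) / 6)⁻¹ * F i ω) ≤ ENNReal.ofReal (exp (B i)) := by
      rintro ⟨j, x⟩ _
      cases x
      · have h := h1 (ρ j) (le_trans (le_max_left _ _) (hρ j)) (mm j) (hm j) (b j) (hb j)
        have e : (fun ω => ((1 : ℝ) / 6)⁻¹ * F (j, false) ω) =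
            fun ω => 6 * s * log (Yv a κ ρ b mm j ω) := by
          ext ω; simp [F]; ring
        rw [e]
        have e2 : ∀ ω, exp (6 * s * log (Yv a κ ρ b mm j ω)) = (Yv a κ ρ b mm j ω) ^ (6 * s) := by
          intro ω
          rw [Real.rpow_def_of_pos (hY j ω), mul_comm]
        unfold Em
        simp only [e2]
        have h' : Integrable (fun ω => (Yv a κ ρ b mm j ω) ^ (6 * s)) P := h.2.2.1
        rw [← ofReal_integral_eq_lintegral_ofReal h'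
          (Filter.Eventually.of_forall fun ω => Real.rpow_nonneg (hY j ω).le _)]
        apply ENNReal.ofReal_le_ofReal
        refine le_trans h.2.2.2 (le_of_eq ?_)
        simp only [B, Bool.false_eq_true, if_false]
        rw [Real.exp_add, Real.exp_log hC1]
        congr 2
        unfold nv
        ring
      · have h := h2 (ρ j) (le_trans (le_trans (le_max_left _ _) (le_max_right _ _)) (hρ j))
        have e : (fun ω => ((1 : ℝ) / 6)⁻¹ * F (j, true) ω) =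
            fun ω => 6 * (s * τ) * Kn (ρ j - 2) (2 * ρ j + 2) (κ * ρ j) ω := by
          ext ω; simp [F, Kv]; ring
        rw [e, Em_eq h.1]
        apply ENNReal.ofReal_le_ofReal
        simp only [B, if_true]
        rw [Real.exp_log (lt_of_lt_of_le one_pos (le_max_right _ _))]
        exact le_trans h.2 (le_max_left _ _)
    have h := Em_holderA (μ := P) (Finset.univ : Finset (Fin 3 × Bool)) hF (θ := fun _ => 1 / 6)
      (B := B) (fun _ _ => by norm_num) (by simp) hB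
    have e3 : (fun ω => ∑ i : Fin 3 × Bool, F i ω) = fun ω => s * vv a κ τ ρ b mm ω := by
      ext ω
      rw [Fintype.sum_prod_type]
      simp only [F, vv, Fintype.sum_bool, if_true, Bool.false_eq_true, if_false, Finset.mul_sum]
      exact Finset.sum_congr rfl fun j _ => by ring
    rw [e3] at h
    refine le_trans h (le_of_eq ?_)
    congr 2
    rw [Fintype.sum_prod_type]
    simp only [B, Fintype.sum_bool, if_true, Bool.false_eq_true, if_false, Sv, Fin.sum_univ_three]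
    ring

/-- Count between the charges `0` and `1`. -/
noncomputable def N0 (ρ : Fin 3 → ℝ) (ω : Cfg) : ℕ := Nn (2 * ρ 0 + 2) (ρ 1 - 2) ω

/-- Count between the charges `1` and `2`. -/
noncomputable def N1 (ρ : Fin 3 → ℝ) (ω : Cfg) : ℕ := Nn (2 * ρ 1 + 2) (ρ 2 - 2) ω

/-- Generating function. -/
noncomputable def En (P : Measure Cfg) (N : Cfg → ℕ) (x : ℝ) : ℝ≥0∞ :=
  ∫⁻ ω, ENNReal.ofReal (x ^ N ω) ∂P

/-- Joint generating function, restricted to a set of values of the second count. -/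
noncomputable def MM (P : Measure Cfg) (ρ : Fin 3 → ℝ) (S : Set ℕ) (x y : ℝ) : ℝ≥0∞ :=
  ∫⁻ ω, ENNReal.ofReal (x ^ N0 ρ ω) * S.indicator (fun n => ENNReal.ofReal (y ^ n)) (N1 ρ ω) ∂P

lemma meas_N0 (hi : G_meas) (ρ : Fin 3 → ℝ) : Measurable (N0 ρ) := hi _ _

lemma meas_N1 (hi : G_meas) (ρ : Fin 3 → ℝ) : Measurable (N1 ρ) := hi _ _

lemma meas_ind (S : Set ℕ) (f : ℕ → ℝ≥0∞) : Measurable (S.indicator f) := measurable_of_countable _

/-- The `p`-th power of the main factor. -/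
lemma main_pow {ρ : Fin 3 → ℝ} (S : Set ℕ)
    {x y p : ℝ} (hx : 0 ≤ x) (hy : 0 ≤ y) (hp : 0 < p) :
    ∫⁻ ω, (ENNReal.ofReal (x ^ N0 ρ ω) *
      S.indicator (fun n => ENNReal.ofReal (y ^ n)) (N1 ρ ω)) ^ p ∂P =
      MM P ρ S (x ^ p) (y ^ p) := by
  unfold MM
  refine lintegral_congr fun ω => ?_
  have key : ∀ {z : ℝ} (_ : 0 ≤ z) (n : ℕ), ENNReal.ofReal (z ^ n) ^ p =
      ENNReal.ofReal ((z ^ p) ^ n) := by
    intro z hz n
    rw [ENNReal.ofReal_rpow_of_nonneg (pow_nonneg hz n) hp.le]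
    congr 1
    rw [← Real.rpow_natCast, ← Real.rpow_natCast, ← Real.rpow_mul hz, ← Real.rpow_mul hz,
      mul_comm]
  rw [ENNReal.mul_rpow_of_nonneg _ _ hp.le, key hx]
  congr 1
  by_cases hS : N1 ρ ω ∈ S
  · rw [Set.indicator_of_mem hS, Set.indicator_of_mem hS, key hy]
  · rw [Set.indicator_of_notMem hS, Set.indicator_of_notMem hS, ENNReal.zero_rpow_of_pos hp]

lemma meas_main (hi : G_meas) (ρ : Fin 3 → ℝ) (S : Set ℕ) (x y : ℝ) :
    AEMeasurable (fun ω => ENNReal.ofReal (x ^ N0 ρ ω) *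
      S.indicator (fun n => ENNReal.ofReal (y ^ n)) (N1 ρ ω)) P :=
  (((measurable_of_countable (fun n : ℕ => ENNReal.ofReal (x ^ n))).comp
      (meas_N0 hi ρ)).aemeasurable).mul (((meas_ind S _).comp (meas_N1 hi ρ)).aemeasurable)

/-- The total charge function. -/
noncomputable def ff (b : Fin 3 → ℝ) (mm : Fin 3 → ℤ × ℤ → ℝ) (x : ℤ × ℤ) : ℝ := ∑ j, b j * mm j x

lemma exp_vv {a κ w : ℝ} (hw : 0 < w) {ρ b : Fin 3 → ℝ} {mm : Fin 3 → ℤ × ℤ → ℝ} {ω : Cfg}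
    (hY : ∀ j, 0 < Yv a κ ρ b mm j ω) :
    exp (vv a κ (log w) ρ b mm ω) = (∏ j, Yv a κ ρ b mm j ω) * w ^ (∑ j, Kv κ ρ j ω) := by
  unfold vv
  rw [Real.exp_sum, ← Finset.prod_pow_eq_pow_sum, ← Finset.prod_mul_distrib]
  refine Finset.prod_congr rfl fun j _ => ?_
  rw [Real.exp_add, Real.exp_log (hY j), mul_comm (log w), Real.exp_nat_mul, Real.exp_log hw]

theorem up [IsProbabilityMeasure P] {a Cm T κ : ℝ} (ha0 : 0 < a) (ha1 : a < π / 2) (hκ : 0 < κ)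
    (hκ' : κ ≤ 1 / 8) (hS : SmallAt a P Cm T κ) (hL : G_large P)
    (hup : G_cls_up a) (hi : G_meas) {p : ℝ} (hp : 1 < p) :
    ∃ C ρ00 : ℝ, ∀ (ρ b : Fin 3 → ℝ) (mm : Fin 3 → ℤ × ℤ → ℝ), (∀ j, ρ00 ≤ ρ j) →
      4 * ρ 0 ≤ ρ 1 → 4 * ρ 1 ≤ ρ 2 →
      (∀ j, Chg Cm (ρ j) (mm j)) → (∀ j, |b j| ≤ T) → ∑ j, b j = 0 → ∀ S : Set ℕ,
      ∫⁻ ω, S.indicator (fun _ => ENNReal.ofReal |Xa a (ff b mm) ω|) (N1 ρ ω) ∂P ≤
        ENNReal.ofReal (exp (Sv a P κ ρ b mm + C)) *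
          (MM P ρ S (|wt a (b 0)| ^ p) (|wt a (b 0 + b 1)| ^ p)) ^ (1 / p) := by
  have hp0 : 0 < p := by linarith
  have hp1 : 0 < p - 1 := by linarith
  have hw : 0 < 1 / Real.cos a := one_div_pos.2 (cos_pos' ha0 ha1)
  obtain ⟨C, ρ1, h1⟩ := vmom (a := a) (Cm := Cm) (T := T) hκ hS hL (p / (p - 1))
    (log (1 / Real.cos a))
  obtain ⟨ρ2, h2⟩ := hup κ Cm hκ hκ'
  refine ⟨(p - 1) / p * C, max (max ρ1 ρ2) 0, fun ρ b mm hρ h01 h12 hm hb hsum S => ?_⟩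
  have hρ0 : ∀ j, 0 ≤ ρ j := fun j => le_trans (le_max_right _ _) (hρ j)
  obtain ⟨hY, hv, hE⟩ := h1 ρ b mm
    (fun j => le_trans (le_trans (le_max_left _ _) (le_max_left _ _)) (hρ j)) hm hb
  have hbd : ∀ ω, S.indicator (fun _ => ENNReal.ofReal |Xa a (ff b mm) ω|) (N1 ρ ω) ≤
      ENNReal.ofReal (exp (vv a κ (log (1 / Real.cos a)) ρ b mm ω)) *
      (ENNReal.ofReal (|wt a (b 0)| ^ N0 ρ ω) *
        S.indicator (fun n => ENNReal.ofReal (|wt a (b 0 + b 1)| ^ n)) (N1 ρ ω)) := by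
    intro ω
    by_cases hSω : N1 ρ ω ∈ S
    · rw [Set.indicator_of_mem hSω, Set.indicator_of_mem hSω,
        ← ENNReal.ofReal_mul (by positivity), ← ENNReal.ofReal_mul (Real.exp_pos _).le]
      apply ENNReal.ofReal_le_ofReal
      rw [exp_vv hw (hY · ω)]
      have h := h2 ω ρ b mm
        (le_trans (le_trans (le_max_right _ _) (le_max_left _ _)) (hρ 0)) h01 h12 hm hsum
      have e : (∏ j, |Yna a (ρ j - 2) (2 * ρ j + 2) (κ * ρ j) (fun x => b j * mm j x) ω|) =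
          ∏ j, Yv a κ ρ b mm j ω :=
        Finset.prod_congr rfl fun j _ => abs_of_pos (hY j ω)
      rw [e] at h
      refine le_trans h (le_of_eq ?_)
      unfold N0 N1 Kv
      ring
    · rw [Set.indicator_of_notMem hSω]; exact zero_le
  refine le_trans (lintegral_mono hbd) ?_
  have h := holder_up (B := Sv a P κ ρ b mm + (p - 1) / p * C) hv
    (meas_main hi ρ S |wt a (b 0)| |wt a (b 0 + b 1)|) hp (by
    refine le_trans hE (le_of_eq ?_)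
    congr 2
    field_simp)
  rw [main_pow S (abs_nonneg _) (abs_nonneg _) hp0] at h
  exact h

theorem lo [IsProbabilityMeasure P] {a Cm T κ : ℝ} (hκ : 0 < κ) (hκ' : κ ≤ 1 / 8)
    (hS : SmallAt a P Cm T κ) (hL : G_large P)
    (hlo : G_cls_lo a) (hi : G_meas) {p : ℝ} (hp : 1 < p) {w₀ : ℝ} (hw0 : 0 < w₀) (hw1 : w₀ ≤ 1) :
    ∃ C ρ00 : ℝ, ∀ (ρ b : Fin 3 → ℝ) (mm : Fin 3 → ℤ × ℤ → ℝ), (∀ j, ρ00 ≤ ρ j) →
      4 * ρ 0 ≤ ρ 1 → 4 * ρ 1 ≤ ρ 2 →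
      (∀ j, Chg Cm (ρ j) (mm j)) → (∀ j, |b j| ≤ T) → ∑ j, b j = 0 →
      (∀ j, ∀ t ∈ Set.Icc (0 : ℝ) 1, 0 < wt a (t * b j)) →
      (∀ x ∈ Set.Icc (0 : ℝ) 1, ∀ y ∈ Set.Icc (0 : ℝ) 1, w₀ ≤ wt a (x * b 0 + y * b 1)) →
      (∀ y ∈ Set.Icc (0 : ℝ) 1, w₀ ≤ wt a (y * b 2)) →
      (∀ y ∈ Set.Icc (0 : ℝ) 1, w₀ ≤ wt a (-(y * b 2))) → ∀ S : Set ℕ, (b 2 = 0 ∨ 0 ∉ S) →
      (∀ ω, N1 ρ ω ∈ S → 0 ≤ Xa a (ff b mm) ω) ∧
      ENNReal.ofReal (exp (Sv a P κ ρ b mm - C)) *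
          (MM P ρ S (wt a (b 0) ^ (1 / p)) (wt a (b 0 + b 1) ^ (1 / p))) ^ p ≤
      ∫⁻ ω, S.indicator (fun _ => ENNReal.ofReal (Xa a (ff b mm) ω)) (N1 ρ ω) ∂P := by
  have hp0 : 0 < p := by linarith
  have hp1 : 0 < p - 1 := by linarith
  obtain ⟨C, ρ1, h1⟩ := vmom (a := a) (Cm := Cm) (T := T) hκ hS hL (-(1 / (p - 1))) (log w₀)
  obtain ⟨ρ2, h2⟩ := hlo κ Cm hκ hκ'
  refine ⟨(p - 1) * C, max (max ρ1 ρ2) 0,
    fun ρ b mm hρ h01 h12 hm hb hsum c1 c2 c3 c4 S hSb => ?_⟩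
  have hρ0 : ∀ j, 0 ≤ ρ j := fun j => le_trans (le_max_right _ _) (hρ j)
  obtain ⟨hY, hv, hE⟩ := h1 ρ b mm
    (fun j => le_trans (le_trans (le_max_left _ _) (le_max_left _ _)) (hρ j)) hm hb
  have hwa : 0 < wt a (b 0) := by
    have := c2 1 ⟨zero_le_one, le_rfl⟩ 0 ⟨le_rfl, zero_le_one⟩
    simp only [one_mul, zero_mul, add_zero] at this
    linarith
  have hwb : 0 < wt a (b 0 + b 1) := by
    have := c2 1 ⟨zero_le_one, le_rfl⟩ 1 ⟨zero_le_one, le_rfl⟩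
    simp only [one_mul] at this
    linarith
  have hcl : ∀ ω, N1 ρ ω ∈ S → exp (vv a κ (log w₀) ρ b mm ω) *
      (wt a (b 0) ^ N0 ρ ω * wt a (b 0 + b 1) ^ N1 ρ ω) ≤ Xa a (ff b mm) ω := by
    intro ω hSω
    rw [exp_vv hw0 (hY · ω)]
    have h := h2 ω ρ b mm w₀
      (le_trans (le_trans (le_max_right _ _) (le_max_left _ _)) (hρ 0)) h01 h12 hm hsum
      hw0 hw1 c1 c2 c3 c4 (by
        rcases hSb with h | h
        · exact Or.inl h
        · right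
          intro h0
          exact h (by rw [← h0]; exact hSω))
    refine le_trans (le_of_eq ?_) h
    unfold N0 N1 Kv Yv
    ring
  refine ⟨fun ω hSω => le_trans (by positivity) (hcl ω hSω), ?_⟩
  have hbd : ∀ ω, ENNReal.ofReal (exp (vv a κ (log w₀) ρ b mm ω)) *
      (ENNReal.ofReal (wt a (b 0) ^ N0 ρ ω) *
        S.indicator (fun n => ENNReal.ofReal (wt a (b 0 + b 1) ^ n)) (N1 ρ ω)) ≤
      S.indicator (fun _ => ENNReal.ofReal (Xa a (ff b mm) ω)) (N1 ρ ω) := by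
    intro ω
    by_cases hSω : N1 ρ ω ∈ S
    · rw [Set.indicator_of_mem hSω, Set.indicator_of_mem hSω,
        ← ENNReal.ofReal_mul (by positivity), ← ENNReal.ofReal_mul (Real.exp_pos _).le]
      exact ENNReal.ofReal_le_ofReal (hcl ω hSω)
    · rw [Set.indicator_of_notMem hSω, Set.indicator_of_notMem hSω, mul_zero, mul_zero]
  refine le_trans ?_ (lintegral_mono hbd)
  have h := holder_lo (B := Sv a P κ ρ b mm - (p - 1) * C) hv
    (meas_main hi ρ S (wt a (b 0)) (wt a (b 0 + b 1))) hp (by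
    refine le_trans hE (le_of_eq ?_)
    congr 2
    field_simp
    ring)
  rw [main_pow S hwa.le hwb.le (by positivity)] at h
  exact h

end Vale.Agent.P167.H562.GQ
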