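import Vale.Agent.P167.H562.GLow
import Vale.Agent.P167.H562.FThm

/-!
# P167, block F for a general angle: the exponents
-/

open MeasureTheory ProbabilityTheory Real Finset Filter Topology
open scoped ENNReal

namespace Vale.Agent.P167.H562.GQ

variable {P : Measure Cfg} {a Cm K κ : ℝ} {m : ℝ → ℕ → ℤ × ℤ → ℝ}

/-- The difference of the mean masses. -/
noncomputable def DD (a : ℝ) (P : Measure Cfg) (κ : ℝ) (m : ℝ → ℕ → ℤ × ℤ → ℝ) (x : ℝ × ℕ) : ℝ :=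
  Real.tan a * (nf P κ m 1 x.2 - nf P κ m x.1 x.2)

/-- Probability of no loop. -/
noncomputable def ZZ (P : Measure Cfg) (x : ℝ × ℕ) : ℝ := log (P.real {ω | NA x.1 1 x.2 ω = 0})

/-- Upper classification with two charges, real form. -/
theorem two_up' [IsProbabilityMeasure P] (H : Ctx a P Cm K κ m) {b p : ℝ} (hb0 : -(2 * a) ≤ b)
    (hb1 : b < π / 2 - a) (hp : 1 < p) : ∃ C, ∀ r : Fin 3 → ℝ,
    0 < r 0 → 4 * r 0 ≤ r 1 → 4 * r 1 ≤ r 2 → ∀ᶠ n : ℕ in atTop,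
      -(cAa a * b ^ 2 * log (r 1 / r 0)) - C ≤
        b * (Real.tan a * (nf P κ m (r 1) n - nf P κ m (r 0) n)) +
        lam P (NA (r 0) (r 1) n) (p * log (wt a b)) / p := by
  have hpi := Real.pi_pos
  have hpi2 := Real.pi_lt_four
  have ha0 := H.a0
  have ha1 := H.a1
  have ha2 := H.a2
  have hw : 0 < wt a b := wt_pos2 ha0 ha2 (by linarith) hb1
  have hb3 : |b| ≤ 3 := by
    rw [abs_le]
    constructor
    · have := Real.pi_lt_d2
      linarith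
    · linarith
  obtain ⟨C, h⟩ := two_up H hb3 hp
  refine ⟨C, fun r h0 h1 h2 => ?_⟩
  filter_upwards [h r h0 h1 h2] with n hn
  refine toReal_bound ?_ hn
  rw [abs_of_pos hw, En_pow (allExp_NA H _ _ _) hw]

/-- Upper classification at `b = π / 2 - a`. -/
theorem two_up0 [IsProbabilityMeasure P] (H : Ctx a P Cm K κ m) {p : ℝ} (hp : 1 < p) :
    ∃ C, ∀ r : Fin 3 → ℝ, 0 < r 0 → 4 * r 0 ≤ r 1 → 4 * r 1 ≤ r 2 → ∀ᶠ n : ℕ in atTop,
      0 < P.real {ω | NA (r 0) (r 1) n ω = 0} ∧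
      -(cAa a * (π / 2 - a) ^ 2 * log (r 1 / r 0)) - C ≤
        (π / 2 - a) * (Real.tan a * (nf P κ m (r 1) n - nf P κ m (r 0) n)) +
        log (P.real {ω | NA (r 0) (r 1) n ω = 0}) / p := by
  have hpi := Real.pi_pos
  have hpi2 := Real.pi_lt_four
  have ha0 := H.a0
  have ha1 := H.a1
  have hp0 : 0 < p := by linarith
  have hw : wt a (π / 2 - a) = 0 := wt_end
  have hb3 : |π / 2 - a| ≤ 3 := by
    rw [abs_of_pos (by linarith)]; linarith
  obtain ⟨C, h⟩ := two_up H hb3 hp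
  refine ⟨C, fun r h0 h1 h2 => ?_⟩
  filter_upwards [h r h0 h1 h2] with n hn
  rw [hw, abs_zero, Real.zero_rpow hp0.ne', En_zero (meas_NA H _ _ _)] at hn
  have hpos : 0 < P.real {ω | NA (r 0) (r 1) n ω = 0} := by
    rcases (measureReal_nonneg (μ := P) (s := {ω | NA (r 0) (r 1) n ω = 0})).eq_or_lt with h0 | h0
    · exfalso
      have h1 : P {ω | NA (r 0) (r 1) n ω = 0} = 0 := by
        rw [measureReal_def] at h0
        exact ((ENNReal.toReal_eq_zero_iff _).1 h0.symm).resolve_right (measure_ne_top _ _)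
      rw [h1, ENNReal.zero_rpow_of_pos (by positivity), mul_zero] at hn
      have := ENNReal.ofReal_pos.2 (Real.exp_pos (-(cAa a * (π / 2 - a) ^ 2 *
        log (r 1 / r 0)) - C))
      exact absurd hn (not_le.2 this)
    · exact h0
  refine ⟨hpos, toReal_bound ?_ hn⟩
  rw [Real.exp_log hpos, ofReal_measureReal]

lemma mom_bound [IsProbabilityMeasure P] (H : Ctx a P Cm K κ m) (u : ℝ) :
    ∃ C, 0 ≤ C ∧ ∀ r r' : ℝ, 0 < r → 8 * r ≤ r' →
    ∀ᶠ n : ℕ in atTop, lam P (NA r r' n) u ≤ C * log (r' / r) := by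
  obtain ⟨C, a0, h⟩ := H.mom u
  refine ⟨|C|, abs_nonneg C, fun r r' hr hr' => ?_⟩
  filter_upwards [ev_large hr a0, ev_large hr 6] with n h1 h2
  have hn : (0 : ℝ) ≤ n := Nat.cast_nonneg n
  have h3 : 8 * (r * n) ≤ r' * n := by nlinarith
  have h4 := h (2 * (r * n) + 2) (r' * n - 2) (by linarith) (by linarith)
  have hpos : 0 < ∫ ω, exp (u * (NA r r' n ω : ℝ)) ∂P := integral_exp_pos h4.1
  have h5 : lam P (NA r r' n) u ≤ log (((r' * n - 2) / (2 * (r * n) + 2)) ^ C) :=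
    Real.log_le_log hpos h4.2
  have h6 : 1 ≤ (r' * n - 2) / (2 * (r * n) + 2) := by
    rw [le_div_iff₀ (by linarith)]; linarith
  have h7 : (r' * n - 2) / (2 * (r * n) + 2) ≤ r' / r := by
    rw [div_le_div_iff₀ (by linarith) hr]
    nlinarith
  rw [Real.log_rpow (by linarith)] at h5
  refine h5.trans ?_
  have h8 : 0 ≤ log ((r' * n - 2) / (2 * (r * n) + 2)) := Real.log_nonneg h6
  calc C * log ((r' * n - 2) / (2 * (r * n) + 2)) ≤ |C| * log ((r' * n - 2) / (2 * (r * n) + 2)) :=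
        mul_le_mul_of_nonneg_right (le_abs_self C) h8
    _ ≤ _ := mul_le_mul_of_nonneg_left (Real.log_le_log (by linarith) h7) (abs_nonneg C)

/-- Conditional ring bound along the sequence; `R` is the ratio of the radii. -/
lemma ring_bound (H : Ctx a P Cm K κ m) : ∃ c Cr : ℝ, 0 < c ∧
    ∀ r : Fin 3 → ℝ, 0 < r 0 → 4 * r 0 ≤ r 1 → 8 * r 1 ≤ r 2 → ∀ᶠ n : ℕ in atTop,
      ∀ x : ℝ, 0 ≤ x →
        ∫⁻ ω in {ω | NA (r 1) (r 2) n ω = 0}, ENNReal.ofReal (x ^ NA (r 0) (r 1) n ω) ∂P ≤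
          ENNReal.ofReal (exp (Cr - c * log (r 2 / r 1))) * En P (NA (r 0) (r 1) n) x := by
  obtain ⟨c, C, hc, h⟩ := H.ring
  refine ⟨c, log ((|C| + 1) * 8 ^ c), hc, fun r h0 h1 h2 => ?_⟩
  have hr1 : 0 < r 1 := by linarith
  have hr2 : 0 < r 2 := by linarith
  filter_upwards [ev_large h0 6, ev_large hr1 6] with n h3 h4
  intro x hx
  have hn : (0 : ℝ) ≤ n := Nat.cast_nonneg n
  have h5 : 8 * (r 1 * n) ≤ r 2 * n := by nlinarith
  have h6 := h x hx (2 * (r 0 * n) + 2) (r 1 * n - 2) (2 * (r 1 * n) + 2) (r 2 * n - 2)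
    (by linarith) (by linarith) (by linarith) (by linarith)
  refine h6.trans (mul_le_mul_left (ENNReal.ofReal_le_ofReal ?_) _)
  have h7 : (2 * (r 1 * n) + 2) / (r 2 * n - 2) ≤ 8 * (r 1 / r 2) := by
    rw [← mul_div_assoc, div_le_div_iff₀ (by linarith) hr2]
    nlinarith
  have h8 : ((2 * (r 1 * n) + 2) / (r 2 * n - 2)) ^ c ≤ (8 * (r 1 / r 2)) ^ c :=
    Real.rpow_le_rpow (by apply div_nonneg <;> linarith) h7 hc.le
  have h9 : 0 ≤ ((2 * (r 1 * n) + 2) / (r 2 * n - 2)) ^ c :=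
    Real.rpow_nonneg (by apply div_nonneg <;> linarith) _
  have e1 : exp (log ((|C| + 1) * 8 ^ c) - c * log (r 2 / r 1)) =
      (|C| + 1) * 8 ^ c * (r 1 / r 2) ^ c := by
    rw [Real.exp_sub, Real.exp_log (by positivity), Real.rpow_def_of_pos (div_pos hr1 hr2)
      , div_eq_mul_inv, ← Real.exp_neg]
    congr 2
    rw [← inv_div, Real.log_inv]
    ring
  rw [e1]
  calc C * ((2 * (r 1 * n) + 2) / (r 2 * n - 2)) ^ c
      ≤ (|C| + 1) * ((2 * (r 1 * n) + 2) / (r 2 * n - 2)) ^ c :=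
        mul_le_mul_of_nonneg_right (by linarith [le_abs_self C]) h9
    _ ≤ (|C| + 1) * (8 * (r 1 / r 2)) ^ c := mul_le_mul_of_nonneg_left h8 (by positivity)
    _ = _ := by rw [Real.mul_rpow (by norm_num) (by positivity)]; ring

lemma wt_lt_one (ha0 : 0 < a) (ha2 : a < π / 2) {b : ℝ} (hb0 : 0 < b) (hb1 : b < π / 2 - a) :
    wt a b < 1 := by
  unfold wt
  rw [div_lt_one (cos_pos' ha0 ha2)]
  exact Real.cos_lt_cos_of_nonneg_of_le_pi (by linarith) (by linarith [Real.pi_pos]) (by linarith)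

lemma one_lt_wt (ha0 : 0 < a) (ha2 : a < π / 2) {b : ℝ} (hb0 : -a < b) (hb1 : b < 0) :
    1 < wt a b := by
  unfold wt
  rw [one_lt_div (cos_pos' ha0 ha2)]
  exact Real.cos_lt_cos_of_nonneg_of_le_pi (by linarith) (by linarith [Real.pi_pos]) (by linarith)

/-- Bound for the difference of the mean masses. -/
lemma D_bound [IsProbabilityMeasure P] (H : Ctx a P Cm K κ m) : ∃ C1 C2 : ℝ, 0 ≤ C1 ∧ 0 ≤ C2 ∧
    ∀ R : ℝ, 4 ≤ R → ∀ᶠ n : ℕ in atTop,
      |Real.tan a * (nf P κ m R n - nf P κ m 1 n)| ≤ C1 * log R + C2 := by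
  have hpi := Real.pi_pos
  have ha0 := H.a0
  have ha1 := H.a1
  have ha2 := H.a2
  set b1 : ℝ := (π / 2 - a) / 2 with hb1
  have hb1p : 0 < b1 := by rw [hb1]; linarith
  have hb1l : b1 < π / 2 - a := by rw [hb1]; linarith
  obtain ⟨D1, h1⟩ := two_up' H (b := -(2 * a)) (p := 2) le_rfl (by linarith) (by norm_num)
  obtain ⟨D2, h2⟩ := two_up' H (b := b1) (p := 2) (by linarith) hb1l (by norm_num)
  have hA : 0 < cAa a := by
    unfold cAa
    have : 0 < π - a := by linarith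
    positivity
  refine ⟨cAa a * (2 * a) + cAa a * b1, |D1| / (2 * a) + |D2| / b1, by positivity, by positivity,
    fun R hR => ?_⟩
  have hR0 : 0 < R := by linarith
  have hlR : 0 ≤ log R := Real.log_nonneg (by linarith)
  have q0 : (0 : ℝ) < (![1, R, 4 * R] : Fin 3 → ℝ) 0 := one_pos
  have q1 : 4 * (![1, R, 4 * R] : Fin 3 → ℝ) 0 ≤ (![1, R, 4 * R] : Fin 3 → ℝ) 1 := by
    show 4 * (1 : ℝ) ≤ R
    linarith
  have q2 : 4 * (![1, R, 4 * R] : Fin 3 → ℝ) 1 ≤ (![1, R, 4 * R] : Fin 3 → ℝ) 2 := le_rfl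
  filter_upwards [h1 _ q0 q1 q2, h2 _ q0 q1 q2] with n g1 g2
  have g1' : -(cAa a * (-(2 * a)) ^ 2 * log (R / 1)) - D1 ≤
        -(2 * a) * (Real.tan a * (nf P κ m R n - nf P κ m 1 n)) +
        lam P (NA 1 R n) (2 * log (wt a (-(2 * a)))) / 2 := g1
  have g2' : -(cAa a * b1 ^ 2 * log (R / 1)) - D2 ≤
        b1 * (Real.tan a * (nf P κ m R n - nf P κ m 1 n)) +
        lam P (NA 1 R n) (2 * log (wt a b1)) / 2 := g2
  rw [wt_neg_two ha0 ha2, Real.log_one, mul_zero, lam_zero, zero_div, add_zero, div_one] at g1'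
  have g3 : lam P (NA 1 R n) (2 * log (wt a b1)) ≤ 0 := by
    rw [← lam_zero (P := P) (NA 1 R n)]
    refine lam_mono (allExp_NA H _ _ _) ?_
    have := Real.log_nonpos (wt_pos2 ha0 ha2 (by linarith) hb1l).le
      (wt_lt_one ha0 ha2 hb1p hb1l).le
    linarith
  rw [div_one] at g2'
  set D : ℝ := Real.tan a * (nf P κ m R n - nf P κ m 1 n) with hD
  have k1 : D ≤ cAa a * (2 * a) * log R + |D1| / (2 * a) := by
    have e : |D1| / (2 * a) * (2 * a) = |D1| := div_mul_cancel₀ _ (by linarith)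
    have : D * (2 * a) ≤ (cAa a * (2 * a) * log R + |D1| / (2 * a)) * (2 * a) := by
      rw [add_mul, e]
      have := le_abs_self D1
      nlinarith
    exact le_of_mul_le_mul_right this (by linarith)
  have k2 : -D ≤ cAa a * b1 * log R + |D2| / b1 := by
    have e : |D2| / b1 * b1 = |D2| := div_mul_cancel₀ _ (by linarith)
    have : -D * b1 ≤ (cAa a * b1 * log R + |D2| / b1) * b1 := by
      rw [add_mul, e]
      have := le_abs_self D2
      nlinarith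
    exact le_of_mul_le_mul_right this hb1p
  have k3 : 0 ≤ cAa a * (2 * a) * log R := by positivity
  have k4 : 0 ≤ cAa a * b1 * log R := by positivity
  have k5 : 0 ≤ |D1| / (2 * a) := by positivity
  have k6 : 0 ≤ |D2| / b1 := by positivity
  rw [abs_le]
  constructor <;> nlinarith

/-- The three-charge estimate along the filter `FF`. -/
theorem low_three [IsProbabilityMeasure P] (H : Ctx a P Cm K κ m) : ∃ cr : ℝ, 0 < cr ∧
    ∀ b, -a < b → b < 0 → ∃ C0 : ℝ, ∀ p θ, 1 < p → p ≤ 2 → 0 < θ → θ ≤ 1 →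
      ∃ C, ∀ᶠ x in FF,
      b * DD a P κ m x + p * lam P (NA x.1 1 x.2) (log (wt a b) / p) ≤
        -(cAa a * b ^ 2 * LL x) + C0 * θ * LL x + C ∨
      p * lam P (NA x.1 1 x.2) (log (wt a b) / p) ≤
        -(cr / 2 * θ * LL x) + C + lam P (NA x.1 1 x.2) (p * log (wt a b)) / p := by
  have hpi := Real.pi_pos
  have hpi2 := Real.pi_lt_four
  have ha0 := H.a0
  have ha1 := H.a1
  have ha2 := H.a2
  have hA : 0 < cAa a := by
    unfold cAa
    have : 0 < π - a := by linarith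
    positivity
  obtain ⟨cr, Cr, hcr, hring⟩ := ring_bound H
  obtain ⟨D1, D2, hD1, hD2, hD⟩ := D_bound H
  have h18 : (0 : ℝ) < 1 / 8 := by norm_num
  refine ⟨cr, hcr, fun b hb0 hb1 => ?_⟩
  refine ⟨D1, fun p θ hp hp2 hθ0 hθ1 => ?_⟩
  have hp0 : 0 < p := by linarith
  obtain ⟨C, hC⟩ := three_lo H (b := b) (p := p) hb0 hb1 hp hp2
  refine ⟨|C| + D2 * 3 + |Cr|, ?_⟩
  rw [ev_FF]
  -- the outer radius
  have hlarge : ∀ M : ℝ, ∀ᶠ ε in 𝓝[>] (0 : ℝ), M ≤ θ * log (1 / ε) := by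
    intro M
    filter_upwards [ev_eps (Real.exp_pos (-(M / θ)))] with ε hε
    simp only [one_div, Real.log_inv]
    have := Real.log_lt_log hε.1 hε.2
    rw [Real.log_exp] at this
    have h1 : M / θ ≤ -log ε := by linarith
    rw [div_le_iff₀ hθ0] at h1
    linarith
  filter_upwards [ev_eps h18, hlarge (log 8), hlarge ((Cr + log 2) / cr)] with ε hε hε2 hε3
  set L : ℝ := log (1 / ε) with hL
  set R : ℝ := exp (θ * L) with hR
  have hR8 : 8 ≤ R := by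
    rw [hR, ← Real.exp_log (show (0 : ℝ) < 8 by norm_num)]
    exact Real.exp_le_exp.2 hε2
  have hlR : log R = θ * L := by rw [hR, Real.log_exp]
  have hε1 : 0 < ε := hε.1
  have hL0 : 0 < L := Real.log_pos (by rw [lt_div_iff₀ hε1]; linarith [hε.2])
  have hδ : exp (Cr - cr * (θ * L)) ≤ 1 / 2 := by
    have e : (1 / 2 : ℝ) = exp (-log 2) := by rw [Real.exp_neg, Real.exp_log two_pos]; norm_num
    rw [e]
    apply Real.exp_le_exp.2
    rw [div_le_iff₀ hcr] at hε3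
    linarith
  have q0 : (0 : ℝ) < (![ε, 1, R] : Fin 3 → ℝ) 0 := hε1
  have q1 : 4 * (![ε, 1, R] : Fin 3 → ℝ) 0 ≤ (![ε, 1, R] : Fin 3 → ℝ) 1 := by
    show 4 * ε ≤ 1
    linarith [hε.2]
  have q2 : 4 * (![ε, 1, R] : Fin 3 → ℝ) 1 ≤ (![ε, 1, R] : Fin 3 → ℝ) 2 := by
    show 4 * (1 : ℝ) ≤ R
    linarith
  have q3 : 8 * (![ε, 1, R] : Fin 3 → ℝ) 1 ≤ (![ε, 1, R] : Fin 3 → ℝ) 2 := by
    show 8 * (1 : ℝ) ≤ R
    linarith
  have hrg := hring (![ε, 1, R] : Fin 3 → ℝ) q0 q1 q3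
  have hlr : log ((![ε, 1, R] : Fin 3 → ℝ) 2 / (![ε, 1, R] : Fin 3 → ℝ) 1) = θ * L := by
    show log (R / 1) = θ * L
    rw [div_one, hlR]
  have hlr2 : log ((![ε, 1, R] : Fin 3 → ℝ) 1 / (![ε, 1, R] : Fin 3 → ℝ) 0) = L := rfl
  rw [hlr] at hrg
  have hthree := hC (![ε, 1, R] : Fin 3 → ℝ) q0 q1 q2 (Cr - cr * (θ * L)) hδ hrg
  rw [hlr, hlr2] at hthree
  filter_upwards [hthree, hD R (by linarith)] with n h1 h2
  have h1' : b * (Real.tan a * (nf P κ m 1 n - nf P κ m ε n)) +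
        p * lam P (NA ε 1 n) (log (wt a b) / p) ≤
        -(cAa a * (b ^ 2 * L + (b / 2) ^ 2 * (θ * L))) -
          b / 2 * (Real.tan a * (nf P κ m R n - nf P κ m 1 n)) + C ∨
      p * lam P (NA ε 1 n) (log (wt a b) / p) ≤
        C + (Cr - cr * (θ * L) + lam P (NA ε 1 n) (p * log (wt a b))) / p := h1
  rw [hlR] at h2
  have hθL : 0 < θ * L := mul_pos hθ0 hL0
  rcases h1' with h | h
  · left
    show b * (Real.tan a * (nf P κ m 1 n - nf P κ m ε n)) +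
      p * lam P (NA ε 1 n) (log (wt a b) / p) ≤
      -(cAa a * b ^ 2 * L) + D1 * θ * L + (|C| + D2 * 3 + |Cr|)
    have g1 : -(b / 2 * (Real.tan a * (nf P κ m R n - nf P κ m 1 n))) ≤
        D1 * (θ * L) + D2 := by
      have g2 := (abs_le.1 h2).2
      have g4 : (Real.tan a * (nf P κ m R n - nf P κ m 1 n)) * (-(b / 2)) ≤
          (D1 * (θ * L) + D2) * (-(b / 2)) := mul_le_mul_of_nonneg_right g2 (by linarith)
      have g5 : (D1 * (θ * L) + D2) * (-(b / 2)) ≤ (D1 * (θ * L) + D2) * 1 :=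
        mul_le_mul_of_nonneg_left (by linarith) (by positivity)
      linarith
    have g3 : 0 ≤ cAa a * ((b / 2) ^ 2 * (θ * L)) := by positivity
    have g4 := le_abs_self C
    have g5 := abs_nonneg Cr
    nlinarith
  · right
    show p * lam P (NA ε 1 n) (log (wt a b) / p) ≤
      -(cr / 2 * θ * L) + (|C| + D2 * 3 + |Cr|) + lam P (NA ε 1 n) (p * log (wt a b)) / p
    have g2 : (Cr - cr * (θ * L)) / p ≤ |Cr| - cr / 2 * (θ * L) := by
      rw [div_le_iff₀ hp0]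
      have g3 := le_abs_self Cr
      have g4 := abs_nonneg Cr
      have g5 : 0 < cr * (θ * L) := mul_pos hcr hθL
      nlinarith
    rw [add_div] at h
    have g4 := le_abs_self C
    nlinarith

lemma rad1 {ε : ℝ} (h0 : 0 < ε) (h1 : ε < 1 / 8) : 0 < (![ε, 1, 4] : Fin 3 → ℝ) 0 ∧
    4 * (![ε, 1, 4] : Fin 3 → ℝ) 0 ≤ (![ε, 1, 4] : Fin 3 → ℝ) 1 ∧
    4 * (![ε, 1, 4] : Fin 3 → ℝ) 1 ≤ (![ε, 1, 4] : Fin 3 → ℝ) 2 := by
  refine ⟨h0, ?_, ?_⟩
  · show 4 * ε ≤ 1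
    linarith
  · show 4 * (1 : ℝ) ≤ 4
    norm_num

/-- Transfer of an eventual statement about the radii `ε`, `1`, `4` to the filter `FF`. -/
lemma ev_of {Q : (Fin 3 → ℝ) → ℕ → Prop} {Q' : ℝ × ℕ → Prop}
    (h : ∀ r : Fin 3 → ℝ, 0 < r 0 → 4 * r 0 ≤ r 1 → 4 * r 1 ≤ r 2 → ∀ᶠ n : ℕ in atTop, Q r n)
    (hQ : ∀ ε n, 0 < ε → ε < 1 / 8 → Q ![ε, 1, 4] n → Q' (ε, n)) : ∀ᶠ x in FF, Q' x := by
  rw [ev_FF]
  filter_upwards [ev_eps (show (0 : ℝ) < 1 / 8 by norm_num)] with ε hε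
  obtain ⟨a1, a2, a3⟩ := rad1 hε.1 hε.2
  filter_upwards [h _ a1 a2 a3] with n hn
  exact hQ ε n hε.1 hε.2 hn

lemma ev_Z [IsProbabilityMeasure P] (H : Ctx a P Cm K κ m) (u : ℝ) :
    ∀ᶠ x in FF, ZZ P x ≤ lam P (NA x.1 1 x.2) u := by
  obtain ⟨C, hC⟩ := two_up0 H (p := 2) (by norm_num)
  refine ev_of hC fun ε n _ _ hn => ?_
  have hpos : 0 < P.real {ω | NA ε 1 n ω = 0} := hn.1
  show log (P.real {ω | NA ε 1 n ω = 0}) ≤ lam P (NA ε 1 n) u
  unfold lam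
  apply Real.log_le_log hpos
  have hA := allExp_NA H ε 1 n u
  have hs : MeasurableSet {ω | NA ε 1 n ω = 0} :=
    meas_NA H ε 1 n (measurableSet_singleton 0)
  have e1 : P.real {ω | NA ε 1 n ω = 0} =
      ∫ ω, ({ω | NA ε 1 n ω = 0} : Set Cfg).indicator (fun _ => (1 : ℝ)) ω ∂P := by
    rw [integral_indicator_const _ hs]; simp
  rw [e1]
  refine integral_mono ((integrable_const 1).indicator hs) hA fun ω => ?_
  by_cases h : NA ε 1 n ω = 0
  · rw [Set.indicator_of_mem (by exact h)]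
    simp [h]
  · rw [Set.indicator_of_notMem (by exact h)]
    exact (Real.exp_pos _).le

lemma ev_N [IsProbabilityMeasure P] (H : Ctx a P Cm K κ m) (u : ℝ) :
    ∃ C, ∀ᶠ x in FF, lam P (NA x.1 1 x.2) u ≤ C * LL x := by
  obtain ⟨C, hC0, hC⟩ := mom_bound H u
  refine ⟨C, ?_⟩
  rw [ev_FF]
  filter_upwards [ev_eps (show (0 : ℝ) < 1 / 8 by norm_num)] with ε hε
  exact hC ε 1 hε.1 (by linarith [hε.2])

lemma ev_U [IsProbabilityMeasure P] (H : Ctx a P Cm K κ m) (b p : ℝ) (hb0 : -(2 * a) ≤ b)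
    (hb1 : b < π / 2 - a) (hp : 1 < p) : ∃ C, ∀ᶠ x in FF,
      -(cAa a * b ^ 2 * LL x) - C ≤
        b * DD a P κ m x + lam P (NA x.1 1 x.2) (p * log (wt a b)) / p := by
  obtain ⟨C, hC⟩ := two_up' H (b := b) (p := p) hb0 hb1 hp
  exact ⟨C, ev_of hC fun ε n _ _ hn => hn⟩

lemma ev_U0 [IsProbabilityMeasure P] (H : Ctx a P Cm K κ m) (p : ℝ) (hp : 1 < p) :
    ∃ C, ∀ᶠ x in FF,
      -(cAa a * (π / 2 - a) ^ 2 * LL x) - C ≤ (π / 2 - a) * DD a P κ m x + ZZ P x / p := by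
  obtain ⟨C, hC⟩ := two_up0 H (p := p) hp
  exact ⟨C, ev_of hC fun ε n _ _ hn => hn.2⟩

lemma ev_L1 [IsProbabilityMeasure P] (H : Ctx a P Cm K κ m) (b p : ℝ) (hb0 : 0 < b)
    (hb1 : b < π / 2 - a) (hp : 1 < p) : ∃ C, ∀ᶠ x in FF,
      b * DD a P κ m x + p * lam P (NA x.1 1 x.2) (log (wt a b) / p) ≤
        -(cAa a * b ^ 2 * LL x) + C := by
  obtain ⟨C, hC⟩ := two_lo H (b := b) (p := p) hb0 hb1 hp
  exact ⟨C, ev_of hC fun ε n _ _ hn => hn⟩

/-- The result of block F along the filter `FF`. -/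
theorem main_lim [IsProbabilityMeasure P] (H : Ctx a P Cm K κ m) :
    (∀ b, -a < b → b < π / 2 - a →
      Tendsto (fun x : ℝ × ℕ => lam P (NA x.1 1 x.2) (log (wt a b)) / LL x) FF
        (𝓝 (-(cAa a * (b ^ 2 + 2 * a * b))))) ∧
    Tendsto (fun x => ZZ P x / LL x) FF (𝓝 (-(cAa a * (π ^ 2 / 4 - a ^ 2)))) := by
  obtain ⟨cr, hcr, hlow⟩ := low_three H
  exact fabs2 (F := FF) (L := LL) tendsto_LL (μ := a) (A := cAa a) H.a0 H.a2
    (Λ := fun x => lam P (NA x.1 1 x.2)) (Z := ZZ P) (D := DD a P κ m) (c := cr / 2)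
    (half_pos hcr)
    (Filter.Eventually.of_forall fun x => lam_convex (allExp_NA H _ _ _))
    (Filter.Eventually.of_forall fun x => lam_zero _)
    (Filter.Eventually.of_forall fun x => lam_mono (allExp_NA H _ _ _))
    (ev_Z H) (ev_N H)
    (fun b p hb0 hb1 hp _ => ev_U H b p hb0 hb1 hp)
    (fun p hp _ => ev_U0 H p hp)
    (fun b p hb0 hb1 hp _ => ev_L1 H b p hb0 hb1 hp)
    hlow

end Vale.Agent.P167.H562.GQ
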