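import Vale.Agent.P167.H562.GLin2
import Vale.Agent.P167.H562.GDet
import Vale.Agent.P167.H685.GSm
import Vale.Agent.P167.H562.GRml
import Vale.Agent.P167.H685.GFin
import Vale.Agent.P167.H685.GGauss

/-!
# P167, general `q`: the exponents for the infinite-volume measure
-/

namespace Vale.Agent.P167.H562.GL

open MeasureTheory Vale.Agent.P167.FK Vale.Agent.P167.FKA
open Vale.Agent.P167.H519 (IsLim)

/-- `G_small` from the RSW property. -/
theorem g_small {Q : ℝ} (hQ : 1 ≤ Q) (h : RSW Q) {P : Measure Cfg} (hP : IsLim Q P) {a : ℝ}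
    (ha0 : 0 < a) (ha : a < Real.pi / 2) : G_small a P := by
  obtain ⟨al, Ca, hal, hCa, h1, h2⟩ := arm_fk hQ h
  have hX := crossP hP (crossFK hQ h)
  have : IsProbabilityMeasure P := hP.1
  exact H685.small_mainP ha0 ha hX (lin_P hQ hal hCa h1 hP hX)

/-- The exponents of the nesting counts for the random-cluster measure with `√q = 2 cos a`, from the
RSW property and the Gaussian limit of the six-vertex model. -/
theorem g_full {a : ℝ} (ha0 : 0 < a) (ha1 : a ≤ Real.pi / 3) (hG : H638.GffG a)
    (hR : RSW (2 * Real.cos a)) {P : Measure Cfg} (hP : IsLim (2 * Real.cos a) P) :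
    G_F1 a P ∧ G_F2 a P ∧ G_F3 a P := by
  have hpi := Real.pi_pos
  have hQ : 1 ≤ 2 * Real.cos a := by
    have := Real.cos_le_cos_of_nonneg_of_le_pi ha0.le (by linarith) ha1
    rw [Real.cos_pi_div_three] at this
    linarith
  have : IsProbabilityMeasure P := hP.1
  obtain ⟨h1, h2, h3⟩ := g_rml' hQ hR hP
  have hid := H685.g_id_rsw ha0.le ha1 hR hP
  exact GQ.g_F' ha0 ha1 (H685.g_gauss (by linarith) hG hid)
    (g_small hQ hR hP ha0 (by linarith)) h3 h1 h2

end Vale.Agent.P167.H562.GL
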