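import Vale.Agent.P167.H562.GNu
import Vale.Agent.P167.H562.GLg

/-!
# P167, general `q`: large loops under the conditioned measures
-/

namespace Vale.Agent.P167.H562.GL

open Finset Filter Topology MeasureTheory
open Vale.Agent.P167.H45 (gp BL BL_fin BL_eq BL_meas exists_pq grid_fin count_le cross_many nm_sub_le
  nm_sub_comm nm_add_le nm_le LV LV_fin LV_ncard Kn_le Kn_meas far_point NS NS_fin NS_meas scales
  IsLoop.nonempty)
open Vale.Agent.P167.H166 (bxx mem_bxx)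

/-- Uniform bound for the exponential moments of the number of large loops. -/
theorem large_genU {P : Measure Cfg} (hX : CrossP P) (hcon : S_con) (h2 : S_two) (κ s : ℝ)
    (hκ : 0 < κ) :
    ∃ C : ℝ, ∀ (ν : Measure Cfg) (U : Finset (ℤ × ℤ)), Nu P ν U → ∀ (c : ℤ × ℤ) (ρ : ℝ), 1 ≤ ρ →
      (∀ v, (nm (v - c) : ℝ) ≤ (1 + 2 * κ) * ρ → v ∈ U) →
      Em ν (fun ω => s * ((BL c ρ (κ * ρ) ω).ncard : ℝ)) ≤ ENNReal.ofReal C := by
  classical
  obtain ⟨k, l, C0, hk, hl, hC0, h⟩ := hX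
  choose! Z hZ1 hZ2 hZ3 using h
  obtain ⟨θ, b, hθ, hb, hEm⟩ := Em_crossU hk hl hC0 hZ1
  obtain ⟨n, hn⟩ := exists_nat_ge (|s| / θ)
  have hsn : |s| ≤ θ * (n + 1 : ℕ) := by
    rw [div_le_iff₀ hθ] at hn
    push_cast
    nlinarith
  set N : ℕ := n + 1 with hN
  have hN1 : (1 : ℝ) ≤ N := by rw [hN]; push_cast; linarith [Nat.cast_nonneg (α := ℝ) n]
  have hkR : (2 : ℝ) ≤ k := by exact_mod_cast hk
  set a : ℝ := 4 * (k + 3) * N with ha
  have ha0 : 0 < a := by positivity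
  set ρ1 : ℝ := a / κ with hρ1
  set D : ℝ := (4 * (1 + κ) * (a / κ) + 2) ^ 2 with hD
  refine ⟨max (Real.exp (D * b)) (Real.exp (|s| * (4 * (2 * ρ1 + 1) ^ 2))),
    fun ν U hν c ρ hρ hU => ?_⟩
  have hνp : IsProbabilityMeasure ν := hν.prob
  have hcr := crossU_of hZ1 hZ3 hν
  by_cases hρ1' : ρ1 ≤ ρ
  · -- the main case
    refine le_trans ?_ (ENNReal.ofReal_le_ofReal (le_max_left _ _))
    have hxa : 1 ≤ κ * ρ / a := by
      rw [hρ1, div_le_iff₀ hκ] at hρ1'
      rw [one_le_div ha0]; linarith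
    set r : ℤ := ⌊κ * ρ / a⌋ with hr
    have hr1 : 1 ≤ r := by rw [hr, Int.le_floor]; exact_mod_cast hxa
    have hrle : (r : ℝ) ≤ κ * ρ / a := Int.floor_le _
    have hrge : κ * ρ / a ≤ 2 * r := by
      have := Int.lt_floor_add_one (κ * ρ / a)
      have h1 : (1 : ℝ) ≤ r := by exact_mod_cast hr1
      rw [← hr] at this
      linarith
    have hrle' : a * r ≤ κ * ρ := by
      rw [le_div_iff₀ ha0] at hrle; linarith
    have hr1' : (1 : ℝ) ≤ r := by exact_mod_cast hr1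
    set P1 : ℤ := ⌊(1 + κ) * ρ⌋ with hP
    have hP0 : 0 ≤ P1 := by
      rw [hP]; exact Int.floor_nonneg.2 (by positivity)
    obtain ⟨J0, hJ01, hJ02⟩ := grid_fin c hr1 hP0
    set J := J0.filter (fun z => nm (gp r z - c) ≤ P1) with hJ
    have hJ1 : ∀ z, nm (gp r z - c) ≤ P1 → z ∈ J := fun z hz => Finset.mem_filter.2 ⟨hJ01 z hz, hz⟩
    have hJ2 : (J.card : ℤ) ≤ (2 * P1 / r + 2) ^ 2 :=
      le_trans (by exact_mod_cast Finset.card_filter_le _ _) hJ02
    have hJcard : (J.card : ℝ) ≤ D := by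
      have h1 : ((J.card : ℤ) : ℝ) ≤ ((2 * P1 / r + 2 : ℤ) : ℝ) ^ 2 := by exact_mod_cast hJ2
      have h3 : ((2 * P1 / r : ℤ) : ℝ) ≤ 4 * (1 + κ) * (a / κ) := by
        have h4 : ((2 * P1 / r : ℤ) : ℝ) * r ≤ 2 * P1 := by
          exact_mod_cast Int.ediv_mul_le (2 * P1) (by omega : r ≠ 0)
        have h5 : (P1 : ℝ) ≤ (1 + κ) * ρ := Int.floor_le _
        have h6 : (2 * P1 : ℝ) ≤ 4 * (1 + κ) * (a / κ) * r := by
          have h7 : κ * ρ ≤ 2 * r * a := by rw [div_le_iff₀ ha0] at hrge; linarith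
          have h8 : ρ ≤ 2 * r * (a / κ) := by
            rw [mul_div_assoc', le_div_iff₀ hκ]; linarith
          nlinarith
        have h9 : ((2 * P1 / r : ℤ) : ℝ) * r ≤ 4 * (1 + κ) * (a / κ) * r := by linarith
        exact le_of_mul_le_mul_right h9 (by linarith)
      have h4 : (0 : ℝ) ≤ ((2 * P1 / r : ℤ) : ℝ) := by
        exact_mod_cast Int.ediv_nonneg (by omega : (0 : ℤ) ≤ 2 * P1) (by omega)
      have h5 : ((2 * P1 / r + 2 : ℤ) : ℝ) = ((2 * P1 / r : ℤ) : ℝ) + 2 := by push_cast; rfl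
      rw [h5] at h1
      rw [hD]
      have h6 : ((J.card : ℤ) : ℝ) = (J.card : ℝ) := by norm_cast
      rw [h6] at h1
      refine h1.trans ?_
      exact pow_le_pow_left₀ (by linarith) (by linarith) 2
    set I : Finset (ℕ × (ℤ × ℤ)) := {0} ×ˢ J with hI
    have hEmI := hEm ν U hνp hcr (fun _ => r) (fun _ => hr1) I (fun i hi v hv => by
      rw [hI, Finset.mem_product] at hi
      have g1 : nm (gp r i.2 - c) ≤ P1 := (Finset.mem_filter.1 hi.2).2
      have g2 : nm (v - gp r i.2) ≤ k * r := mem_bxx.1 hv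
      have g3 : nm (v - c) ≤ k * r + P1 := (nm_sub_le _ _ _).trans (add_le_add g2 g1)
      have g4 : (nm (v - c) : ℝ) ≤ k * r + P1 := by exact_mod_cast g3
      have g5 : (P1 : ℝ) ≤ (1 + κ) * ρ := Int.floor_le _
      have g6 : (k : ℝ) * r ≤ κ * ρ := by
        refine le_trans ?_ hrle'
        refine mul_le_mul_of_nonneg_right ?_ (by linarith)
        rw [ha]
        nlinarith
      exact hU v (by linarith)) (fun i hi i' hi' hne => by
      rw [hI, Finset.mem_product, Finset.mem_singleton] at hi hi'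
      exact absurd (hi.1.trans hi'.1.symm) hne)
    have hIcard : (I.card : ℝ) = J.card := by rw [hI, Finset.card_product]; simp
    rw [hIcard] at hEmI
    refine le_trans ?_ (hEmI.trans (ENNReal.ofReal_le_ofReal (Real.exp_le_exp.2
      (mul_le_mul_of_nonneg_right hJcard hb))))
    refine Em_mono fun ω => ?_
    have hcount := count_le h2 (k := k) I (fun i => gp r i.2) (fun _ => r)
      (fun i => Z (gp r i.2) r ω) (ω := ω) (fun i _ => hZ2 (gp r i.2) r hr1 ω)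
      (BL_fin h2 c ρ (κ * ρ) ω) (fun ℓ hℓ => hℓ.1) (n := N) (fun ℓ hℓ => by
        obtain ⟨p, hp, q, hq, h5, h6⟩ := exists_pq hℓ
        have h7 : (k + 3) * r * (N : ℕ) < nm (q - p) := by
          have h8 : ((k : ℝ) + 3) * r * N < nm (q - p) := by
            have h9 : 4 * (((k : ℝ) + 3) * r * N) ≤ κ * ρ := by
              have : a * r = 4 * (((k : ℝ) + 3) * r * N) := by rw [ha]; ring
              linarith
            have : 0 < κ * ρ := by positivity
            linarith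
          exact_mod_cast h8
        obtain ⟨T, hT1, hT2⟩ := cross_many hcon hℓ.1 hp hq (by omega) hr1 h7
        refine ⟨T.map ⟨fun z => ((0 : ℕ), z), fun z z' hz => (Prod.ext_iff.1 hz).2⟩, ?_, ?_, ?_⟩
        · intro i hi
          rw [Finset.mem_map] at hi
          obtain ⟨z, hz, rfl⟩ := hi
          rw [hI, Finset.mem_product]
          refine ⟨Finset.mem_singleton.2 rfl, hJ1 z ?_⟩
          have h8 := (hT2 z hz).2
          have h9 : nm (gp r z - c) ≤ nm (gp r z - p) + nm (p - c) := nm_sub_le _ _ _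
          rw [hP, Int.le_floor]
          have h10 : (nm (gp r z - c) : ℝ) ≤ ((k + 3) * r * (N : ℕ) + r) + nm (p - c) := by
            have : nm (gp r z - c) ≤ ((k + 3) * r * (N : ℕ) + r) + nm (p - c) := by linarith
            exact_mod_cast this
          have h11 : 4 * (((k : ℝ) + 3) * r * N) ≤ κ * ρ := by
            have : a * r = 4 * (((k : ℝ) + 3) * r * N) := by rw [ha]; ring
            linarith
          have h12 : (r : ℝ) ≤ ((k : ℝ) + 3) * r * N := by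
            calc (r : ℝ) = 1 * r * 1 := by ring
              _ ≤ ((k : ℝ) + 3) * r * N := by gcongr; linarith
          have h13 : 0 < κ * ρ := by positivity
          have h14 : (1 + κ) * ρ = ρ + κ * ρ := by ring
          push_cast at h10
          linarith
        · rw [Finset.card_map]; exact hT1
        · intro i hi
          rw [Finset.mem_map] at hi
          obtain ⟨z, hz, rfl⟩ := hi
          exact (hT2 z hz).1)
    have h5 : (N : ℝ) * ((BL c ρ (κ * ρ) ω).ncard : ℝ) ≤ ∑ i ∈ I, (Z (gp r i.2) r ω : ℝ) := by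
      exact_mod_cast hcount
    have h6 : (0 : ℝ) ≤ ((BL c ρ (κ * ρ) ω).ncard : ℝ) := by positivity
    calc s * ((BL c ρ (κ * ρ) ω).ncard : ℝ) ≤ |s| * ((BL c ρ (κ * ρ) ω).ncard : ℝ) :=
          mul_le_mul_of_nonneg_right (le_abs_self s) h6
      _ ≤ θ * N * ((BL c ρ (κ * ρ) ω).ncard : ℝ) := mul_le_mul_of_nonneg_right hsn h6
      _ = θ * (N * ((BL c ρ (κ * ρ) ω).ncard : ℝ)) := by ring
      _ ≤ _ := mul_le_mul_of_nonneg_left h5 hθ.le
  · -- bounded scales
    push Not at hρ1'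
    refine le_trans ?_ (ENNReal.ofReal_le_ofReal (le_max_right _ _))
    have hbd : ∀ ω, ((BL c ρ (κ * ρ) ω).ncard : ℝ) ≤ 4 * (2 * ρ1 + 1) ^ 2 := by
      intro ω
      obtain ⟨J, hJ1, hJ2⟩ := grid_fin c (le_refl (1 : ℤ)) (P := ⌊ρ⌋)
        (Int.floor_nonneg.2 (by linarith))
      obtain ⟨B, hB, hBe⟩ := BL_eq c ρ (κ * ρ)
      have hBe' : B = (Finset.Icc (c.1 - ⌊ρ⌋) (c.1 + ⌊ρ⌋)) ×ˢ
          (Finset.Icc (c.2 - ⌊ρ⌋) (c.2 + ⌊ρ⌋)) := by
        ext v
        rw [hB, nm_le, Finset.mem_product, Finset.mem_Icc, Finset.mem_Icc]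
        simp only [Prod.fst_sub, Prod.snd_sub, abs_le]
        omega
      have h1 : (BL c ρ (κ * ρ) ω).ncard ≤ 4 * B.card := by
        rw [hBe]
        exact (Set.ncard_le_ncard (fun ℓ hl => hl.1) (LV_fin h2 B ω)).trans (LV_ncard h2 B ω)
      have h3 : (B.card : ℝ) ≤ (2 * ρ1 + 1) ^ 2 := by
        rw [hBe', Finset.card_product, Int.card_Icc, Int.card_Icc]
        have h4 : (0 : ℤ) ≤ ⌊ρ⌋ := Int.floor_nonneg.2 (by linarith)
        have h5 : c.1 + ⌊ρ⌋ + 1 - (c.1 - ⌊ρ⌋) = 2 * ⌊ρ⌋ + 1 := by ring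
        have h6 : c.2 + ⌊ρ⌋ + 1 - (c.2 - ⌊ρ⌋) = 2 * ⌊ρ⌋ + 1 := by ring
        rw [h5, h6, Nat.cast_mul, ← sq]
        have h7 : (((2 * ⌊ρ⌋ + 1).toNat : ℕ) : ℝ) = 2 * (⌊ρ⌋ : ℝ) + 1 := by
          have : (((2 * ⌊ρ⌋ + 1).toNat : ℕ) : ℤ) = 2 * ⌊ρ⌋ + 1 := Int.toNat_of_nonneg (by omega)
          exact_mod_cast this
        rw [h7]
        have h8 : (⌊ρ⌋ : ℝ) ≤ ρ1 := (Int.floor_le ρ).trans hρ1'.le
        have h9 : (0 : ℝ) ≤ (⌊ρ⌋ : ℝ) := by exact_mod_cast h4
        exact pow_le_pow_left₀ (by linarith) (by linarith) 2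
      calc ((BL c ρ (κ * ρ) ω).ncard : ℝ) ≤ 4 * (B.card : ℝ) := by exact_mod_cast h1
        _ ≤ _ := by linarith
    unfold Em
    calc ∫⁻ ω, ENNReal.ofReal (Real.exp (s * ((BL c ρ (κ * ρ) ω).ncard : ℝ))) ∂ν
        ≤ ∫⁻ _ω, ENNReal.ofReal (Real.exp (|s| * (4 * (2 * ρ1 + 1) ^ 2))) ∂ν := by
          refine lintegral_mono fun ω => ENNReal.ofReal_le_ofReal (Real.exp_le_exp.2 ?_)
          calc s * ((BL c ρ (κ * ρ) ω).ncard : ℝ) ≤ |s| * ((BL c ρ (κ * ρ) ω).ncard : ℝ) :=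
                mul_le_mul_of_nonneg_right (le_abs_self s) (by positivity)
            _ ≤ _ := mul_le_mul_of_nonneg_left (hbd ω) (abs_nonneg s)
      _ = _ := by rw [lintegral_const, measure_univ, mul_one]

end Vale.Agent.P167.H562.GL
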