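import Vale.Agent.P167.H562.GMs
import Vale.Agent.P167.H562.GLu
import Vale.Agent.P167.H45.Small2

/-!
# P167, general `q`: linear statistics of the small loops
-/

namespace Vale.Agent.P167.H562.GL

open Finset Filter Topology MeasureTheory Vale.Agent.P167.FK
open Vale.Agent.P167.FKA (Loc Ind ArmDec)
open Vale.Agent.P167.H519 (IsLim loc_cont Bq_mono exists_Bq)
open Vale.Agent.P167.H45 (gp BL BL_fin sf mem_sf zz zz_box XX XX_loc XX_le decomp small_box bs_le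
  grid_fin nm_le nm_sub_le G_bound)

/-- Half of the number of binary digits: the side of the super-boxes. -/
def sN (j : ℕ) : ℤ := 4 * 2 ^ (j / 2)

theorem sN_pos (j : ℕ) : 4 ≤ sN j := by
  unfold sN
  have : (1 : ℤ) ≤ 2 ^ (j / 2) := one_le_pow₀ (by norm_num)
  omega

/-- The boxes of a super-box. -/
noncomputable def sS (j : ℕ) (w : ℤ × ℤ) : Finset (ℤ × ℤ) :=
  Finset.Ico (sN j * w.1) (sN j * w.1 + sN j) ×ˢ Finset.Ico (sN j * w.2) (sN j * w.2 + sN j)

/-- The neighbourhood of a super-box. -/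
noncomputable def sU (L : ℤ) (j : ℕ) (w : ℤ × ℤ) : Finset (ℤ × ℤ) :=
  Finset.Ico (L * sN j * (w.1 - 1)) (L * sN j * (w.1 + 2)) ×ˢ
    Finset.Ico (L * sN j * (w.2 - 1)) (L * sN j * (w.2 + 2))

/-- Number of the boxes of a super-box. -/
def sn (j : ℕ) : ℕ := 16 * 4 ^ (j / 2)

theorem sS_card (j : ℕ) (w : ℤ × ℤ) : (sS j w).card = sn j := by
  unfold sS sn
  rw [Finset.card_product, Int.card_Ico, Int.card_Ico]
  have e1 : sN j * w.1 + sN j - sN j * w.1 = sN j := by ring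
  have e2 : sN j * w.2 + sN j - sN j * w.2 = sN j := by ring
  rw [e1, e2]
  have : sN j = ((4 * 2 ^ (j / 2) : ℕ) : ℤ) := by unfold sN; push_cast; rfl
  rw [this, Int.toNat_natCast]
  have : (4 : ℕ) ^ (j / 2) = 2 ^ (j / 2) * 2 ^ (j / 2) := by rw [← mul_pow]; norm_num
  rw [this]; ring

theorem mem_sS {j : ℕ} {z w : ℤ × ℤ} : z ∈ sS j w ↔ w = (z.1 / sN j, z.2 / sN j) := by
  have hN := sN_pos j
  unfold sS
  rw [Finset.mem_product, Finset.mem_Ico, Finset.mem_Ico]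
  have key : ∀ a b : ℤ, (sN j * b ≤ a ∧ a < sN j * b + sN j) ↔ b = a / sN j := by
    intro a b
    have h1 := Int.emod_add_mul_ediv a (sN j)
    have h2 := Int.emod_nonneg a (by omega : sN j ≠ 0)
    have h3 := Int.emod_lt_of_pos a (by omega : 0 < sN j)
    constructor
    · rintro ⟨h4, h5⟩
      have h6 : sN j * b < sN j * (a / sN j + 1) := by linarith
      have h7 : sN j * (a / sN j) < sN j * (b + 1) := by linarith
      have h8 := lt_of_mul_lt_mul_left h6 (by omega)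
      have h9 := lt_of_mul_lt_mul_left h7 (by omega)
      omega
    · rintro rfl
      constructor <;> linarith
  rw [key, key, Prod.ext_iff]

theorem sS_disj {j : ℕ} {w w' : ℤ × ℤ} (h : w ≠ w') : Disjoint (sS j w) (sS j w') := by
  rw [Finset.disjoint_left]
  intro z h1 h2
  exact h ((mem_sS.1 h1).trans (mem_sS.1 h2).symm)

/-- A box around a small box is in the neighbourhood of the super-box. -/
theorem sub_sU {L : ℤ} (hL : 1 ≤ L) {j : ℕ} {w z : ℤ × ℤ} (hz : z ∈ sS j w) {v : ℤ × ℤ}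
    (hv : L * z.1 - sN j * L ≤ v.1 ∧ v.1 < L * z.1 + L + sN j * L ∧
      L * z.2 - sN j * L ≤ v.2 ∧ v.2 < L * z.2 + L + sN j * L) : v ∈ sU L j w := by
  have hN := sN_pos j
  unfold sS at hz
  rw [Finset.mem_product, Finset.mem_Ico, Finset.mem_Ico] at hz
  obtain ⟨⟨h1, h2⟩, h3, h4⟩ := hz
  unfold sU
  rw [Finset.mem_product, Finset.mem_Ico, Finset.mem_Ico]
  have key : ∀ a b c : ℤ, sN j * b ≤ a → a < sN j * b + sN j → L * a - sN j * L ≤ c →
      c < L * a + L + sN j * L → L * sN j * (b - 1) ≤ c ∧ c < L * sN j * (b + 2) := by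
    intro a b c g1 g2 g3 g4
    have g5 : L * (sN j * b) ≤ L * a := mul_le_mul_of_nonneg_left g1 (by omega)
    have g6 : L * (a + 1) ≤ L * (sN j * b + sN j) := mul_le_mul_of_nonneg_left g2 (by omega)
    constructor <;> nlinarith
  exact ⟨key _ _ _ h1 h2 hv.1 hv.2.1, key _ _ _ h3 h4 hv.2.2.1 hv.2.2.2⟩

theorem Bq_sub_sU {L : ℤ} (hL : 1 ≤ L) {j : ℕ} {w z : ℤ × ℤ} (hz : z ∈ sS j w) :
    Bq (gp L z) (sN j * L) ⊆ sU L j w := by
  intro v hv
  simp only [Bq, gp, Finset.mem_product, Finset.mem_Ico] at hv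
  exact sub_sU hL hz ⟨hv.1.1, by linarith [hv.1.2], hv.2.1, by linarith [hv.2.2]⟩

theorem near_sub_sU {L : ℤ} (hL : 1 ≤ L) {j : ℕ} {w z : ℤ × ℤ} (hz : z ∈ sS j w) {v : ℤ × ℤ}
    (hv : (nm (v - gp L z) : ℝ) ≤ (1 + 2 * (1 / 8)) * (2 * (L : ℝ))) : v ∈ sU L j w := by
  have hN := sN_pos j
  have h1 : 2 * nm (v - gp L z) ≤ 5 * L := by
    have : (2 * nm (v - gp L z) : ℝ) ≤ 5 * L := by linarith
    exact_mod_cast this
  have h2 : nm (v - gp L z) ≤ 4 * L := by omega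
  rw [nm_le] at h2
  simp only [gp, Prod.fst_sub, Prod.snd_sub, abs_le] at h2
  have h3 : 4 * L ≤ sN j * L := mul_le_mul_of_nonneg_right hN (by omega)
  refine sub_sU hL hz ⟨?_, ?_, ?_, ?_⟩ <;> linarith [h2.1.1, h2.1.2, h2.2.1, h2.2.2]

/-- Colour of a super-box. -/
def code3 (z : ℤ × ℤ) : Fin 9 := ⟨(z.1 % 3).toNat * 3 + (z.2 % 3).toNat, by omega⟩

theorem code3_eq {z z' : ℤ × ℤ} (h : code3 z = code3 z') :
    z.1 % 3 = z'.1 % 3 ∧ z.2 % 3 = z'.2 % 3 := by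
  unfold code3 at h
  rw [Fin.mk.injEq] at h
  omega

theorem sU_disj {L : ℤ} (hL : 1 ≤ L) {j : ℕ} {w w' : ℤ × ℤ} (hw : w ≠ w')
    (hc : code3 w = code3 w') : Disjoint (sU L j w) (sU L j w') := by
  obtain ⟨h1, h2⟩ := code3_eq hc
  have hN := sN_pos j
  have hLN : 0 < L * sN j := by positivity
  rw [Finset.disjoint_left]
  intro v h3 h4
  unfold sU at h3 h4
  rw [Finset.mem_product, Finset.mem_Ico, Finset.mem_Ico] at h3 h4
  have aux : ∀ p q x : ℤ, L * sN j * (p - 1) ≤ x → x < L * sN j * (p + 2) →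
      L * sN j * (q - 1) ≤ x → x < L * sN j * (q + 2) → p % 3 = q % 3 → p = q := by
    intro p q x c1 c2 c3 c4 c5
    have d1 := lt_of_mul_lt_mul_left (c1.trans_lt c4) hLN.le
    have d2 := lt_of_mul_lt_mul_left (c3.trans_lt c2) hLN.le
    omega
  exact hw (Prod.ext (aux _ _ _ h3.1.1 h3.1.2 h4.1.1 h4.1.2 h1)
    (aux _ _ _ h3.2.1 h3.2.2 h4.2.1 h4.2.2 h2))

/-- The super-boxes which matter, and their number. -/
theorem grid_super {κ ρ : ℝ} (hκ : 0 < κ) (hκ1 : κ ≤ 1 / 8) (hρ : 4 ≤ ρ) :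
    ∃ W : ℕ → Finset (ℤ × ℤ), ∀ j : ℕ, 1 ≤ κ * ρ / 2 ^ j → ((W j).card : ℝ) ≤ 50 / κ ^ 2 * 2 ^ j ∧
      ∀ ω, ∀ ℓ ∈ sf ρ (κ * ρ) ω, ∃ w ∈ W j, zz ⌈κ * ρ / 2 ^ j⌉ ℓ ∈ sS j w := by
  classical
  have hex : ∀ j : ℕ, ∃ I : Finset (ℤ × ℤ), 1 ≤ κ * ρ / 2 ^ j → (I.card : ℝ) ≤ 50 / κ ^ 2 * 2 ^ j ∧
      ∀ ω, ∀ ℓ ∈ sf ρ (κ * ρ) ω, ∃ w ∈ I, zz ⌈κ * ρ / 2 ^ j⌉ ℓ ∈ sS j w := by
    intro j
    by_cases hj : 1 ≤ κ * ρ / 2 ^ j
    · set y : ℝ := κ * ρ / 2 ^ j with hy
      set L : ℤ := ⌈y⌉ with hL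
      have hL1 : 1 ≤ L := Int.one_le_ceil_iff.2 (by linarith)
      have hyL : y ≤ L := Int.le_ceil y
      have hN := sN_pos j
      have hLN : 1 ≤ L * sN j := by nlinarith
      set P : ℤ := ⌈3 * ρ⌉ + L * sN j with hP
      have hP0 : 0 ≤ P := by
        have : 0 ≤ ⌈3 * ρ⌉ := Int.ceil_nonneg (by linarith)
        omega
      obtain ⟨I, hI1, hI2⟩ := grid_fin 0 hLN hP0
      refine ⟨I, fun _ => ⟨?_, ?_⟩⟩
      · have h1 : ((I.card : ℤ) : ℝ) ≤ ((2 * P / (L * sN j) + 2 : ℤ) : ℝ) ^ 2 := by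
          exact_mod_cast hI2
        have hLNR : (0 : ℝ) < ((L * sN j : ℤ) : ℝ) := by exact_mod_cast (by omega : 0 < L * sN j)
        have h2 : ((2 * P / (L * sN j) : ℤ) : ℝ) ≤ 2 * P / ((L * sN j : ℤ) : ℝ) := by
          rw [le_div_iff₀ hLNR]
          exact_mod_cast Int.ediv_mul_le (2 * P) (by omega : L * sN j ≠ 0)
        have h3 : (P : ℝ) ≤ 3 * ρ + 1 + ((L * sN j : ℤ) : ℝ) := by
          rw [hP, Int.cast_add]
          linarith [Int.ceil_lt_add_one (3 * ρ)]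
        have hy0 : 0 < y := by linarith
        -- the side
        set D : ℝ := 2 ^ (j / 2) with hD
        have hD0 : 0 < D := by positivity
        have hsN : (sN j : ℝ) = 4 * D := by unfold sN; push_cast; rfl
        have h4 : y * (4 * D) ≤ ((L * sN j : ℤ) : ℝ) := by
          push_cast
          rw [hsN]
          exact mul_le_mul_of_nonneg_right hyL (by positivity)
        set E : ℝ := 2 ^ j / D with hE
        have hE0 : 0 < E := by positivity
        have hE2 : E ^ 2 ≤ 2 * 2 ^ j := by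
          have h5 : (2 : ℝ) ^ j ≤ 2 * D ^ 2 := by
            rw [hD, ← pow_mul, ← pow_succ']
            exact pow_le_pow_right₀ (by norm_num) (by omega)
          rw [hE, div_pow, div_le_iff₀ (by positivity)]
          have : (0 : ℝ) < 2 ^ j := by positivity
          nlinarith
        have h5 : (2 * P : ℝ) / ((L * sN j : ℤ) : ℝ) ≤ 7 / (4 * κ) * E + 2 := by
          rw [div_le_iff₀ hLNR]
          have h6 : 7 * ρ ≤ 7 / (4 * κ) * E * ((L * sN j : ℤ) : ℝ) := by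
            have h7 : 7 / (4 * κ) * E * (y * (4 * D)) = 7 * ρ := by
              rw [hE, hy]; field_simp
            rw [← h7]
            exact mul_le_mul_of_nonneg_left h4 (by positivity)
          nlinarith
        have h7 : ((2 * P / (L * sN j) + 2 : ℤ) : ℝ) ≤ 7 / (4 * κ) * E + 4 := by
          rw [Int.cast_add]; push_cast; push_cast at h2 h5; linarith
        have h8 : (0 : ℝ) ≤ ((2 * P / (L * sN j) + 2 : ℤ) : ℝ) := by
          have : 0 ≤ 2 * P / (L * sN j) := Int.ediv_nonneg (by omega) (by omega)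
          exact_mod_cast (by omega : (0 : ℤ) ≤ 2 * P / (L * sN j) + 2)
        have h9 : ((I.card : ℤ) : ℝ) = (I.card : ℝ) := by norm_cast
        rw [h9] at h1
        have h2j : (1 : ℝ) ≤ 2 ^ j := one_le_pow₀ (by norm_num)
        calc (I.card : ℝ) ≤ ((2 * P / (L * sN j) + 2 : ℤ) : ℝ) ^ 2 := h1
          _ ≤ (7 / (4 * κ) * E + 4) ^ 2 := pow_le_pow_left₀ h8 h7 2
          _ ≤ 2 * (7 / (4 * κ) * E) ^ 2 + 32 := by nlinarith [sq_nonneg (7 / (4 * κ) * E - 4)]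
          _ = 49 / 8 / κ ^ 2 * E ^ 2 + 32 := by field_simp; ring
          _ ≤ 49 / 8 / κ ^ 2 * (2 * 2 ^ j) + 32 * 2 ^ j := by
              refine add_le_add (mul_le_mul_of_nonneg_left hE2 (by positivity)) (by linarith)
          _ ≤ 50 / κ ^ 2 * 2 ^ j := by
              have h10 : (32 : ℝ) ≤ 1 / κ ^ 2 := by
                rw [le_div_iff₀ (by positivity)]
                nlinarith
              have h11 : 49 / 8 / κ ^ 2 * 2 = 49 / 4 * (1 / κ ^ 2) := by ring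
              have h12 : 50 / κ ^ 2 = 50 * (1 / κ ^ 2) := by ring
              have h13 : 0 < 1 / κ ^ 2 := by positivity
              rw [← mul_assoc, h11, h12]
              nlinarith
      · intro ω ℓ hℓ
        rw [mem_sf] at hℓ
        obtain ⟨g1, ⟨u, hu, -, g2⟩, g3⟩ := hℓ
        refine ⟨zz (L * sN j) ℓ, hI1 _ ?_, ?_⟩
        · rw [sub_zero]
          obtain ⟨b1, b2, b3, b4⟩ := zz_box (by omega : 0 < L * sN j) ℓ
          obtain ⟨c1, c2⟩ := small_box g3 hu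
          obtain ⟨e1, e2⟩ := bs_le hu
          have hk8 : κ * ρ ≤ ρ / 8 := by nlinarith
          have f1 : |u.1| ≤ nm u := le_max_left _ _
          have f2 : |u.2| ≤ nm u := le_max_right _ _
          have f1' : ((|u.1| : ℤ) : ℝ) ≤ 2 * ρ + 2 := le_trans (by exact_mod_cast f1) g2
          have f2' : ((|u.2| : ℤ) : ℝ) ≤ 2 * ρ + 2 := le_trans (by exact_mod_cast f2) g2
          push_cast at f1' f2' c1 c2
          rw [abs_le] at f1' f2'
          have hbb : ∀ b w : ℤ, ((b : ℤ) : ℝ) ≤ w → ((w : ℤ) : ℝ) - b < κ * ρ →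
              -(2 * ρ + 2) ≤ (w : ℝ) → (w : ℝ) ≤ 2 * ρ + 2 → -⌈3 * ρ⌉ ≤ b ∧ b ≤ ⌈3 * ρ⌉ := by
            intro b w q1 q2 q3 q4
            have q5 : (b : ℝ) ≤ 3 * ρ := by linarith
            have q6 : -(3 * ρ) ≤ (b : ℝ) := by linarith
            constructor
            · have : (-b : ℝ) ≤ ⌈3 * ρ⌉ := le_trans (by linarith) (Int.le_ceil (3 * ρ))
              have : -b ≤ ⌈3 * ρ⌉ := by exact_mod_cast this
              omega
            · have : (b : ℝ) ≤ ⌈3 * ρ⌉ := le_trans q5 (Int.le_ceil (3 * ρ))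
              exact_mod_cast this
          obtain ⟨k1, k2⟩ := hbb (H45.bs ℓ).1 u.1 (by exact_mod_cast e1) c1 f1'.1 f1'.2
          obtain ⟨k3, k4⟩ := hbb (H45.bs ℓ).2 u.2 (by exact_mod_cast e2) c2 f2'.1 f2'.2
          rw [nm_le]
          simp only [gp]
          rw [abs_le, abs_le]
          refine ⟨⟨?_, ?_⟩, ?_, ?_⟩ <;> linarith
        · rw [mem_sS]
          simp only [zz]
          rw [Int.ediv_ediv_of_nonneg (by omega), Int.ediv_ediv_of_nonneg (by omega)]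
    · exact ⟨∅, fun h => absurd h hj⟩
  choose W hW using hex
  exact ⟨W, hW⟩

end Vale.Agent.P167.H562.GL
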