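import Vale.Agent.P167.H562.GMain
import Vale.Agent.P167.H562.FLow

/-!
# P167, block F for a general angle: lower bounds for the charge expectations
-/

open MeasureTheory ProbabilityTheory Real Finset Filter Topology
open scoped ENNReal

namespace Vale.Agent.P167.H562.GQ

lemma wt_le {a s t : ℝ} (h0 : 0 < a) (h1 : a < π / 2) (h2 : |a + t| ≤ a + s) (h3 : a + s ≤ π) :
    wt a s ≤ wt a t := by
  unfold wt
  apply div_le_div_of_nonneg_right _ (cos_pos' h0 h1).le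
  rw [← Real.cos_abs (a + t)]
  exact Real.cos_le_cos_of_nonneg_of_le_pi (abs_nonneg _) h3 h2

lemma wt_pos2 {a t : ℝ} (h0 : 0 < a) (h1 : a < π / 2) (h2 : -(π / 2 + a) < t) (h3 : t < π / 2 - a) :
    0 < wt a t := by
  unfold wt
  exact div_pos (Real.cos_pos_of_mem_Ioo ⟨by linarith, by linarith⟩) (cos_pos' h0 h1)

variable {P : Measure Cfg} {a Cm K κ : ℝ} {m : ℝ → ℕ → ℤ × ℤ → ℝ}

/-- Lower bound for two charges. -/
theorem two_lo [IsProbabilityMeasure P] (H : Ctx a P Cm K κ m) {b p : ℝ} (hb0 : 0 < b)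
    (hb1 : b < π / 2 - a) (hp : 1 < p) :
    ∃ C, ∀ r : Fin 3 → ℝ, 0 < r 0 → 4 * r 0 ≤ r 1 → 4 * r 1 ≤ r 2 → ∀ᶠ n : ℕ in atTop,
      b * (Real.tan a * (nf P κ m (r 1) n - nf P κ m (r 0) n)) +
        p * lam P (NA (r 0) (r 1) n) (log (wt a b) / p) ≤
        -(cAa a * b ^ 2 * log (r 1 / r 0)) + C := by
  have hpi := Real.pi_pos
  have hpi2 := Real.pi_lt_four
  have hp0 : 0 < p := by linarith
  have ha0 := H.a0
  have ha2 := H.a2
  have hw0 : 0 < wt a b := wt_pos2 ha0 ha2 (by linarith) hb1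
  have hw1 : wt a b ≤ 1 := by
    rw [← wt_zero H]
    exact wt_le ha0 ha2 (by rw [add_zero, abs_of_pos ha0]; linarith) (by linarith)
  have hb3 : |b| ≤ 3 := by rw [abs_of_pos hb0]; linarith
  obtain ⟨C, ρ00, h⟩ := lo (Cm := Cm) (T := 3) H.κ0 H.κ1 H.small H.large H.lo H.meas hp hw0 hw1
  refine ⟨K * (∑ j, |(![b, -b, 0] : Fin 3 → ℝ) j|) ^ 2 + log 2 + C, fun r h0 h1 h2 => ?_⟩
  have hr1 : 0 < r 1 := by linarith
  have hsum : ∑ j, (![b, -b, 0] : Fin 3 → ℝ) j = 0 := by simp [Fin.sum_univ_three]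
  obtain ⟨q, hq, hev⟩ := gauss3 H.gauss ![b, -b, 0] r h0 h1 h2 hsum
  filter_upwards [hev, ev_rad H h0 h1 h2 ρ00] with n hn1 hn2
  have c1 : ∀ j, ∀ t ∈ Set.Icc (0 : ℝ) 1, 0 < wt a (t * (![b, -b, 0] : Fin 3 → ℝ) j) := by
    intro j t ht
    have h5 : t * b ≤ b := by nlinarith [ht.1, ht.2]
    have h6 : 0 ≤ t * b := mul_nonneg ht.1 hb0.le
    fin_cases j
    · simp only [Fin.zero_eta, Matrix.cons_val_zero]
      exact wt_pos2 ha0 ha2 (by linarith) (by linarith)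
    · show 0 < wt a (t * -b)
      exact wt_pos2 ha0 ha2 (by linarith) (by linarith)
    · show 0 < wt a (t * 0)
      rw [mul_zero, wt_zero H]; exact one_pos
  have c2 : ∀ x ∈ Set.Icc (0 : ℝ) 1, ∀ y ∈ Set.Icc (0 : ℝ) 1,
      wt a b ≤ wt a (x * (![b, -b, 0] : Fin 3 → ℝ) 0 + y * (![b, -b, 0] : Fin 3 → ℝ) 1) := by
    intro x hx y hy
    show wt a b ≤ wt a (x * b + y * -b)
    have h5 : x * b ≤ b := by nlinarith [hx.1, hx.2]
    have h6 : 0 ≤ x * b := mul_nonneg hx.1 hb0.le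
    have h7 : y * b ≤ b := by nlinarith [hy.1, hy.2]
    have h8 : 0 ≤ y * b := mul_nonneg hy.1 hb0.le
    exact wt_le ha0 ha2 (abs_le.2 ⟨by linarith, by linarith⟩) (by linarith)
  have h3 := h (fun j => r j * n) ![b, -b, 0] (fun j => m (r j) n) hn2.1 hn2.2.1 hn2.2.2.1
    hn2.2.2.2 (by intro j; fin_cases j <;> simp [hb3]) hsum c1 c2
    (by intro y hy; show wt a b ≤ wt a (y * 0); rw [mul_zero, wt_zero H]; exact hw1)
    (by intro y hy; show wt a b ≤ wt a (-(y * 0)); rw [mul_zero, neg_zero, wt_zero H]; exact hw1)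
    Set.univ (Or.inl rfl)
  obtain ⟨hpos, h3⟩ := h3
  simp only [Set.indicator_univ] at h3
  have hXpos : ∀ ω, 0 ≤ Xa a (ff ![b, -b, 0] fun j => m (r j) n) ω :=
    fun ω => hpos ω (Set.mem_univ _)
  have hint : Integrable (Xa a (ff ![b, -b, 0] fun j => m (r j) n)) P := by
    by_contra hcon
    have := integral_undef hcon
    have h9 := hn1.1
    rw [this] at h9
    linarith [Real.exp_pos q]
  rw [← ofReal_integral_eq_lintegral_ofReal hint (Filter.Eventually.of_forall hXpos)] at h3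
  have h5 : wt a ((![b, -b, 0] : Fin 3 → ℝ) 0 + (![b, -b, 0] : Fin 3 → ℝ) 1) ^ (1 / p) = 1 := by
    have : wt a ((![b, -b, 0] : Fin 3 → ℝ) 0 + (![b, -b, 0] : Fin 3 → ℝ) 1) = 1 := by
      rw [show (![b, -b, 0] : Fin 3 → ℝ) 0 + (![b, -b, 0] : Fin 3 → ℝ) 1 = 0 by simp]
      exact wt_zero H
    rw [this, Real.one_rpow]
  have h6 : En P (N0 fun j => r j * n) (wt a ((![b, -b, 0] : Fin 3 → ℝ) 0) ^ (1 / p)) =
      ENNReal.ofReal (exp (lam P (NA (r 0) (r 1) n) (log (wt a b) / p))) := by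
    have : En P (NA (r 0) (r 1) n) (wt a b ^ (1 / p)) =
      ENNReal.ofReal (exp (lam P (NA (r 0) (r 1) n) (log (wt a b) / p))) := by
      rw [En_pow (allExp_NA H _ _ _) hw0]
      congr 3
      field_simp
    exact this
  rw [h5, MM_one, h6, Sv_two, ENNReal.ofReal_rpow_of_pos (Real.exp_pos _), ← Real.exp_mul,
    ← ENNReal.ofReal_mul (Real.exp_pos _).le, ← Real.exp_add] at h3
  have h7 := h3.trans (ENNReal.ofReal_le_ofReal hn1.2)
  have h8 : 2 * exp q = exp (q + log 2) := by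
    rw [Real.exp_add, Real.exp_log two_pos, mul_comm]
  rw [h8] at h7
  have h9 := Real.exp_le_exp.1 ((ENNReal.ofReal_le_ofReal_iff (Real.exp_pos _).le).1 h7)
  have h10 := (abs_le.1 hq).2
  have e : (![b, -b, 0] : Fin 3 → ℝ) 0 ^ 2 * log (r 0) +
      (2 * (![b, -b, 0] : Fin 3 → ℝ) 0 * (![b, -b, 0] : Fin 3 → ℝ) 1 +
        (![b, -b, 0] : Fin 3 → ℝ) 1 ^ 2) * log (r 1) +
      (2 * (![b, -b, 0] : Fin 3 → ℝ) 0 * (![b, -b, 0] : Fin 3 → ℝ) 2 +
        2 * (![b, -b, 0] : Fin 3 → ℝ) 1 * (![b, -b, 0] : Fin 3 → ℝ) 2 +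
        (![b, -b, 0] : Fin 3 → ℝ) 2 ^ 2) * log (r 2) = -(b ^ 2 * log (r 1 / r 0)) := by
    rw [Real.log_div hr1.ne' h0.ne']
    simp
    ring
  rw [e] at h10
  linarith

lemma integral_split {f : Cfg → ℝ} (hf : Integrable f P) {N : Cfg → ℕ} (hN : Measurable N)
    (hpos : ∀ ω, N ω ∈ ({0} : Set ℕ)ᶜ → 0 ≤ f ω) :
    ∫⁻ ω, ({0} : Set ℕ)ᶜ.indicator (fun _ => ENNReal.ofReal (f ω)) (N ω) ∂P ≤
      ENNReal.ofReal (∫ ω, f ω ∂P) +
        ∫⁻ ω, ({0} : Set ℕ).indicator (fun _ => ENNReal.ofReal |f ω|) (N ω) ∂P := by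
  set A : Set Cfg := {ω | N ω = 0} with hA
  have hAm : MeasurableSet A := hN (measurableSet_singleton 0)
  have e1 : ∫⁻ ω, ({0} : Set ℕ)ᶜ.indicator (fun _ => ENNReal.ofReal (f ω)) (N ω) ∂P =
      ENNReal.ofReal (∫ ω in Aᶜ, f ω ∂P) := by
    rw [ofReal_integral_eq_lintegral_ofReal hf.integrableOn
      ((ae_restrict_iff' hAm.compl).2 (Filter.Eventually.of_forall fun ω hω =>
        hpos ω (by simpa [hA] using hω))), ← lintegral_indicator hAm.compl]
    refine lintegral_congr fun ω => ?_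
    by_cases h : N ω = 0
    · have h1 : ω ∉ Aᶜ := by simp [hA, h]
      rw [Set.indicator_of_notMem h1, Set.indicator_of_notMem (by simp [h])]
    · have h1 : ω ∈ Aᶜ := by simp [hA, h]
      rw [Set.indicator_of_mem h1, Set.indicator_of_mem (by simp [h])]
  have e2 : ∫⁻ ω, ({0} : Set ℕ).indicator (fun _ => ENNReal.ofReal |f ω|) (N ω) ∂P =
      ENNReal.ofReal (∫ ω in A, |f ω| ∂P) := by
    rw [ofReal_integral_eq_lintegral_ofReal hf.abs.integrableOn
      (Filter.Eventually.of_forall fun ω => abs_nonneg _), ← lintegral_indicator hAm]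
    refine lintegral_congr fun ω => ?_
    by_cases h : N ω = 0
    · have h1 : ω ∈ A := by simp [hA, h]
      rw [Set.indicator_of_mem h1, Set.indicator_of_mem (by simp [h])]
    · have h1 : ω ∉ A := by simp [hA, h]
      rw [Set.indicator_of_notMem h1, Set.indicator_of_notMem (by simp [h])]
  rw [e1, e2]
  refine le_trans (ENNReal.ofReal_le_ofReal ?_) ENNReal.ofReal_add_le
  have h1 := integral_add_compl hAm hf
  have h2 : -(∫ ω in A, |f ω| ∂P) ≤ ∫ ω in A, f ω ∂P := by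
    have := abs_integral_le_integral_abs (f := f) (μ := P.restrict A)
    exact (abs_le.1 this).1
  linarith

/-- Linear term for three charges. -/
lemma Sv_three (r : Fin 3 → ℝ) (n : ℕ) (b : ℝ) :
    Sv a P κ (fun j => r j * n) (b3 b) (fun j => m (r j) n) =
      b * (Real.tan a * (nf P κ m (r 1) n - nf P κ m (r 0) n)) +
        b / 2 * (Real.tan a * (nf P κ m (r 2) n - nf P κ m (r 1) n)) := by
  simp only [Sv, Fin.sum_univ_three, nv, nf, b3]
  simp
  ring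

/-- The restriction to `N1 = 0`. -/
lemma MM_zero (hi : G_meas) (ρ : Fin 3 → ℝ) (x y : ℝ) : MM P ρ {0} x y =
    ∫⁻ ω in {ω | N1 ρ ω = 0}, ENNReal.ofReal (x ^ N0 ρ ω) ∂P := by
  have hs : MeasurableSet {ω | N1 ρ ω = 0} := meas_N1 hi ρ (measurableSet_singleton 0)
  rw [← lintegral_indicator hs]
  unfold MM
  refine lintegral_congr fun ω => ?_
  by_cases h : N1 ρ ω = 0
  · have h1 : ω ∈ {ω | N1 ρ ω = 0} := h
    rw [Set.indicator_of_mem h1, Set.indicator_of_mem (by simp [h]), h]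
    simp
  · have h1 : ω ∉ {ω | N1 ρ ω = 0} := h
    rw [Set.indicator_of_notMem h1, Set.indicator_of_notMem (by simp [h]), mul_zero]

lemma MM_split (hi : G_meas) (ρ : Fin 3 → ℝ) (x : ℝ) {y : ℝ} (hy : 1 ≤ y) :
    En P (N0 ρ) x ≤ MM P ρ {0} x y + MM P ρ {0}ᶜ x y := by
  have hm : AEMeasurable (fun ω => ENNReal.ofReal (x ^ N0 ρ ω) *
      ({0} : Set ℕ).indicator (fun n => ENNReal.ofReal (y ^ n)) (N1 ρ ω)) P :=
    meas_main hi ρ {0} x y
  unfold En MM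
  rw [← lintegral_add_left' hm]
  refine lintegral_mono fun ω => ?_
  rw [← mul_add]
  have h1 : (1 : ℝ≥0∞) ≤ ENNReal.ofReal (y ^ N1 ρ ω) := by
    rw [← ENNReal.ofReal_one]
    exact ENNReal.ofReal_le_ofReal (one_le_pow₀ hy)
  have h2 : (1 : ℝ≥0∞) ≤ ({0} : Set ℕ).indicator (fun n => ENNReal.ofReal (y ^ n)) (N1 ρ ω) +
      ({0}ᶜ : Set ℕ).indicator (fun n => ENNReal.ofReal (y ^ n)) (N1 ρ ω) := by
    by_cases h : N1 ρ ω = 0
    · rw [Set.indicator_of_mem (by simp [h] : N1 ρ ω ∈ ({0} : Set ℕ)),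
        Set.indicator_of_notMem (by simp [h]), add_zero]
      exact h1
    · rw [Set.indicator_of_notMem (by simp [h] : N1 ρ ω ∉ ({0} : Set ℕ)),
        Set.indicator_of_mem (by simp [h]), zero_add]
      exact h1
  calc ENNReal.ofReal (x ^ N0 ρ ω) = ENNReal.ofReal (x ^ N0 ρ ω) * 1 := (mul_one _).symm
    _ ≤ _ := mul_le_mul_right h2 _

lemma half_le {E Z M : ℝ≥0∞} {Λ : ℝ} (hE : E = ENNReal.ofReal (exp Λ)) (h1 : E ≤ Z + M)
    (h2 : Z ≤ ENNReal.ofReal (1 / 2) * E) : ENNReal.ofReal (exp Λ / 2) ≤ M := by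
  have g7 : E = ENNReal.ofReal (exp Λ / 2) + ENNReal.ofReal (exp Λ / 2) := by
    rw [hE, ← ENNReal.ofReal_add (by positivity) (by positivity)]
    congr 1; ring
  have g4 : Z ≤ ENNReal.ofReal (exp Λ / 2) := by
    refine h2.trans (le_of_eq ?_)
    rw [hE, ← ENNReal.ofReal_mul (by norm_num)]
    congr 1; ring
  have g8 : ENNReal.ofReal (exp Λ / 2) + ENNReal.ofReal (exp Λ / 2) ≤
      ENNReal.ofReal (exp Λ / 2) + M := by
    rw [← g7]
    refine h1.trans ?_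
    gcongr
  exact (ENNReal.add_le_add_iff_left ENNReal.ofReal_ne_top).1 g8

lemma fin_three {S C1 C2 B q Λ0 Q0 Lb δ p : ℝ} (hp : 1 < p) (hp2 : p ≤ 2) {M : ℝ≥0∞}
    (h5 : ENNReal.ofReal (exp (S - C1)) * M ^ p ≤
      ENNReal.ofReal (2 * exp q) +
        ENNReal.ofReal (exp (S + C2)) * (ENNReal.ofReal (exp δ) * ENNReal.ofReal (exp Q0)) ^ (1 / p))
    (hM : ENNReal.ofReal (exp Λ0 / 2) ≤ M) (hq : q ≤ -Lb + B) :
    S + p * Λ0 ≤ -Lb + (|B| + |C1| + |C2| + 5 * log 2) ∨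
    S + p * Λ0 ≤ S + (|B| + |C1| + |C2| + 5 * log 2) + (δ + Q0) / p := by
  have hp0 : 0 < p := by linarith
  have hlog2 : 0 < log 2 := Real.log_pos (by norm_num)
  have a1 := le_abs_self C1
  have a2 := le_abs_self C2
  have a3 := le_abs_self B
  have a4 := abs_nonneg C1
  have a5 := abs_nonneg C2
  have a6 := abs_nonneg B
  have h6 : ENNReal.ofReal (exp (S - C1 + p * (Λ0 - log 2))) ≤
      ENNReal.ofReal (exp (S - C1)) * M ^ p := by
    calc ENNReal.ofReal (exp (S - C1 + p * (Λ0 - log 2)))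
        = ENNReal.ofReal (exp (S - C1)) * (ENNReal.ofReal (exp Λ0 / 2)) ^ p := by
          have : exp Λ0 / 2 = exp (Λ0 - log 2) := by rw [Real.exp_sub, Real.exp_log two_pos]
          rw [this, ENNReal.ofReal_rpow_of_pos (Real.exp_pos _), ← Real.exp_mul,
            ← ENNReal.ofReal_mul (Real.exp_pos _).le, ← Real.exp_add, mul_comm p]
      _ ≤ _ := by gcongr
  have h7 := h6.trans h5
  have g1 : 2 * exp q = exp (log 2 + q) := by
    rw [Real.exp_add, Real.exp_log two_pos]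
  rw [g1, ← ENNReal.ofReal_mul (Real.exp_pos _).le, ← Real.exp_add,
    ENNReal.ofReal_rpow_of_pos (Real.exp_pos _), ← Real.exp_mul,
    ← ENNReal.ofReal_mul (Real.exp_pos _).le, ← Real.exp_add,
    ← ENNReal.ofReal_add (Real.exp_pos _).le (Real.exp_pos _).le] at h7
  have h8 := (ENNReal.ofReal_le_ofReal_iff (by positivity)).1 h7
  have h9 : S + p * Λ0 - (|C1| + 2 * log 2) ≤ S - C1 + p * (Λ0 - log 2) := by nlinarith
  have h10 := (Real.exp_le_exp.2 h9).trans h8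
  by_contra hcon
  push Not at hcon
  obtain ⟨k1, k2⟩ := hcon
  have k3 : log 2 + q ≤ S + p * Λ0 - (|C1| + 2 * log 2) - 2 * log 2 := by linarith
  have e5 : (δ + Q0) * (1 / p) = (δ + Q0) / p := by rw [mul_one_div]
  have k4 : S + C2 + (δ + Q0) * (1 / p) ≤ S + p * Λ0 - (|C1| + 2 * log 2) - 2 * log 2 := by
    rw [e5]
    linarith
  have k5 := Real.exp_le_exp.2 k3
  have k6 := Real.exp_le_exp.2 k4
  have k7 : exp (S + p * Λ0 - (|C1| + 2 * log 2) - 2 * log 2) =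
      exp (S + p * Λ0 - (|C1| + 2 * log 2)) / 4 := by
    rw [Real.exp_sub _ (2 * log 2)]
    congr 1
    rw [show 2 * log 2 = log 2 + log 2 by ring, Real.exp_add, Real.exp_log two_pos]
    norm_num
  rw [k7] at k5 k6
  have k8 := Real.exp_pos (S + p * Λ0 - (|C1| + 2 * log 2))
  linarith

lemma cond_three {b : ℝ} (ha0 : 0 < a) (ha1 : a ≤ π / 3) (hb0 : -a < b) (hb1 : b < 0) :
    (∀ j, ∀ t ∈ Set.Icc (0 : ℝ) 1, 0 < wt a (t * b3 b j)) ∧
    (∀ x ∈ Set.Icc (0 : ℝ) 1, ∀ y ∈ Set.Icc (0 : ℝ) 1,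
      wt a (-(b / 2)) ≤ wt a (x * b3 b 0 + y * b3 b 1)) ∧
    (∀ y ∈ Set.Icc (0 : ℝ) 1, wt a (-(b / 2)) ≤ wt a (y * b3 b 2)) ∧
    (∀ y ∈ Set.Icc (0 : ℝ) 1, wt a (-(b / 2)) ≤ wt a (-(y * b3 b 2))) ∧
    (∀ j, |b3 b j| ≤ 3) ∧ ∑ j, b3 b j = 0 := by
  have hpi := Real.pi_pos
  have hpi2 := Real.pi_lt_four
  have ha2 : a < π / 2 := by linarith
  refine ⟨?_, ?_, ?_, ?_, ?_, ?_⟩
  · intro j t ht
    have h5 : b ≤ t * b := by nlinarith [ht.1, ht.2]
    have h6 : t * b ≤ 0 := mul_nonpos_of_nonneg_of_nonpos ht.1 hb1.le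
    fin_cases j
    · show 0 < wt a (t * b)
      exact wt_pos2 ha0 ha2 (by linarith) (by linarith)
    · show 0 < wt a (t * -(b / 2))
      exact wt_pos2 ha0 ha2 (by linarith) (by linarith)
    · show 0 < wt a (t * -(b / 2))
      exact wt_pos2 ha0 ha2 (by linarith) (by linarith)
  · intro x hx y hy
    show wt a (-(b / 2)) ≤ wt a (x * b + y * -(b / 2))
    have h5 : b ≤ x * b := by nlinarith [hx.1, hx.2]
    have h6 : x * b ≤ 0 := mul_nonpos_of_nonneg_of_nonpos hx.1 hb1.le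
    have h7 : b ≤ y * b := by nlinarith [hy.1, hy.2]
    have h8 : y * b ≤ 0 := mul_nonpos_of_nonneg_of_nonpos hy.1 hb1.le
    exact wt_le ha0 ha2 (abs_le.2 ⟨by linarith, by linarith⟩) (by linarith)
  · intro y hy
    show wt a (-(b / 2)) ≤ wt a (y * -(b / 2))
    have h7 : b ≤ y * b := by nlinarith [hy.1, hy.2]
    have h8 : y * b ≤ 0 := mul_nonpos_of_nonneg_of_nonpos hy.1 hb1.le
    exact wt_le ha0 ha2 (abs_le.2 ⟨by linarith, by linarith⟩) (by linarith)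
  · intro y hy
    show wt a (-(b / 2)) ≤ wt a (-(y * -(b / 2)))
    have h7 : b ≤ y * b := by nlinarith [hy.1, hy.2]
    have h8 : y * b ≤ 0 := mul_nonpos_of_nonneg_of_nonpos hy.1 hb1.le
    exact wt_le ha0 ha2 (abs_le.2 ⟨by linarith, by linarith⟩) (by linarith)
  · intro j
    fin_cases j
    · show |b| ≤ 3
      rw [abs_of_neg hb1]; linarith
    · show |-(b / 2)| ≤ 3
      rw [abs_neg, abs_of_neg (by linarith)]; linarith
    · show |-(b / 2)| ≤ 3
      rw [abs_neg, abs_of_neg (by linarith)]; linarith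
  · simp [b3, Fin.sum_univ_three]; ring

/-- Lower bound for three charges; `δ` is a bound for the conditional probability of no ring. -/
theorem three_lo [IsProbabilityMeasure P] (H : Ctx a P Cm K κ m) {b p : ℝ} (hb0 : -a < b)
    (hb1 : b < 0) (hp : 1 < p) (hp2 : p ≤ 2) :
    ∃ C, ∀ r : Fin 3 → ℝ, 0 < r 0 → 4 * r 0 ≤ r 1 → 4 * r 1 ≤ r 2 → ∀ δ : ℝ, exp δ ≤ 1 / 2 →
      (∀ᶠ n : ℕ in atTop, ∀ x : ℝ, 0 ≤ x →
        ∫⁻ ω in {ω | NA (r 1) (r 2) n ω = 0}, ENNReal.ofReal (x ^ NA (r 0) (r 1) n ω) ∂P ≤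
          ENNReal.ofReal (exp δ) * En P (NA (r 0) (r 1) n) x) →
      ∀ᶠ n : ℕ in atTop,
      b * (Real.tan a * (nf P κ m (r 1) n - nf P κ m (r 0) n)) +
        p * lam P (NA (r 0) (r 1) n) (log (wt a b) / p) ≤
        -(cAa a * (b ^ 2 * log (r 1 / r 0) + (b / 2) ^ 2 * log (r 2 / r 1))) -
          b / 2 * (Real.tan a * (nf P κ m (r 2) n - nf P κ m (r 1) n)) + C ∨
      p * lam P (NA (r 0) (r 1) n) (log (wt a b) / p) ≤
        C + (δ + lam P (NA (r 0) (r 1) n) (p * log (wt a b))) / p := by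
  have hpi := Real.pi_pos
  have hpi2 := Real.pi_lt_four
  have hp0 : 0 < p := by linarith
  have ha0 := H.a0
  have ha1 := H.a1
  have ha2 := H.a2
  have hw0 : 0 < wt a (-(b / 2)) := wt_pos2 ha0 ha2 (by linarith) (by linarith)
  have hw1 : wt a (-(b / 2)) ≤ 1 := by
    rw [← wt_zero H]
    exact wt_le ha0 ha2 (abs_le.2 ⟨by linarith, by linarith⟩) (by linarith)
  have hwb : 0 < wt a b := wt_pos2 ha0 ha2 (by linarith) (by linarith)
  have hwb2 : 0 < wt a (b / 2) := wt_pos2 ha0 ha2 (by linarith) (by linarith)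
  have hwb2' : 1 ≤ wt a (b / 2) := by
    rw [← wt_zero H]
    exact wt_le ha0 ha2 (abs_le.2 ⟨by linarith, by linarith⟩) (by linarith)
  obtain ⟨C1, ρ1, hlo⟩ := lo (Cm := Cm) (T := 3) H.κ0 H.κ1 H.small H.large H.lo H.meas hp hw0 hw1
  obtain ⟨C2, ρ2, hup⟩ := up (Cm := Cm) (T := 3) H.a0 H.a2 H.κ0 H.κ1 H.small H.large H.up H.meas hp
  obtain ⟨c1, c2, c3, c4, hbb, hsum⟩ := cond_three ha0 ha1 hb0 hb1
  set B : ℝ := K * (∑ j, |b3 b j|) ^ 2 with hB
  refine ⟨|B| + |C1| + |C2| + 5 * log 2, fun r h0 h1 h2 δ hδ hring => ?_⟩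
  have hr1 : 0 < r 1 := by linarith
  have hr2 : 0 < r 2 := by linarith
  obtain ⟨q, hq, hev⟩ := gauss3 H.gauss (b3 b) r h0 h1 h2 hsum
  filter_upwards [hev, ev_rad H h0 h1 h2 ρ1, ev_rad H h0 h1 h2 ρ2, hring] with n hn1 hn2 hn3 hn4
  obtain ⟨hpos, h3⟩ := hlo (fun j => r j * n) (b3 b) (fun j => m (r j) n) hn2.1
    hn2.2.1 hn2.2.2.1 hn2.2.2.2 hbb hsum c1 c2 c3 c4 {0}ᶜ (Or.inr (by simp))
  have h4 := hup (fun j => r j * n) (b3 b) (fun j => m (r j) n) hn3.1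
    hn3.2.1 hn3.2.2.1 hn3.2.2.2 hbb hsum {0}
  have hint : Integrable (Xa a (ff (b3 b) fun j => m (r j) n)) P := by
    by_contra hcon
    have := integral_undef hcon
    have h9 := hn1.1
    rw [this] at h9
    linarith [Real.exp_pos q]
  have h5 := h3.trans ((integral_split hint (meas_N1 H.meas _) hpos).trans
    (add_le_add (ENNReal.ofReal_le_ofReal hn1.2) h4))
  have e01 : b3 b 0 + b3 b 1 = b / 2 := by
    show b + -(b / 2) = b / 2
    ring
  have e0 : b3 b 0 = b := rfl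
  have eN0 : (N0 fun j => r j * n) = NA (r 0) (r 1) n := rfl
  have eN1 : (N1 fun j => r j * n) = NA (r 1) (r 2) n := rfl
  have eS := Sv_three (P := P) (a := a) (κ := κ) (m := m) r n b
  have hA0 := allExp_NA H (r 0) (r 1) n
  rw [e01, e0] at h5
  -- the second term
  have f2 : MM P (fun j => r j * n) {0} (|wt a b| ^ p) (|wt a (b / 2)| ^ p) ≤
      ENNReal.ofReal (exp δ) *
        ENNReal.ofReal (exp (lam P (NA (r 0) (r 1) n) (p * log (wt a b)))) := by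
    rw [MM_zero H.meas, abs_of_pos hwb]
    refine (hn4 (wt a b ^ p) (Real.rpow_nonneg hwb.le _)).trans (le_of_eq ?_)
    rw [En_pow hA0 hwb]
  -- the first term
  have f1 : ENNReal.ofReal (exp (lam P (NA (r 0) (r 1) n) (log (wt a b) / p)) / 2) ≤
      MM P (fun j => r j * n) {0}ᶜ (wt a b ^ (1 / p)) (wt a (b / 2) ^ (1 / p)) := by
    have g0 : En P (NA (r 0) (r 1) n) (wt a b ^ (1 / p)) =
        ENNReal.ofReal (exp (lam P (NA (r 0) (r 1) n) (log (wt a b) / p))) := by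
      rw [En_pow hA0 hwb]
      congr 3
      field_simp
    refine half_le g0 (MM_split H.meas (fun j => r j * n) (wt a b ^ (1 / p))
      (Real.one_le_rpow hwb2' (by positivity : 0 ≤ 1 / p))) ?_
    rw [MM_zero H.meas]
    refine (hn4 (wt a b ^ (1 / p)) (Real.rpow_nonneg hwb.le _)).trans ?_
    gcongr
  have h6 : ENNReal.ofReal (exp (Sv a P κ (fun j => r j * n) (b3 b) (fun j => m (r j) n) - C1)) *
      MM P (fun j => r j * n) {0}ᶜ (wt a b ^ (1 / p)) (wt a (b / 2) ^ (1 / p)) ^ p ≤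
      ENNReal.ofReal (2 * exp q) +
      ENNReal.ofReal (exp (Sv a P κ (fun j => r j * n) (b3 b) (fun j => m (r j) n) + C2)) *
        (ENNReal.ofReal (exp δ) *
        ENNReal.ofReal (exp (lam P (NA (r 0) (r 1) n) (p * log (wt a b))))) ^ (1 / p) := by
    refine h5.trans ?_
    gcongr
  have h10 := (abs_le.1 hq).2
  rw [energy_three h0 hr1 hr2, ← hB] at h10
  have h11 := fin_three (Lb := cAa a * (b ^ 2 * log (r 1 / r 0) + (b / 2) ^ 2 * log (r 2 / r 1)))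
    (B := B) hp hp2 h6 f1 (by linarith)
  rw [eS] at h11
  rcases h11 with h | h
  · left; linarith
  · right; linarith

end Vale.Agent.P167.H562.GQ
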