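import Vale.Agent.P167.H562.GBias

/-!
# P167, general `q`: sums over scales of local variables
-/

namespace Vale.Agent.P167.H562.GL

open Finset Filter Topology MeasureTheory Vale.Agent.P167.FK Vale.Agent.P167.FKA

variable {P : Measure Cfg}

theorem Em_const_add {ν : Measure Cfg} {f g : Cfg → ℝ} {c : ℝ} {B : ENNReal}
    (h : ∀ ω, f ω ≤ c + g ω) (h1 : Em ν g ≤ B) : Em ν f ≤ ENNReal.ofReal (Real.exp c) * B := by
  refine (Em_mono h).trans ?_
  unfold Em at *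
  calc ∫⁻ ω, ENNReal.ofReal (Real.exp (c + g ω)) ∂ν
      = ∫⁻ ω, ENNReal.ofReal (Real.exp c) * ENNReal.ofReal (Real.exp (g ω)) ∂ν := by
        refine lintegral_congr fun ω => ?_
        rw [Real.exp_add, ENNReal.ofReal_mul (Real.exp_pos _).le]
    _ = ENNReal.ofReal (Real.exp c) * ∫⁻ ω, ENNReal.ofReal (Real.exp (g ω)) ∂ν :=
        lintegral_const_mul' _ _ ENNReal.ofReal_ne_top
    _ ≤ _ := mul_le_mul_right h1 _

/-- One super-box. -/
theorem super {ν : Measure Cfg} [IsProbabilityMeasure ν] {ι : Type*} {S : Finset ι}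
    {X K : ι → Cfg → ℝ} {A : ι → Finset (ℤ × ℤ)} (hXl : ∀ z ∈ S, Loc (A z) (X z))
    (hK : ∀ z ∈ S, Measurable (K z)) (hK0 : ∀ z ∈ S, ∀ ω, 0 ≤ K z ω) {a b s M τ : ℝ}
    (hs : 0 ≤ s) (hM0 : 0 ≤ M) {n : ℕ} (hn0 : 0 < n) (hn : S.card ≤ n)
    (hb0 : 0 ≤ b) (hXK : ∀ z ∈ S, ∀ ω, |X z ω| ≤ a * K z ω) (hτ : |τ| * (n * a) ≤ s)
    (hM : ∀ z ∈ S, Em ν (fun ω => (s + 1) * K z ω) ≤ ENNReal.ofReal (Real.exp M))
    (hb : ∀ z ∈ S, |∫ ω, X z ω ∂ν - ∫ ω, X z ω ∂P| ≤ b) :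
    Em ν (fun ω => τ * ∑ z ∈ S, (X z ω - ∫ x, X z x ∂P)) ≤ ENNReal.ofReal (Real.exp
      (|τ| * (n * b) + 2 * Real.exp M * Real.exp ((s + 1) * Real.exp M) *
        (τ ^ 2 * (n * a) ^ 2))) := by
  have hn0' : (0 : ℝ) < n := by exact_mod_cast hn0
  have hn' : (S.card : ℝ) ≤ n := by exact_mod_cast hn
  have hXm : ∀ z ∈ S, Measurable (X z) := fun z hz => Loc.meas (hXl z hz)
  have hXi : ∀ z ∈ S, Integrable (X z) ν := fun z hz => loc_integrable (hXl z hz)
  have h1 := single (μ := ν) (X := fun ω => ∑ z ∈ S, X z ω)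
    (K := fun ω => ∑ z ∈ S, (1 / n : ℝ) * K z ω)
    (Finset.measurable_fun_sum _ fun z hz => hXm z hz)
    (Finset.measurable_fun_sum _ fun z hz => (hK z hz).const_mul _)
    (a := n * a) (s := s) (t := τ) (M := Real.exp M) hs
    (fun ω => Finset.sum_nonneg fun z hz => mul_nonneg (by positivity) (hK0 z hz ω))
    (fun ω => by
      refine (Finset.abs_sum_le_sum_abs _ _).trans ?_
      rw [← Finset.mul_sum]
      have : (n : ℝ) * a * (1 / n * ∑ z ∈ S, K z ω) = ∑ z ∈ S, a * K z ω := by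
        rw [Finset.mul_sum, Finset.mul_sum]
        refine Finset.sum_congr rfl fun z _ => ?_
        field_simp
      rw [this]
      exact Finset.sum_le_sum fun z hz => hXK z hz ω) hτ
    (by
      have e : (fun ω => (s + 1) * ∑ z ∈ S, (1 / n : ℝ) * K z ω) =
          fun ω => ∑ z ∈ S, (1 / n : ℝ) * ((s + 1) * K z ω) := by
        ext ω
        rw [Finset.mul_sum]
        exact Finset.sum_congr rfl fun z _ => by ring
      rw [e]
      have h2 := Em_holder (μ := ν) S (Y := fun z ω => (1 / n : ℝ) * ((s + 1) * K z ω))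
        (fun z hz => ((hK z hz).const_mul _).const_mul _) (θ := fun _ => (1 : ℝ) / n)
        (B := fun _ => M) (fun _ _ => by positivity) (by
          rw [Finset.sum_const, nsmul_eq_mul, mul_one_div, div_le_one hn0']
          exact hn') (fun z hz => by
          have e2 : (fun ω => (1 / (n : ℝ))⁻¹ * (1 / n * ((s + 1) * K z ω))) =
              fun ω => (s + 1) * K z ω := by
            ext ω; field_simp
          rw [e2]
          exact hM z hz)
      refine h2.trans (ENNReal.ofReal_le_ofReal (Real.exp_le_exp.2 ?_))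
      rw [Finset.sum_const, nsmul_eq_mul]
      have : (S.card : ℝ) * (1 / n * M) = (S.card / n) * M := by ring
      rw [this]
      have h3 : (S.card : ℝ) / n ≤ 1 := by rw [div_le_one hn0']; exact hn'
      nlinarith)
  have h2 : ∀ ω, τ * ∑ z ∈ S, (X z ω - ∫ x, X z x ∂P) ≤
      |τ| * (n * b) + τ * (∑ z ∈ S, X z ω - ∫ x, ∑ z ∈ S, X z x ∂ν) := by
    intro ω
    rw [integral_finsetSum _ hXi]
    have e : τ * ∑ z ∈ S, (X z ω - ∫ x, X z x ∂P) =
        τ * ∑ z ∈ S, (∫ x, X z x ∂ν - ∫ x, X z x ∂P) +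
          τ * (∑ z ∈ S, X z ω - ∑ z ∈ S, ∫ x, X z x ∂ν) := by
      rw [← mul_add, Finset.sum_sub_distrib, Finset.sum_sub_distrib]
      ring
    rw [e]
    refine add_le_add ?_ le_rfl
    refine (le_abs_self _).trans ?_
    rw [abs_mul]
    refine mul_le_mul_of_nonneg_left ?_ (abs_nonneg τ)
    refine (Finset.abs_sum_le_sum_abs _ _).trans ?_
    calc ∑ z ∈ S, |∫ x, X z x ∂ν - ∫ x, X z x ∂P| ≤ ∑ _z ∈ S, b :=
          Finset.sum_le_sum fun z hz => hb z hz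
      _ = S.card * b := by rw [Finset.sum_const, nsmul_eq_mul]
      _ ≤ n * b := mul_le_mul_of_nonneg_right hn' hb0
  refine (Em_const_add h2 h1).trans (le_of_eq ?_)
  rw [← ENNReal.ofReal_mul (Real.exp_pos _).le, ← Real.exp_add]

theorem geom_le {x : ℝ} (h0 : 0 ≤ x) (h1 : x < 1) (J : ℕ) :
    ∑ j ∈ Finset.range J, x ^ j ≤ 1 / (1 - x) := by
  rw [geom_sum_eq h1.ne]
  have h2 : 0 < 1 - x := by linarith
  have e : (x ^ J - 1) / (x - 1) = (1 - x ^ J) / (1 - x) := by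
    rw [← neg_sub, ← neg_sub 1 x, neg_div_neg_eq]
  rw [e]
  refine div_le_div_of_nonneg_right ?_ h2.le
  linarith [pow_nonneg h0 J]

/-- Sum over the scales, the super-boxes and the boxes. -/
theorem multi [IsProbabilityMeasure P] {ι : Type*} [DecidableEq ι] (J c : ℕ) (hc : 0 < c)
    (W : ℕ → Finset ι) (col : ι → Fin c) (S : ℕ → ι → Finset ι) {X K : ℕ → ι → Cfg → ℝ}
    {A U : ℕ → ι → Finset (ℤ × ℤ)} (hXl : ∀ j < J, ∀ w ∈ W j, ∀ z ∈ S j w, Loc (A j z) (X j z))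
    (hK : ∀ j < J, ∀ w ∈ W j, ∀ z ∈ S j w, Measurable (K j z))
    (hK0 : ∀ j < J, ∀ w ∈ W j, ∀ z ∈ S j w, ∀ ω, 0 ≤ K j z ω)
    (hd : ∀ j < J, ∀ w ∈ W j, ∀ w' ∈ W j, w ≠ w' → col w = col w' → ∀ z ∈ S j w,
      Disjoint (A j z) (U j w'))
    {s M A0 B0 β Γ t : ℝ} {a b g : ℕ → ℝ} {n : ℕ → ℕ} (hs : 0 ≤ s) (hM0 : 0 ≤ M)
    (hn0 : ∀ j, 0 < n j) (hn : ∀ j < J, ∀ w ∈ W j, (S j w).card ≤ n j) (hb0 : ∀ j, 0 ≤ b j)
    (ha0 : ∀ j, 0 ≤ a j) (hA0 : 0 ≤ A0) (hB0 : 0 ≤ B0) (hβ : 0 ≤ β) (hg0 : ∀ j, 0 ≤ g j)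
    (hXK : ∀ j < J, ∀ w ∈ W j, ∀ z ∈ S j w, ∀ ω, |X j z ω| ≤ a j * K j z ω)
    (hM : ∀ j < J, ∀ w ∈ W j, ∀ z ∈ S j w, ∀ ν, Nu P ν (U j w) →
      Em ν (fun ω => (s + 1) * K j z ω) ≤ ENNReal.ofReal (Real.exp M))
    (hb : ∀ j < J, ∀ w ∈ W j, ∀ z ∈ S j w, ∀ ν, Nu P ν (U j w) →
      |∫ ω, X j z ω ∂ν - ∫ ω, X j z ω ∂P| ≤ b j)
    (hna : ∀ j < J, n j * a j ≤ A0 * (1 / 2) ^ j) (hnb : ∀ j < J, n j * b j ≤ B0 * (1 / 2) ^ j * g j)
    (hW : ∀ j < J, ((W j).card : ℝ) ≤ β * 2 ^ j) (hg : ∑ j ∈ Finset.range J, g j ≤ Γ)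
    (ht : 4 * c * A0 * |t| ≤ s) :
    Em P (fun ω => t * ∑ j ∈ Finset.range J, ∑ w ∈ W j, ∑ z ∈ S j w,
      (X j z ω - ∫ x, X j z x ∂P)) ≤ ENNReal.ofReal (Real.exp (β * (c * |t| * B0 * Γ +
        12 * (2 * Real.exp M * Real.exp ((s + 1) * Real.exp M)) * c ^ 2 * t ^ 2 * A0 ^ 2))) := by
  classical
  set G : ℝ := 2 * Real.exp M * Real.exp ((s + 1) * Real.exp M) with hG
  have hG0 : 0 ≤ G := by positivity
  have hc' : (0 : ℝ) < c := by exact_mod_cast hc
  let θ : ℕ × Fin c → ℝ := fun p => (1 / 4) * (3 / 4) ^ p.1 / c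
  let Y : ℕ × Fin c → Cfg → ℝ := fun p ω => t * ∑ w ∈ (W p.1).filter (fun w => col w = p.2),
    ∑ z ∈ S p.1 w, (X p.1 z ω - ∫ x, X p.1 z x ∂P)
  let E : ℕ × Fin c → ℝ := fun p => β * (4 * c * |t| * B0 * (4 / 3) ^ p.1 * g p.1 +
    16 * G * c ^ 2 * t ^ 2 * A0 ^ 2 * (8 / 9) ^ p.1)
  have hθ : ∀ p, 0 < θ p := fun p => by positivity
  have h34 : ∑ j ∈ Finset.range J, ((3 : ℝ) / 4) ^ j ≤ 4 := by
    refine (geom_le (by norm_num) (by norm_num) J).trans (by norm_num)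
  have h23 : ∑ j ∈ Finset.range J, ((2 : ℝ) / 3) ^ j ≤ 3 := by
    refine (geom_le (by norm_num) (by norm_num) J).trans (by norm_num)
  have hsum : ∑ p ∈ (Finset.range J) ×ˢ (Finset.univ : Finset (Fin c)), θ p ≤ 1 := by
    rw [Finset.sum_product]
    simp only [θ, Finset.sum_const, Finset.card_univ, Fintype.card_fin, nsmul_eq_mul]
    calc ∑ j ∈ Finset.range J, (c : ℝ) * ((1 / 4) * (3 / 4) ^ j / c)
        = (1 / 4) * ∑ j ∈ Finset.range J, ((3 : ℝ) / 4) ^ j := by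
          rw [Finset.mul_sum]
          exact Finset.sum_congr rfl fun j _ => by field_simp
      _ ≤ 1 := by linarith
  have hYm : ∀ p ∈ (Finset.range J) ×ˢ (Finset.univ : Finset (Fin c)), Measurable (Y p) := by
    intro p hp
    have hj : p.1 < J := by simpa using (Finset.mem_product.1 hp).1
    refine Measurable.const_mul ?_ _
    refine Finset.measurable_fun_sum _ fun w hw => Finset.measurable_fun_sum _ fun z hz => ?_
    exact (Loc.meas (hXl _ hj w (Finset.mem_filter.1 hw).1 z hz)).sub measurable_const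
  have hB : ∀ p ∈ (Finset.range J) ×ˢ (Finset.univ : Finset (Fin c)),
      Em P (fun ω => (θ p)⁻¹ * Y p ω) ≤ ENNReal.ofReal (Real.exp (E p)) := by
    rintro ⟨j, k⟩ hp
    have hj : j < J := by simpa using (Finset.mem_product.1 hp).1
    set τ : ℝ := 4 * c * (4 / 3) ^ j * t with hτ
    have e1 : (fun ω => (θ (j, k))⁻¹ * Y (j, k) ω) =
        fun ω => ∑ w ∈ (W j).filter (fun w => col w = k),
          (τ * ∑ z ∈ S j w, (X j z ω - ∫ x, X j z x ∂P)) := by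
      ext ω
      simp only [θ, Y]
      rw [← Finset.mul_sum, ← mul_assoc]
      congr 1
      have : ((4 : ℝ) / 3) ^ j = ((3 / 4) ^ j)⁻¹ := by rw [← inv_pow]; norm_num
      rw [hτ, inv_div, this]
      field_simp
    rw [e1]
    have habs : |τ| = 4 * c * (4 / 3) ^ j * |t| := by
      rw [hτ, abs_mul, abs_of_nonneg (by positivity)]
    have hτs : |τ| * (n j * a j) ≤ s := by
      rw [habs]
      have h1 := hna j hj
      have e2 : ((4 : ℝ) / 3) ^ j * (1 / 2) ^ j = (2 / 3) ^ j := by rw [← mul_pow]; norm_num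
      calc 4 * c * (4 / 3) ^ j * |t| * (n j * a j)
          ≤ 4 * c * (4 / 3) ^ j * |t| * (A0 * (1 / 2) ^ j) :=
            mul_le_mul_of_nonneg_left h1 (by positivity)
        _ = (4 * c * A0 * |t|) * (2 / 3) ^ j := by rw [← e2]; ring
        _ ≤ (4 * c * A0 * |t|) * 1 :=
            mul_le_mul_of_nonneg_left (pow_le_one₀ (by norm_num) (by norm_num)) (by positivity)
        _ ≤ s := by linarith
    have h2 := prod_nu (P := P) ((W j).filter (fun w => col w = k))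
      (Y := fun w ω => τ * ∑ z ∈ S j w, (X j z ω - ∫ x, X j z x ∂P))
      (A := fun w => (S j w).biUnion (A j)) (U := U j)
      (β := |τ| * (n j * b j) + G * (τ ^ 2 * (n j * a j) ^ 2))
      (fun w hw ω ω' hω => by
        simp only
        congr 1
        refine Finset.sum_congr rfl fun z hz => ?_
        rw [hXl j hj w (Finset.mem_filter.1 hw).1 z hz ω ω' fun v hv =>
          hω v (Finset.mem_biUnion.2 ⟨z, hz, hv⟩)])
      (fun w hw w' hw' hne => by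
        rw [Finset.disjoint_biUnion_left]
        intro z hz
        rw [Finset.mem_filter] at hw hw'
        exact hd j hj w hw.1 w' hw'.1 hne (hw.2.trans hw'.2.symm) z hz)
      (fun w hw ν hν => by
        have hw1 := (Finset.mem_filter.1 hw).1
        have hνp := hν.prob
        exact super (P := P) (fun z hz => hXl j hj w hw1 z hz) (fun z hz => hK j hj w hw1 z hz)
          (fun z hz => hK0 j hj w hw1 z hz) hs hM0 (hn0 j) (hn j hj w hw1) (hb0 j)
          (fun z hz => hXK j hj w hw1 z hz) hτs (fun z hz => hM j hj w hw1 z hz ν hν)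
          (fun z hz => hb j hj w hw1 z hz ν hν))
    refine h2.trans (ENNReal.ofReal_le_ofReal (Real.exp_le_exp.2 ?_))
    have h3 : (((W j).filter (fun w => col w = k)).card : ℝ) ≤ β * 2 ^ j :=
      le_trans (by exact_mod_cast Finset.card_filter_le _ _) (hW j hj)
    have h4 : |τ| * (n j * b j) + G * (τ ^ 2 * (n j * a j) ^ 2) ≤
        4 * c * (4 / 3) ^ j * |t| * (B0 * (1 / 2) ^ j * g j) +
          G * ((4 * c * (4 / 3) ^ j * t) ^ 2 * (A0 * (1 / 2) ^ j) ^ 2) := by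
      rw [habs]
      refine add_le_add (mul_le_mul_of_nonneg_left (hnb j hj) (by positivity)) ?_
      refine mul_le_mul_of_nonneg_left ?_ hG0
      rw [hτ]
      refine mul_le_mul_of_nonneg_left ?_ (by positivity)
      exact pow_le_pow_left₀ (mul_nonneg (by positivity) (ha0 j)) (hna j hj) 2
    have h5 : 0 ≤ 4 * c * (4 / 3) ^ j * |t| * (B0 * (1 / 2) ^ j * g j) +
          G * ((4 * c * (4 / 3) ^ j * t) ^ 2 * (A0 * (1 / 2) ^ j) ^ 2) := by
      have := hg0 j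
      positivity
    have h6 : 0 ≤ |τ| * (n j * b j) + G * (τ ^ 2 * (n j * a j) ^ 2) := by
      have := hb0 j
      positivity
    refine (mul_le_mul h3 h4 h6 (by positivity)).trans (le_of_eq ?_)
    simp only [E]
    have e2 : ((1 : ℝ) / 2) ^ j * 2 ^ j = 1 := by rw [← mul_pow]; norm_num
    have e3 : (2 : ℝ) ^ j * ((4 / 3) ^ j) ^ 2 * ((1 / 2) ^ j) ^ 2 = (8 / 9) ^ j := by
      rw [← pow_mul, ← pow_mul, mul_comm j 2, pow_mul, pow_mul, ← mul_pow, ← mul_pow]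
      norm_num
    linear_combination (β * (4 * c * (4 / 3) ^ j * |t| * B0 * g j)) * e2 +
      (β * G * 16 * c ^ 2 * t ^ 2 * A0 ^ 2) * e3
  have hfin := Em_holder ((Finset.range J) ×ˢ (Finset.univ : Finset (Fin c))) hYm
    (fun p _ => hθ p) hsum hB
  have e5 : (fun ω => t * ∑ j ∈ Finset.range J, ∑ w ∈ W j, ∑ z ∈ S j w,
      (X j z ω - ∫ x, X j z x ∂P)) =
      fun ω => ∑ p ∈ (Finset.range J) ×ˢ (Finset.univ : Finset (Fin c)), Y p ω := by
    ext ω
    rw [Finset.sum_product]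
    simp only [Y]
    rw [Finset.mul_sum]
    refine Finset.sum_congr rfl fun j _ => ?_
    rw [← Finset.mul_sum]
    congr 1
    exact (Finset.sum_fiberwise (W j) col _).symm
  rw [e5]
  refine le_trans hfin (ENNReal.ofReal_le_ofReal (Real.exp_le_exp.2 ?_))
  rw [Finset.sum_product]
  have e6 : ∀ j ∈ Finset.range J, ∑ k : Fin c, θ (j, k) * E (j, k) =
      β * (c * |t| * B0 * g j + 4 * G * c ^ 2 * t ^ 2 * A0 ^ 2 * (2 / 3) ^ j) := by
    intro j _
    simp only [θ, E, Finset.sum_const, Finset.card_univ, Fintype.card_fin, nsmul_eq_mul]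
    have e1 : ((3 : ℝ) / 4) ^ j * (4 / 3) ^ j = 1 := by rw [← mul_pow]; norm_num
    have e2 : ((3 : ℝ) / 4) ^ j * (8 / 9) ^ j = (2 / 3) ^ j := by rw [← mul_pow]; norm_num
    have e3 : (c : ℝ) * (1 / 4 * (3 / 4) ^ j / c *
        (β * (4 * c * |t| * B0 * (4 / 3) ^ j * g j +
          16 * G * c ^ 2 * t ^ 2 * A0 ^ 2 * (8 / 9) ^ j))) =
        1 / 4 * (3 / 4) ^ j *
        (β * (4 * c * |t| * B0 * (4 / 3) ^ j * g j +
          16 * G * c ^ 2 * t ^ 2 * A0 ^ 2 * (8 / 9) ^ j)) := by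
      field_simp
    rw [e3]
    linear_combination (β * c * |t| * B0 * g j) * e1 +
      (β * 4 * G * c ^ 2 * t ^ 2 * A0 ^ 2) * e2
  rw [Finset.sum_congr rfl e6, ← Finset.mul_sum, Finset.sum_add_distrib, ← Finset.mul_sum,
    ← Finset.mul_sum]
  refine mul_le_mul_of_nonneg_left ?_ hβ
  refine add_le_add (mul_le_mul_of_nonneg_left hg (by positivity)) ?_
  have h7 : 4 * G * c ^ 2 * t ^ 2 * A0 ^ 2 * ∑ j ∈ Finset.range J, ((2 : ℝ) / 3) ^ j ≤
      4 * G * c ^ 2 * t ^ 2 * A0 ^ 2 * 3 := mul_le_mul_of_nonneg_left h23 (by positivity)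
  linarith

end Vale.Agent.P167.H562.GL
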