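import Vale.Agent.P167.H562.GLm

/-!
# P167, general `q`: total variation mixing
-/

namespace Vale.Agent.P167.H562.GL

open Finset Filter Topology MeasureTheory Vale.Agent.P167.FK Vale.Agent.P167.FKA Relation
open Vale.Agent.P167.H519 (IsLim loc_cont Bq_mono exists_Bq Sx Jn cf_in loc_mono pa_even pb_even
  pa_cor pb_cor pc_of_cor ind_le_of_imp mT mT_bd mT_inc mT_loc)
open Vale.Agent.P167.H259 (f_markov f_fkg f_comp f_comp2 Ex_out cf_cf PC_mono)
open Vale.Agent.P145.FB (PStep PConn)

variable {Q : ℝ}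

/-- Equality for the increasing functions implies equality for the local functions. -/
theorem eq_of_inc {A A' V : Finset (ℤ × ℤ)} {ξ ξ' : Cfg}
    (h : ∀ F : Cfg → ℝ, IncF F → (∀ ω, 0 ≤ F ω) → Loc V F → Ex Q A ξ F = Ex Q A' ξ' F)
    (B : Finset (ℤ × ℤ)) : ∀ (F : Cfg → ℝ), Loc B F → ∀ T, B ∪ T ⊆ V →
      Ex Q A ξ (fun ω => F ω * mT T ω) = Ex Q A' ξ' (fun ω => F ω * mT T ω) := by
  classical
  induction B using Finset.induction_on with
  | empty =>
    intro F hF T hT
    have h1 : ∀ ω, F ω * mT T ω = F eta0 * mT T ω := fun ω => by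
      rw [hF ω eta0 fun v hv => absurd hv (by simp)]
    simp only [h1]
    rw [Ex_mul_left, Ex_mul_left, h _ (mT_inc T) (fun ω => (mT_bd T ω).1)
      (loc_mono (Finset.union_subset_iff.1 hT).2 (mT_loc T))]
  | insert a B ha ih =>
    intro F hF T hT
    have h0 : Loc B (fun ω => F (Function.update ω a false)) := by
      intro ω ω' h
      refine hF _ _ fun v hv => ?_
      by_cases hva : v = a
      · subst hva; simp
      · rw [Function.update_of_ne hva, Function.update_of_ne hva]
        exact h v ((Finset.mem_insert.1 hv).resolve_left hva)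
    have h1 : Loc B (fun ω => F (Function.update ω a true)) := by
      intro ω ω' h
      refine hF _ _ fun v hv => ?_
      by_cases hva : v = a
      · subst hva; simp
      · rw [Function.update_of_ne hva, Function.update_of_ne hva]
        exact h v ((Finset.mem_insert.1 hv).resolve_left hva)
    have h2 : ∀ ω, F ω * mT T ω = F (Function.update ω a false) * mT T ω +
        (F (Function.update ω a true) * mT (insert a T) ω +
          (-1) * (F (Function.update ω a false) * mT (insert a T) ω)) := by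
      intro ω
      have h3 : mT (insert a T) ω = (if ω a = true then 1 else 0) * mT T ω := by
        unfold mT
        by_cases haT : a ∈ T
        · rw [Finset.insert_eq_of_mem haT]
          by_cases hω : ω a = true
          · rw [if_pos hω, one_mul]
          · rw [if_neg hω, zero_mul]
            exact Finset.prod_eq_zero haT (by rw [if_neg hω])
        · rw [Finset.prod_insert haT]
      rw [h3]
      cases hω : ω a with
      | true =>
        have : Function.update ω a true = ω := by rw [← hω]; exact Function.update_eq_self _ _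
        rw [this]
        simp
      | false =>
        have : Function.update ω a false = ω := by rw [← hω]; exact Function.update_eq_self _ _
        rw [this]
        simp
    simp only [h2]
    have hT1 : B ∪ T ⊆ V := by
      refine subset_trans ?_ hT
      intro v hv
      simp only [Finset.mem_union, Finset.mem_insert] at hv ⊢
      tauto
    have hT2 : B ∪ insert a T ⊆ V := by
      refine subset_trans ?_ hT
      intro v hv
      simp only [Finset.mem_union, Finset.mem_insert] at hv ⊢
      tauto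
    rw [Ex_add, Ex_add, Ex_add, Ex_add, Ex_mul_left, Ex_mul_left, ih _ h0 T hT1, ih _ h1 _ hT2,
      ih _ h0 _ hT2]

/-- Conditioning on one square. -/
theorem Ex_split (hQ0 : 0 < Q) {A : Finset (ℤ × ℤ)} {e : ℤ × ℤ} (he : e ∈ A) {ξ : Cfg}
    (hξ : Good ξ) (F : Cfg → ℝ) :
    Ex Q A ξ F = Pr Q A ξ {ω | ω e = true} * Ex Q (A.erase e) (cf A ξ {e}) F +
      (1 - Pr Q A ξ {ω | ω e = true}) * Ex Q (A.erase e) (cf A ξ ∅) F := by
  set A' := A.erase e with hA'
  have hA'A : A' ⊆ A := Finset.erase_subset _ _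
  have hnot : ∀ v, v ∉ A' → v ∉ A ∨ v = e := by
    intro v hv
    by_cases h : v = e
    · exact Or.inr h
    · exact Or.inl fun h' => hv (Finset.mem_erase.2 ⟨h, h'⟩)
  rw [f_markov Q A' A ξ F hQ0 hA'A hξ]
  set f1 := Ex Q A' (cf A ξ {e}) F with hf1
  set f0 := Ex Q A' (cf A ξ ∅) F with hf0
  have h1 : Ex Q A ξ (fun ω => Ex Q A' ω F) =
      Ex Q A ξ (fun ω => f0 + (f1 - f0) * {ω : Cfg | ω e = true}.indicator 1 ω) := by
    refine Ex_congr fun S hS => ?_
    by_cases heS : e ∈ S
    · have h2 : cf A ξ S ∈ {ω : Cfg | ω e = true} := by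
        show cf A ξ S e = true
        rw [cf_in he]; simpa using heS
      rw [Set.indicator_of_mem h2]
      have h3 : Ex Q A' (cf A ξ S) F = f1 := by
        refine Ex_out (fun v hv => ?_) F
        rcases hnot v hv with h | h
        · rw [cf_out h, cf_out h]
        · subst h
          rw [cf_in he, cf_in he]; simp [heS]
      rw [h3]
      simp
    · have h2 : cf A ξ S ∉ {ω : Cfg | ω e = true} := by
        show ¬ cf A ξ S e = true
        rw [cf_in he]; simpa using heS
      rw [Set.indicator_of_notMem h2]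
      have h3 : Ex Q A' (cf A ξ S) F = f0 := by
        refine Ex_out (fun v hv => ?_) F
        rcases hnot v hv with h | h
        · rw [cf_out h, cf_out h]
        · subst h
          rw [cf_in he, cf_in he]; simp [heS]
      rw [h3]
      simp
  rw [h1, Ex_add, Ex_mul_left, Ex_const hQ0]
  unfold Pr
  ring

/-- **Total variation mixing.** -/
theorem tv_comp (hQ : 1 ≤ Q) {V : Finset (ℤ × ℤ)} {F : Cfg → ℝ} (hF0 : ∀ ω, 0 ≤ F ω)
    (hF1 : ∀ ω, F ω ≤ 1) (hL : Loc V F) : ∀ (n : ℕ) (A : Finset (ℤ × ℤ)) (ξ ξ' : Cfg),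
    A.card = n → V ⊆ A → Good ξ → Good ξ' → (∀ v, v ∉ A → ξ v = true → ξ' v = true) →
    |Ex Q A ξ F - Ex Q A ξ' F| ≤ Pr Q A ξ' {ω | Jn (Sx A ξ') V ω} := by
  have hQ0 : 0 < Q := by linarith
  intro n
  induction n with
  | zero =>
    intro A ξ ξ' hn hVA hξ hξ' hle
    rw [Finset.card_eq_zero] at hn
    subst hn
    have hV : V = ∅ := Finset.subset_empty.1 hVA
    subst hV
    have h1 : ∀ ω ω' : Cfg, F ω = F ω' := fun ω ω' => hL ω ω' fun v hv => absurd hv (by simp)
    have h2 : ∀ ζ, Ex Q ∅ ζ F = F ξ := fun ζ => by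
      rw [← Ex_congr (F := fun _ => F ξ) (G := F) fun S _ => h1 _ _, Ex_const hQ0]
    rw [h2, h2, sub_self, abs_zero]
    exact Pr_nonneg hQ0 _
  | succ n ih =>
    intro A ξ ξ' hn hVA hξ hξ' hle
    by_cases he : ∃ e ∈ A, ∃ c ∈ Sx A ξ', Cor e c
    · obtain ⟨e, heA, c, hc, hec⟩ := he
      by_cases heV : e ∈ V
      · have h1 : {ω : Cfg | Jn (Sx A ξ') V ω} = Set.univ := by
          ext ω
          exact ⟨fun _ => trivial, fun _ => ⟨c, hc, c, ⟨e, heV, hec⟩, ReflTransGen.refl⟩⟩
        have h2 : Pr Q A ξ' {ω | Jn (Sx A ξ') V ω} = 1 := by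
          rw [h1]
          unfold Pr
          rw [Set.indicator_univ]
          exact Ex_const hQ0 1
        have h3 : ∀ ζ, 0 ≤ Ex Q A ζ F ∧ Ex Q A ζ F ≤ 1 := fun ζ => by
          refine ⟨Ex_nonneg hQ0 fun S _ => hF0 _, ?_⟩
          rw [← Ex_const (Q := Q) (D := A) (η := ζ) hQ0 1]
          exact Ex_mono hQ0 fun S _ => hF1 _
        rw [h2, abs_le]
        have h4 := h3 ξ
        have h5 := h3 ξ'
        constructor <;> linarith [h4.1, h4.2, h5.1, h5.2]
      · set A' := A.erase e with hA'
        have hA'A : A' ⊆ A := Finset.erase_subset _ _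
        have hcard : A'.card = n := by rw [hA', Finset.card_erase_of_mem heA, hn]; rfl
        have hVA' : V ⊆ A' := fun v hv => Finset.mem_erase.2 ⟨fun h => heV (h ▸ hv), hVA hv⟩
        have heA' : e ∉ A' := by rw [hA']; exact Finset.notMem_erase _ _
        have hnot : ∀ v, v ∉ A' → v ∉ A ∨ v = e := by
          intro v hv
          by_cases h : v = e
          · exact Or.inr h
          · exact Or.inl fun h' => hv (Finset.mem_erase.2 ⟨h, h'⟩)
        have g0 : Good (cf A ξ ∅) := f_good.1 A ξ ∅ hξ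
        have g1 : Good (cf A ξ {e}) := f_good.1 A ξ {e} hξ
        have g0' : Good (cf A ξ' ∅) := f_good.1 A ξ' ∅ hξ'
        have g1' : Good (cf A ξ' {e}) := f_good.1 A ξ' {e} hξ'
        set p := Pr Q A ξ {ω : Cfg | ω e = true} with hp
        set p' := Pr Q A ξ' {ω : Cfg | ω e = true} with hp'
        have hp0 : 0 ≤ p := Pr_nonneg hQ0 _
        have hp1 : p' ≤ 1 := Pr_le_one hQ0 _
        have hpp : p ≤ p' := by
          have k1 : p = Pr Q A (cf A ξ ∅) {ω : Cfg | ω e = true} := by
            rw [hp]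
            exact Ex_out (fun v hv => by rw [cf_out hv]) _
          have k2 : p' = Pr Q A (cf A ξ' ∅) {ω : Cfg | ω e = true} := by
            rw [hp']
            exact Ex_out (fun v hv => by rw [cf_out hv]) _
          rw [k1, k2]
          refine f_comp Q A _ _ _ hQ g0 g0' (fun v hv => ?_) ?_
          · by_cases h : v ∈ A
            · rw [cf_in h] at hv; simp at hv
            · rw [cf_out h] at hv ⊢
              exact hle v h hv
          · exact IncS.incF (A := {ω : Cfg | ω e = true}) fun ω ω' h h' => h e h'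
        -- induction
        have i1 := ih A' (cf A ξ {e}) (cf A ξ' {e}) hcard hVA' g1 g1' (fun v hv hvt => by
          rcases hnot v hv with h | h
          · rw [cf_out h] at hvt ⊢
            exact hle v h hvt
          · subst h
            rw [cf_in heA]; simp)
        have i2 := ih A' (cf A ξ ∅) (cf A ξ' ∅) hcard hVA' g0 g0' (fun v hv hvt => by
          rcases hnot v hv with h | h
          · rw [cf_out h] at hvt ⊢
            exact hle v h hvt
          · subst h
            rw [cf_in heA] at hvt; simp at hvt)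
        have i3 := ih A' (cf A ξ ∅) (cf A ξ' {e}) hcard hVA' g0 g1' (fun v hv hvt => by
          rcases hnot v hv with h | h
          · rw [cf_out h] at hvt ⊢
            exact hle v h hvt
          · subst h
            rw [cf_in heA]; simp)
        -- the right side
        have hJ : ∀ S : Finset (ℤ × ℤ), Pr Q A' (cf A ξ' S) {ω | Jn (Sx A' (cf A ξ' S)) V ω} ≤
            Pr Q A' (cf A ξ' S) {ω | Jn (Sx A ξ') V ω} := by
          intro S
          refine Ex_mono hQ0 fun T _ => ind_le_of_imp ?_
          rintro ⟨s, ⟨hse, v, hvA', hvω, hvs⟩, u, hu, hsu⟩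
          rcases hnot v hvA' with h | h
          · refine ⟨s, ⟨hse, v, h, ?_, hvs⟩, u, hu, hsu⟩
            rw [cf_out h] at hvω
            exact hvω
          · subst h
            refine ⟨c, hc, u, hu, ReflTransGen.trans ?_ hsu⟩
            refine pc_of_cor (v := v) ?_ hec hvs hc.1 hse
            rw [cf_out heA']
            exact hvω
        have hR : Pr Q A ξ' {ω | Jn (Sx A ξ') V ω} =
            p' * Pr Q A' (cf A ξ' {e}) {ω | Jn (Sx A ξ') V ω} +
            (1 - p') * Pr Q A' (cf A ξ' ∅) {ω | Jn (Sx A ξ') V ω} :=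
          Ex_split hQ0 heA hξ' _
        rw [hR, Ex_split hQ0 heA hξ F, Ex_split hQ0 heA hξ' F, ← hp, ← hp', ← hA']
        have j1 := hJ {e}
        have j0 := hJ ∅
        set a1 := Ex Q A' (cf A ξ {e}) F
        set a0 := Ex Q A' (cf A ξ ∅) F
        set b1 := Ex Q A' (cf A ξ' {e}) F
        set b0 := Ex Q A' (cf A ξ' ∅) F
        set c1 := Pr Q A' (cf A ξ' {e}) {ω | Jn (Sx A' (cf A ξ' {e})) V ω}
        set c0 := Pr Q A' (cf A ξ' ∅) {ω | Jn (Sx A' (cf A ξ' ∅)) V ω}
        have e1 : p * a1 + (1 - p) * a0 - (p' * b1 + (1 - p') * b0) =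
            p * (a1 - b1) + (1 - p') * (a0 - b0) + (p' - p) * (a0 - b1) := by ring
        rw [e1]
        refine (abs_add_three _ _ _).trans ?_
        rw [abs_mul, abs_mul, abs_mul, abs_of_nonneg hp0, abs_of_nonneg (sub_nonneg.2 hp1),
          abs_of_nonneg (sub_nonneg.2 hpp)]
        have q1 := mul_le_mul_of_nonneg_left i1 hp0
        have q2 := mul_le_mul_of_nonneg_left i2 (sub_nonneg.2 hp1)
        have q3 := mul_le_mul_of_nonneg_left i3 (sub_nonneg.2 hpp)
        have q4 := mul_le_mul_of_nonneg_left j1 (hp0.trans hpp)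
        have q5 := mul_le_mul_of_nonneg_left j0 (sub_nonneg.2 hp1)
        linarith
    · push Not at he
      have key : ∀ F : Cfg → ℝ, IncF F → (∀ ω, 0 ≤ F ω) → Loc V F →
          Ex Q A ξ F = Ex Q A ξ' F := by
        intro F hF _ hL
        refine le_antisymm ?_ ?_
        · refine f_comp2 Q A ξ ξ' F hQ hξ hξ' ?_ hF (loc_mono hVA hL)
          intro S hS a ha haS hpc
          refine PC_mono (fun v hv => ?_) hpc
          by_cases h : v ∈ A
          · rw [cf_in h] at hv ⊢; exact hv
          · rw [cf_out h] at hv ⊢; exact hle v h hv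
        · refine f_comp2 Q A ξ' ξ F hQ hξ' hξ ?_ hF (loc_mono hVA hL)
          intro S hS a ha haS hpc
          have key : ∀ u, PC (cf A ξ' S) (FK.pa a) u → PC (cf A ξ S) (FK.pa a) u ∧
              (∃ v ∈ A, Cor v u) ∧ Even (u.1 + u.2) := by
            intro u hu
            induction hu with
            | refl => exact ⟨ReflTransGen.refl, ⟨a, ha, pa_cor a⟩, pa_even a⟩
            | @tail u w _ huw ih =>
              obtain ⟨h1, ⟨v, hvA, hvu⟩, h2⟩ := ih
              have hcw := cor_of_step huw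
              have hm : cf A ξ' S (min u.1 w.1, min u.2 w.2) = true := huw.2.2
              have hwe : Even (w.1 + w.2) := (FKA.even_step huw).1 h2
              by_cases hmA : (min u.1 w.1, min u.2 w.2) ∈ A
              · refine ⟨h1.tail ⟨huw.1, huw.2.1, ?_⟩, ⟨_, hmA, hcw.2⟩, hwe⟩
                show cf A ξ S _ = true
                rw [cf_in hmA] at hm ⊢
                exact hm
              · exfalso
                rw [cf_out hmA] at hm
                exact he v hvA u ⟨h2, _, hmA, hm, hcw.1⟩ hvu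
          exact (key _ hpc).1
      have h1 := eq_of_inc (Q := Q) key V F hL ∅ (by simp)
      have h2 : ∀ ω, F ω * mT ∅ ω = F ω := fun ω => by simp [mT]
      simp only [h2] at h1
      rw [h1, sub_self, abs_zero]
      exact Pr_nonneg hQ0 _

theorem far_of_corx {x v u : ℤ × ℤ} {R : ℤ} (hv : v ∉ Bq x R) (hu : Cor v u) : R ≤ nm (u - x) := by
  simp only [Bq, Finset.mem_product, Finset.mem_Ico, not_and_or, not_le, not_lt] at hv
  simp only [Cor] at hu
  simp only [nm, Prod.fst_sub, Prod.snd_sub, le_max_iff, le_abs]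
  omega

theorem near_of_corx {x v u : ℤ × ℤ} {r : ℤ} (hv : v ∈ Bq x r) (hu : Cor v u) :
    nm (u - x) ≤ r := by
  simp only [Bq, Finset.mem_product, Finset.mem_Ico] at hv
  simp only [Cor] at hu
  simp only [nm, Prod.fst_sub, Prod.snd_sub, max_le_iff, abs_le]
  omega

/-- Mixing for a box. -/
theorem tv_box (hQ : 1 ≤ Q) {α C : ℝ} (hA : ArmDec Q α C) {x : ℤ × ℤ} {r R : ℤ} (hr : 1 ≤ r)
    (hrR : r ≤ R) {V : Finset (ℤ × ℤ)} (hV : V ⊆ Bq x r) {F : Cfg → ℝ} (hF0 : ∀ ω, 0 ≤ F ω)
    (hF1 : ∀ ω, F ω ≤ 1) (hL : Loc V F) {η : Cfg} (hη : Good η) :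
    |Ex Q (Bq x R) η F - Ex Q (Bq x R) eta1 F| ≤ C * ((r : ℝ) / R) ^ α := by
  have hQ0 : 0 < Q := by linarith
  have hsub : Bq x r ⊆ Bq x R := by
    intro v hv
    simp only [Bq, Finset.mem_product, Finset.mem_Ico] at hv ⊢
    omega
  refine (tv_comp hQ hF0 hF1 hL _ (Bq x R) η eta1 rfl (hV.trans hsub) hη f_good.2.2
    (fun _ _ _ => rfl)).trans ?_
  have h4 := hA x r R (Bq x R) eta1 (fun _ => 1) hr hrR f_good.2.2 Finset.sdiff_subset
    (fun _ => zero_le_one) (fun _ _ _ => rfl)
  rw [Ex_const hQ0, mul_one] at h4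
  refine le_trans ?_ h4
  refine Ex_mono hQ0 fun S _ => ?_
  rw [one_mul]
  refine ind_le_of_imp ?_
  rintro ⟨s, ⟨hse, v, hvA, -, hvs⟩, u, ⟨w, hw, hwu⟩, hsu⟩
  show ArmPx x r R _
  rw [armPx_iff hrR]
  refine ⟨u, s, ?_, near_of_corx (hV hw) hwu, far_of_corx hvA hvs, H519.conn_symm hsu⟩
  have := rtg_parity hsu
  rw [Int.even_iff] at *
  omega

end Vale.Agent.P167.H562.GL
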