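import Vale.Agent.P167.H562.GXp
import Vale.Agent.P167.H562.GTv

/-!
# P167, general `q`: conditioned measures
-/

namespace Vale.Agent.P167.H562.GL

open Finset Filter Topology MeasureTheory Vale.Agent.P167.FK Vale.Agent.P167.FKA
open Vale.Agent.P167.H519 (IsLim loc_cont Bq_mono exists_Bq)
open Vale.Agent.P167.H45 (gp gp_disj)
open Vale.Agent.P167.H166 (bxx mem_bxx)

/-- `ν` is `P` conditioned by a local function which does not depend on the squares of `U`. -/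
structure Nu (P ν : Measure Cfg) (U : Finset (ℤ × ℤ)) : Prop where
  prob : IsProbabilityMeasure ν
  ex : ∃ (G : Cfg → ℝ) (B : Finset (ℤ × ℤ)), (∀ ω, 0 ≤ G ω) ∧ Loc B G ∧ Ind U G ∧
    0 < ∫ ω, G ω ∂P ∧ ∀ (F : Cfg → ℝ) (A : Finset (ℤ × ℤ)), Loc A F →
      ∫ ω, F ω ∂ν = (∫ ω, G ω * F ω ∂P) / ∫ ω, G ω ∂P

theorem Loc.meas {A : Finset (ℤ × ℤ)} {F : Cfg → ℝ} (hF : Loc A F) : Measurable F :=
  H45.meas_locfun A hF

theorem Loc.mulU {A B : Finset (ℤ × ℤ)} {F G : Cfg → ℝ} (hF : Loc A F) (hG : Loc B G) :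
    Loc (A ∪ B) (fun ω => F ω * G ω) :=
  Loc.mul (Loc.mono Finset.subset_union_left hF) (Loc.mono Finset.subset_union_right hG)

/-- Existence of the conditioned measures. -/
theorem exists_nu {P : Measure Cfg} [IsProbabilityMeasure P] {U B : Finset (ℤ × ℤ)} {G : Cfg → ℝ}
    (hG0 : ∀ ω, 0 ≤ G ω) (hG : Loc B G) (hI : Ind U G) (hpos : 0 < ∫ ω, G ω ∂P) :
    ∃ ν, Nu P ν U ∧ ∀ (F : Cfg → ℝ) (A : Finset (ℤ × ℤ)), Loc A F →
      ∫ ω, F ω ∂ν = (∫ ω, G ω * F ω ∂P) / ∫ ω, G ω ∂P := by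
  have hGm : Measurable G := Loc.meas hG
  have hGi : Integrable G P := loc_integrable hG
  set ν : Measure Cfg := (ENNReal.ofReal (∫ ω, G ω ∂P))⁻¹ •
    P.withDensity (fun ω => ENNReal.ofReal (G ω)) with hν
  have hint : ∀ F : Cfg → ℝ, ∫ ω, F ω ∂ν = (∫ ω, G ω * F ω ∂P) / ∫ ω, G ω ∂P := by
    intro F
    rw [hν, integral_smul_measure, integral_withDensity_eq_integral_toReal_smul
      hGm.ennreal_ofReal (Eventually.of_forall fun ω => ENNReal.ofReal_lt_top)]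
    rw [ENNReal.toReal_inv, ENNReal.toReal_ofReal hpos.le, smul_eq_mul, div_eq_inv_mul]
    congr 1
    refine integral_congr_ae (Eventually.of_forall fun ω => ?_)
    simp only [smul_eq_mul]
    rw [ENNReal.toReal_ofReal (hG0 ω)]
  have hprob : IsProbabilityMeasure ν := by
    refine ⟨?_⟩
    rw [hν, Measure.smul_apply, withDensity_apply _ MeasurableSet.univ, Measure.restrict_univ,
      ← ofReal_integral_eq_lintegral_ofReal hGi (Eventually.of_forall hG0), smul_eq_mul]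
    exact ENNReal.inv_mul_cancel (ENNReal.ofReal_pos.2 hpos).ne' ENNReal.ofReal_ne_top
  exact ⟨ν, ⟨hprob, G, B, hG0, hG, hI, hpos, fun F _ _ => hint F⟩, fun F _ _ => hint F⟩

/-- The trivial conditioning. -/
theorem nu_self {P : Measure Cfg} [IsProbabilityMeasure P] (U : Finset (ℤ × ℤ)) : Nu P P U := by
  refine ⟨inferInstance, fun _ => 1, ∅, fun _ => zero_le_one, fun _ _ _ => rfl, fun _ _ _ => rfl,
    by simp, fun F _ _ => by simp⟩

/-- The conditional bound for the crossing loops, inside of `U`. -/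
def CrossU (k : ℤ) (l C : ℝ) (Z : ℤ × ℤ → ℤ → Cfg → ℕ) (ν : Measure Cfg) (U : Finset (ℤ × ℤ)) :
    Prop := ∀ x r, 1 ≤ r → bxx x (k * r) ⊆ U →
  ∀ (B : Finset (ℤ × ℤ)) (G : Cfg → ℝ), (∀ ω, 0 ≤ G ω) → Loc B G → Ind (bxx x (k * r)) G →
      ∫ ω, G ω * Real.exp (l * (Z x r ω : ℝ)) ∂ν ≤ C * ∫ ω, G ω ∂ν

theorem crossU_of {P : Measure Cfg} {k : ℤ} {l C : ℝ} {Z : ℤ × ℤ → ℤ → Cfg → ℕ}
    (hloc : ∀ x r, 1 ≤ r → ∀ ω ω' : Cfg, (∀ v, nm (v - x) ≤ k * r → ω v = ω' v) →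
      Z x r ω = Z x r ω')
    (hE : ∀ x r, 1 ≤ r → ∀ (B : Finset (ℤ × ℤ)) (G : Cfg → ℝ), (∀ ω, 0 ≤ G ω) → Loc B G →
      Ind (bxx x (k * r)) G →
      ∫ ω, G ω * Real.exp (l * (Z x r ω : ℝ)) ∂P ≤ C * ∫ ω, G ω ∂P) {ν : Measure Cfg}
    {U : Finset (ℤ × ℤ)} (hν : Nu P ν U) : CrossU k l C Z ν U := by
  intro x r hr hU B G hG0 hG hI
  obtain ⟨G1, B1, h0, hL, hI1, hpos, h1⟩ := hν.ex
  have hZ : Loc (bxx x (k * r)) (fun ω => Real.exp (l * (Z x r ω : ℝ))) := fun ω ω' hw => by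
    show Real.exp (l * (Z x r ω : ℝ)) = Real.exp (l * (Z x r ω' : ℝ))
    rw [hloc x r hr ω ω' fun v hv => hw v (mem_bxx.2 hv)]
  rw [h1 _ _ (Loc.mulU hG hZ), h1 _ _ hG, ← mul_div_assoc]
  refine div_le_div_of_nonneg_right ?_ hpos.le
  have h2 := hE x r hr (B1 ∪ B) (fun ω => G1 ω * G ω) (fun ω => mul_nonneg (h0 ω) (hG0 ω))
    (Loc.mulU hL hG) (Ind.mul (Ind.mono hU hI1) hI)
  simpa only [mul_assoc] using h2

/-- Iteration of the conditional bound. -/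
theorem prod_expU {ν : Measure Cfg} [IsProbabilityMeasure ν] {ι : Type*} [DecidableEq ι] {k : ℤ}
    {l C : ℝ} (hC : 0 ≤ C) {x : ι → ℤ × ℤ} {r : ι → ℤ} {Z : ι → Cfg → ℕ} (J : Finset ι)
    (hloc : ∀ i, ∀ ω ω' : Cfg, (∀ v, nm (v - x i) ≤ k * r i → ω v = ω' v) → Z i ω = Z i ω')
    (hE : ∀ i ∈ J, ∀ (B : Finset (ℤ × ℤ)) (G : Cfg → ℝ), (∀ ω, 0 ≤ G ω) → Loc B G →
      Ind (bxx (x i) (k * r i)) G →
      ∫ ω, G ω * Real.exp (l * (Z i ω : ℝ)) ∂ν ≤ C * ∫ ω, G ω ∂ν)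
    (hd : ∀ i ∈ J, ∀ j ∈ J, i ≠ j →
      Disjoint {v | nm (v - x i) ≤ k * r i} {v | nm (v - x j) ≤ k * r j}) :
    Loc (J.biUnion fun j => bxx (x j) (k * r j))
      (fun ω => Real.exp (∑ i ∈ J, l * (Z i ω : ℝ))) ∧
    ∫ ω, Real.exp (∑ i ∈ J, l * (Z i ω : ℝ)) ∂ν ≤ C ^ J.card := by
  have hL : ∀ J : Finset ι, Loc (J.biUnion fun j => bxx (x j) (k * r j))
      (fun ω => Real.exp (∑ i ∈ J, l * (Z i ω : ℝ))) := by
    intro J ω ω' h
    show Real.exp _ = Real.exp _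
    congr 1
    refine Finset.sum_congr rfl fun j hj => ?_
    rw [hloc j ω ω' fun v hv => h v (Finset.mem_biUnion.2 ⟨j, hj, mem_bxx.2 hv⟩)]
  refine ⟨hL J, ?_⟩
  induction J using Finset.induction_on with
  | empty => simp
  | insert i J hi ih =>
    have h1 := ih (fun i hi => hE i (Finset.mem_insert_of_mem hi))
      fun i hi j hj => hd i (Finset.mem_insert_of_mem hi) j (Finset.mem_insert_of_mem hj)
    have h2 : ∀ ω, Real.exp (∑ j ∈ insert i J, l * (Z j ω : ℝ)) =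
        Real.exp (∑ j ∈ J, l * (Z j ω : ℝ)) * Real.exp (l * (Z i ω : ℝ)) := by
      intro ω
      rw [Finset.sum_insert hi, add_comm, Real.exp_add]
    simp only [h2]
    have h3 := hE i (Finset.mem_insert_self _ _) _
      (fun ω => Real.exp (∑ j ∈ J, l * (Z j ω : ℝ)))
      (fun ω => (Real.exp_pos _).le) (hL J) (by
        refine Loc.ind ?_ (hL J)
        rw [Finset.disjoint_left]
        intro v hv hv'
        obtain ⟨j, hj, hv⟩ := Finset.mem_biUnion.1 hv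
        rw [mem_bxx] at hv hv'
        have hij : i ≠ j := fun h => hi (h ▸ hj)
        exact Set.disjoint_left.1 (hd i (Finset.mem_insert_self _ _) j
          (Finset.mem_insert_of_mem hj) hij) hv' hv)
    rw [Finset.card_insert_of_notMem hi, pow_succ']
    exact h3.trans (mul_le_mul_of_nonneg_left h1 hC)

theorem Em_crossU {k : ℤ} (hk : 2 ≤ k) {l C : ℝ} (hl : 0 < l)
    (hC : 0 < C) {Z : ℤ × ℤ → ℤ → Cfg → ℕ}
    (hloc : ∀ x r, 1 ≤ r → ∀ ω ω' : Cfg, (∀ v, nm (v - x) ≤ k * r → ω v = ω' v) →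
      Z x r ω = Z x r ω') :
    ∃ θ b : ℝ, 0 < θ ∧ 0 ≤ b ∧ ∀ (ν : Measure Cfg) (U : Finset (ℤ × ℤ)), IsProbabilityMeasure ν →
      CrossU k l C Z ν U → ∀ (r : ℕ → ℤ), (∀ j, 1 ≤ r j) → ∀ I : Finset (ℕ × (ℤ × ℤ)),
      (∀ i ∈ I, bxx (gp (r i.1) i.2) (k * r i.1) ⊆ U) →
      (∀ i ∈ I, ∀ i' ∈ I, i.1 ≠ i'.1 → (i.1 : ZMod 3) = i'.1 →
        Disjoint {v | nm (v - gp (r i.1) i.2) ≤ k * r i.1}
          {v | nm (v - gp (r i'.1) i'.2) ≤ k * r i'.1}) →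
      Em ν (fun ω => θ * ∑ i ∈ I, (Z (gp (r i.1) i.2) (r i.1) ω : ℝ)) ≤
        ENNReal.ofReal (Real.exp (I.card * b)) := by
  classical
  set m : ℕ := (2 * k + 1).toNat with hm
  have hm' : (m : ℤ) = 2 * k + 1 := by omega
  have : NeZero m := ⟨by omega⟩
  set c : ℕ := Fintype.card (ZMod 3 × ZMod m × ZMod m) with hc
  have hc0 : (0 : ℝ) < c := by exact_mod_cast Fintype.card_pos
  refine ⟨l / c, Real.log (max C 1), by positivity, Real.log_nonneg (le_max_right _ _),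
    fun ν U hνp hE r hr I hIU hI => ?_⟩
  have e : (fun ω => l / c * ∑ i ∈ I, (Z (gp (r i.1) i.2) (r i.1) ω : ℝ)) =
      fun ω => ∑ i ∈ I, l / c * (Z (gp (r i.1) i.2) (r i.1) ω : ℝ) := by
    ext ω; rw [Finset.mul_sum]
  rw [e]
  refine Em_colP I (fun i => (((i.1 : ZMod 3), ((i.2.1 : ZMod m), (i.2.2 : ZMod m))) :
    ZMod 3 × ZMod m × ZMod m)) (fun i _ => ?_) (Real.log_nonneg (le_max_right _ _)) ?_
  · refine H45.meas_locfun (bxx (gp (r i.1) i.2) (k * r i.1)) fun ω ω' hw => ?_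
    show l / c * (Z (gp (r i.1) i.2) (r i.1) ω : ℝ) = l / c * (Z (gp (r i.1) i.2) (r i.1) ω' : ℝ)
    rw [hloc (gp (r i.1) i.2) (r i.1) (hr _) ω ω' fun v hv => hw v (mem_bxx.2 hv)]
  · intro J hJ hcol
    have e2 : (fun ω => ∑ i ∈ J, (c : ℝ) * (l / c * (Z (gp (r i.1) i.2) (r i.1) ω : ℝ))) =
        fun ω => ∑ i ∈ J, l * (Z (gp (r i.1) i.2) (r i.1) ω : ℝ) := by
      ext ω
      refine Finset.sum_congr rfl fun i _ => ?_
      field_simp
    rw [← hc, e2]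
    obtain ⟨h1, h2⟩ := prod_expU (ν := ν) hC.le (x := fun i : ℕ × (ℤ × ℤ) => gp (r i.1) i.2)
      (r := fun i => r i.1) (Z := fun i => Z (gp (r i.1) i.2) (r i.1)) J
      (fun i => hloc _ _ (hr _)) (fun i hi => hE _ _ (hr _) (hIU i (hJ hi))) (by
        intro i hi j hj hij
        have hc := hcol i hi j hj
        have h1 := congrArg Prod.fst hc
        have h2 := congrArg (fun p => p.2.1) hc
        have h3 := congrArg (fun p => p.2.2) hc
        dsimp only at h1 h2 h3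
        by_cases h : i.1 = j.1
        · rw [← h]
          refine gp_disj (hr _) (by omega) (fun h' => hij (Prod.ext h h')) h2 h3
        · exact hI i (hJ hi) j (hJ hj) h h1)
    rw [Em_eq (loc_integrable h1)]
    refine ENNReal.ofReal_le_ofReal (h2.trans ?_)
    rw [Real.exp_nat_mul, Real.exp_log (by positivity)]
    exact pow_le_pow_left₀ hC.le (le_max_left _ _) _

end Vale.Agent.P167.H562.GL
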