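import Vale.Agent.P167.H562.GLm
import Vale.Agent.P167.H45.Mom
import Vale.Agent.P167.H259.Fin

/-!
# P167, general `q`: conditional bound for the absence of rings (`G_ring`)
-/

namespace Vale.Agent.P167.H562.GL

open Finset Filter Topology MeasureTheory Vale.Agent.P167.FK Vale.Agent.P167.FKA
open Vale.Agent.P167.H519 (IsLim loc_cont Bq_mono exists_Bq loop_of_no_arm)

variable {P : Measure Cfg}

/-- The count of the loops inside the box of radius `s` is local. -/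
theorem loc_Nn (f : ℕ → ℝ) (r s : ℝ) {s' : ℤ} (hs : s ≤ s') : Loc (Bq 0 s') (fun ω => f (Nn r s ω)) := by
  have key : ∀ ω ω' : Cfg, (∀ v ∈ Bq 0 s', ω v = ω' v) →
      {ℓ | IsLoop ω ℓ ∧ (∀ v ∈ vs ℓ, r < (nm v : ℝ) ∧ (nm v : ℝ) < s) ∧ W ℓ 0 ≠ 0} ⊆
      {ℓ | IsLoop ω' ℓ ∧ (∀ v ∈ vs ℓ, r < (nm v : ℝ) ∧ (nm v : ℝ) < s) ∧ W ℓ 0 ≠ 0} := by
    rintro ω ω' h ℓ ⟨h1, h2, h3⟩
    refine ⟨s_loc ω ω' ℓ h1 fun v hv => h v ?_, h2, h3⟩
    have h4 : (nm v : ℝ) < s' := (h2 v hv).2.trans_le hs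
    have h5 : nm v < s' := by exact_mod_cast h4
    have h6 : |v.1| < s' := (le_max_left _ _).trans_lt h5
    have h7 : |v.2| < s' := (le_max_right _ _).trans_lt h5
    rw [abs_lt] at h6 h7
    simp only [Bq, Prod.fst_zero, Prod.snd_zero, zero_sub, zero_add, Finset.mem_product,
      Finset.mem_Ico]
    omega
  intro ω ω' h
  show f (Nn r s ω) = f (Nn r s ω')
  unfold Nn
  rw [Set.Subset.antisymm (key ω ω' h) (key ω' ω fun v hv => (h v hv).symm)]

/-- No loop around the origin in an annulus: an arm. -/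
theorem arm_of_Nn {t u : ℝ} {r R : ℤ} (hr : 1 ≤ r) (hrR : r ≤ R) (ht : t ≤ ((r - 1 : ℤ) : ℝ))
    (hu : ((R + 1 : ℤ) : ℝ) ≤ u) {ω : Cfg} (h : Nn t u ω = 0) :
    ArmPx 0 r R ω ∨ ArmDx 0 r R ω := by
  by_contra hcon
  push Not at hcon
  have h1 : ¬ ArmP (r - 1 + 1) (R + 1 - 1) ω := by
    intro h2
    refine hcon.1 ?_
    unfold ArmP at h2
    unfold ArmPx
    simpa using h2
  have h2 : ¬ ArmD (r - 1 + 1) (R + 1 - 1) ω := by
    intro h2
    refine hcon.2 ?_
    unfold ArmD at h2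
    unfold ArmDx
    simpa using h2
  obtain ⟨ℓ, h3, h4, h5⟩ := loop_of_no_arm s_jump s_sign s_step s_two s_loc (ρ := r - 1)
    (P := R + 1) (by omega) (by omega) h1 h2
  have h6 : ℓ ∈ {ℓ | IsLoop ω ℓ ∧ (∀ v ∈ vs ℓ, t < (nm v : ℝ) ∧ (nm v : ℝ) < u) ∧ W ℓ 0 ≠ 0} := by
    refine ⟨h3, fun v hv => ⟨?_, ?_⟩, h5⟩
    · have : ((r - 1 : ℤ) : ℝ) < (nm v : ℝ) := by exact_mod_cast (h4 v hv).1
      linarith
    · have : (nm v : ℝ) < ((R + 1 : ℤ) : ℝ) := by exact_mod_cast (h4 v hv).2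
      linarith
  have h7 : (H45.NS t u ω).Finite := H45.NS_fin s_two t u ω
  have h8 : H45.NS t u ω = ∅ := (Set.ncard_eq_zero h7).1 h
  have h9 : ℓ ∈ H45.NS t u ω := h6
  rw [h8] at h9
  exact h9

theorem g_ring [IsProbabilityMeasure P] (hA : ArmPr P) : G_ring P := by
  obtain ⟨α, C, hα, hC, h⟩ := hA
  refine ⟨α, 2 * C * 8 ^ α + 8 ^ α, hα, fun x hx r s t u hr ht hst htu => ?_⟩
  set F : Cfg → ℝ := fun ω => x ^ Nn r s ω with hF
  have hF0 : ∀ ω, 0 ≤ F ω := fun ω => pow_nonneg hx _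
  have hu0 : 0 < u := by linarith
  have htu0 : 0 < t / u := by positivity
  have hFloc := loc_Nn (fun n => x ^ n) r s (s' := ⌈s⌉) (Int.le_ceil s)
  have hFint : Integrable F P := loc_integrable hFloc
  have hFI : 0 ≤ ∫ ω, F ω ∂P := integral_nonneg hF0
  have e1 : ∫⁻ ω, ENNReal.ofReal (F ω) ∂P = ENNReal.ofReal (∫ ω, F ω ∂P) :=
    (ofReal_integral_eq_lintegral_ofReal hFint (Eventually.of_forall hF0)).symm
  rw [e1]
  have hC8 : 0 < 2 * C * 8 ^ α := by positivity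
  rw [← ENNReal.ofReal_mul (by positivity)]
  by_cases hcase : u < 8 * t
  · -- trivial bound
    have h1 : 1 ≤ 8 ^ α * (t / u) ^ α := by
      rw [← Real.mul_rpow (by norm_num) htu0.le]
      refine Real.one_le_rpow ?_ hα.le
      rw [← mul_div_assoc, le_div_iff₀ hu0]
      linarith
    have h2 : 0 ≤ 2 * C * 8 ^ α * (t / u) ^ α := by positivity
    calc ∫⁻ ω in {ω | Nn t u ω = 0}, ENNReal.ofReal (F ω) ∂P
        ≤ ∫⁻ ω, ENNReal.ofReal (F ω) ∂P := setLIntegral_le_lintegral _ _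
      _ = ENNReal.ofReal (∫ ω, F ω ∂P) := e1
      _ ≤ _ := ENNReal.ofReal_le_ofReal (by nlinarith)
  · push Not at hcase
    -- the radii
    set a : ℤ := ⌈t⌉ + 1 with ha
    set b : ℤ := ⌊u⌋ - 1 with hb
    have h1 : t ≤ ((a - 1 : ℤ) : ℝ) := by rw [ha, add_sub_cancel_right]; exact Int.le_ceil t
    have h2 : ((b + 1 : ℤ) : ℝ) ≤ u := by rw [hb, sub_add_cancel]; exact Int.floor_le u
    have h3 : (a : ℝ) ≤ 4 * t := by
      have := Int.ceil_lt_add_one t
      rw [ha]; push_cast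
      linarith
    have h4 : u / 2 ≤ (b : ℝ) := by
      have := Int.lt_floor_add_one u
      rw [hb]; push_cast
      linarith
    have h5 : (1 : ℤ) ≤ a := by
      have : (0 : ℤ) ≤ ⌈t⌉ := Int.ceil_nonneg (by linarith)
      omega
    have h6 : a ≤ b := by
      have : (a : ℝ) ≤ (b : ℝ) := by linarith
      exact_mod_cast this
    have hsa : (⌈s⌉ : ℤ) ≤ a := by
      rw [ha]
      have : ⌈s⌉ ≤ ⌈t⌉ := by
        rcases le_total 0 s with h0 | h0
        · exact Int.ceil_le_ceil (by linarith)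
        · have h1 : ⌈s⌉ ≤ 0 := Int.ceil_le.2 (by simpa using h0)
          have h2 : 0 ≤ ⌈t⌉ := Int.ceil_nonneg (by linarith)
          omega
      omega
    have hI : Ind (Bq 0 b \ Bq 0 a) F := by
      refine Loc.ind ?_ hFloc
      rw [Finset.disjoint_left]
      intro v hv hv'
      exact (Finset.mem_sdiff.1 hv').2 (Bq_mono hsa hv)
    obtain ⟨g1, g2⟩ := h 0 a b (Bq 0 ⌈s⌉) F h5 h6 hF0 hFloc hI
    have e2 : ∀ ω ∈ {ω | Nn t u ω = 0}, ENNReal.ofReal (F ω) ≤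
        ENNReal.ofReal (F ω * {ω | ArmPx 0 a b ω}.indicator 1 ω +
          F ω * {ω | ArmDx 0 a b ω}.indicator 1 ω) := by
      intro ω hω
      refine ENNReal.ofReal_le_ofReal ?_
      have i1 := ind_nonneg {ω | ArmPx 0 a b ω} ω
      have i2 := ind_nonneg {ω | ArmDx 0 a b ω} ω
      rcases arm_of_Nn h5 h6 h1 h2 hω with h7 | h7
      · rw [Set.indicator_of_mem (show ω ∈ {ω | ArmPx 0 a b ω} from h7)]
        simp only [Pi.one_apply, mul_one]
        have := mul_nonneg (hF0 ω) i2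
        linarith
      · rw [Set.indicator_of_mem (show ω ∈ {ω | ArmDx 0 a b ω} from h7)]
        simp only [Pi.one_apply, mul_one]
        have := mul_nonneg (hF0 ω) i1
        linarith
    have m1 : Integrable (fun ω => F ω * {ω | ArmPx 0 a b ω}.indicator 1 ω) P :=
      loc_integrable (B := Bq 0 b) (Loc.mul (Loc.mono (Bq_mono (hsa.trans h6)) hFloc)
        (loc_arm 0 a b))
    have m2 : Integrable (fun ω => F ω * {ω | ArmDx 0 a b ω}.indicator 1 ω) P :=
      loc_integrable (B := Bq 0 b) (Loc.mul (Loc.mono (Bq_mono (hsa.trans h6)) hFloc)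
        (loc_armD 0 a b))
    have hnn : ∀ ω, 0 ≤ F ω * {ω | ArmPx 0 a b ω}.indicator 1 ω +
          F ω * {ω | ArmDx 0 a b ω}.indicator 1 ω := fun ω =>
      add_nonneg (mul_nonneg (hF0 ω) (ind_nonneg _ ω)) (mul_nonneg (hF0 ω) (ind_nonneg _ ω))
    have hms : MeasurableSet {ω : Cfg | Nn t u ω = 0} := by
      have := H259.s_indep.1 t u
      exact this (measurableSet_singleton 0)
    calc ∫⁻ ω in {ω | Nn t u ω = 0}, ENNReal.ofReal (F ω) ∂P
        ≤ ∫⁻ ω in {ω | Nn t u ω = 0}, ENNReal.ofReal (F ω * {ω | ArmPx 0 a b ω}.indicator 1 ω +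
          F ω * {ω | ArmDx 0 a b ω}.indicator 1 ω) ∂P := setLIntegral_mono' hms e2
      _ ≤ ∫⁻ ω, ENNReal.ofReal (F ω * {ω | ArmPx 0 a b ω}.indicator 1 ω +
          F ω * {ω | ArmDx 0 a b ω}.indicator 1 ω) ∂P := setLIntegral_le_lintegral _ _
      _ = ENNReal.ofReal (∫ ω, (F ω * {ω | ArmPx 0 a b ω}.indicator 1 ω +
          F ω * {ω | ArmDx 0 a b ω}.indicator 1 ω) ∂P) :=
          (ofReal_integral_eq_lintegral_ofReal (m1.add m2) (Eventually.of_forall hnn)).symm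
      _ ≤ _ := by
          refine ENNReal.ofReal_le_ofReal ?_
          rw [integral_add m1 m2]
          have hb0 : (0 : ℝ) < b := by linarith
          have ha0 : (0 : ℝ) < a := by exact_mod_cast (by omega : 0 < a)
          have h9 : ((a : ℝ) / b) ^ α ≤ 8 ^ α * (t / u) ^ α := by
            rw [← Real.mul_rpow (by norm_num) htu0.le]
            refine Real.rpow_le_rpow (by positivity) ?_ hα.le
            rw [← mul_div_assoc, div_le_div_iff₀ hb0 hu0]
            nlinarith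
          have h10 : 0 ≤ 8 ^ α * (t / u) ^ α := by positivity
          have h11 : C * ((a : ℝ) / b) ^ α * ∫ ω, F ω ∂P ≤
              C * (8 ^ α * (t / u) ^ α) * ∫ ω, F ω ∂P :=
            mul_le_mul_of_nonneg_right (mul_le_mul_of_nonneg_left h9 hC.le) hFI
          nlinarith [mul_nonneg h10 hFI]

end Vale.Agent.P167.H562.GL
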