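import Vale.Agent.P167.H562.GFin

/-!
# P167, block F for a general angle: `G_F1`, `G_F2`, `G_F3`
-/

open MeasureTheory ProbabilityTheory Real Finset Filter Topology
open scoped ENNReal

namespace Vale.Agent.P167.H562.GQ

section
variable {P : Measure Cfg} {a Cm K κ : ℝ} {m : ℝ → ℕ → ℤ × ℤ → ℝ}

lemma lam_le [IsProbabilityMeasure P] {N N' : Cfg → ℕ} (hN : AllExp P N) (hN' : AllExp P N')
    (h : ∀ ω, N ω ≤ N' ω) {u : ℝ} (hu : 0 ≤ u) : lam P N u ≤ lam P N' u := by
  apply Real.log_le_log (integral_exp_pos (hN u))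
  refine integral_mono (hN u) (hN' u) fun ω => Real.exp_le_exp.2 ?_
  exact mul_le_mul_of_nonneg_left (by exact_mod_cast h ω) hu

lemma lam_ge [IsProbabilityMeasure P] {N N' : Cfg → ℕ} (hN : AllExp P N) (hN' : AllExp P N')
    (h : ∀ ω, N ω ≤ N' ω) {u : ℝ} (hu : u ≤ 0) : lam P N' u ≤ lam P N u := by
  apply Real.log_le_log (integral_exp_pos (hN' u))
  refine integral_mono (hN' u) (hN u) fun ω => Real.exp_le_exp.2 ?_
  exact mul_le_mul_of_nonpos_left (by exact_mod_cast h ω) hu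

lemma allExp_Ne [IsProbabilityMeasure P] (H : Ctx a P Cm K κ m) (x : ℝ × ℕ) : AllExp P (Ne x) :=
  allExp_Nn H.two H.meas _ _

/-- Limit of the logarithmic generating function. -/
theorem lim_lam [IsProbabilityMeasure P] (H : Ctx a P Cm K κ m) {b : ℝ} (hb0 : -a < b)
    (hb1 : b < π / 2 - a) :
    Tendsto (fun x : ℝ × ℕ => lam P (Ne x) (log (wt a b)) / LL x) FF
        (𝓝 (-(cAa a * (b ^ 2 + 2 * a * b)))) := by
  have h1 := (main_lim H).1 b hb0 hb1
  have h2 : Tendsto (fun x : ℝ × ℕ => lam P (NA (psi x).1 1 (psi x).2) (log (wt a b)) / LL x) FF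
        (𝓝 (-(cAa a * (b ^ 2 + 2 * a * b)))) :=
    transfer (f := fun x : ℝ × ℕ => lam P (NA x.1 1 x.2) (log (wt a b))) h1
  have hs := sandwich H.two
  have hL := tendsto_LL.eventually_gt_atTop 0
  rcases le_total 0 (log (wt a b)) with hu | hu
  · refine tendsto_of_tendsto_of_tendsto_of_le_of_le' h1 h2 ?_ ?_
    · filter_upwards [hs, hL] with x hx hl
      exact div_le_div_of_nonneg_right
        (lam_le (allExp_NA H _ _ _) (allExp_Ne H x) (fun ω => (hx ω).1) hu) hl.le
    · filter_upwards [hs, hL] with x hx hl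
      exact div_le_div_of_nonneg_right
        (lam_le (allExp_Ne H x) (allExp_NA H _ _ _) (fun ω => (hx ω).2) hu) hl.le
  · refine tendsto_of_tendsto_of_tendsto_of_le_of_le' h2 h1 ?_ ?_
    · filter_upwards [hs, hL] with x hx hl
      exact div_le_div_of_nonneg_right
        (lam_ge (allExp_Ne H x) (allExp_NA H _ _ _) (fun ω => (hx ω).2) hu) hl.le
    · filter_upwards [hs, hL] with x hx hl
      exact div_le_div_of_nonneg_right
        (lam_ge (allExp_NA H _ _ _) (allExp_Ne H x) (fun ω => (hx ω).1) hu) hl.le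

/-- Limit of the probability that there is no loop. -/
theorem lim_zero [IsProbabilityMeasure P] (H : Ctx a P Cm K κ m) :
    Tendsto (fun x : ℝ × ℕ => log (P.real {ω | Ne x ω = 0}) / LL x) FF
      (𝓝 (-(cAa a * (π ^ 2 / 4 - a ^ 2)))) := by
  have h1 := (main_lim H).2
  have h2 := transfer (f := ZZ P) h1
  have hs := sandwich H.two
  have hL := tendsto_LL.eventually_gt_atTop 0
  have hpos : ∀ᶠ x in FF, 0 < P.real {ω | NA x.1 1 x.2 ω = 0} := by
    obtain ⟨C, hC⟩ := two_up0 H (p := 2) (by norm_num)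
    exact ev_of hC fun ε n _ _ hn => hn.1
  have hpos2 := tendsto_psi.eventually hpos
  refine tendsto_of_tendsto_of_tendsto_of_le_of_le' h2 h1 ?_ ?_
  · filter_upwards [hs, hL, hpos2] with x hx hl hp
    refine div_le_div_of_nonneg_right (Real.log_le_log hp ?_) hl.le
    refine measureReal_mono (fun ω hω => ?_) (measure_ne_top _ _)
    have h3 : NA (psi x).1 1 (psi x).2 ω = 0 := hω
    have h4 := (hx ω).2
    show Ne x ω = 0
    omega
  · filter_upwards [hs, hL, hpos2] with x hx hl hp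
    have hp' : 0 < P.real {ω | Ne x ω = 0} := by
      refine lt_of_lt_of_le hp (measureReal_mono (fun ω hω => ?_) (measure_ne_top _ _))
      have h3 : NA (psi x).1 1 (psi x).2 ω = 0 := hω
      have h4 := (hx ω).2
      show Ne x ω = 0
      omega
    refine div_le_div_of_nonneg_right (Real.log_le_log hp' ?_) hl.le
    refine measureReal_mono (fun ω hω => ?_) (measure_ne_top _ _)
    have h3 : Ne x ω = 0 := hω
    have h4 := (hx ω).1
    show NA x.1 1 x.2 ω = 0
    omega

/-- Jensen. -/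
lemma mean_le [IsProbabilityMeasure P] {N : Cfg → ℕ} (hN : AllExp P N) (u : ℝ) :
    u * ∫ ω, (N ω : ℝ) ∂P ≤ lam P N u := by
  have hint : Integrable (fun ω => (N ω : ℝ)) P := by
    refine (hN 1).mono' (aem_N hN).aestronglyMeasurable (Filter.Eventually.of_forall fun ω => ?_)
    rw [Real.norm_eq_abs, abs_of_nonneg (Nat.cast_nonneg _), one_mul]
    linarith [Real.add_one_le_exp (N ω : ℝ)]
  set M : ℝ := ∫ ω, (N ω : ℝ) ∂P with hM
  have h1 : ∀ ω, exp (u * M) * (1 + (u * N ω - u * M)) ≤ exp (u * N ω) := by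
    intro ω
    have h2 := Real.add_one_le_exp (u * N ω - u * M)
    have h3 : exp (u * N ω) = exp (u * M) * exp (u * N ω - u * M) := by
      rw [← Real.exp_add]; congr 1; ring
    rw [h3]
    exact mul_le_mul_of_nonneg_left (by linarith) (Real.exp_pos _).le
  have hi1 : Integrable (fun ω => u * (N ω : ℝ)) P := hint.const_mul u
  have hi2 : Integrable (fun ω => u * (N ω : ℝ) - u * M) P := hi1.sub (integrable_const _)
  have hi3 : Integrable (fun ω => 1 + (u * (N ω : ℝ) - u * M)) P := (integrable_const _).add hi2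
  have h4 := integral_mono (hi3.const_mul (exp (u * M))) (hN u) h1
  have e1 : ∫ ω, exp (u * M) * (1 + (u * (N ω : ℝ) - u * M)) ∂P = exp (u * M) := by
    rw [integral_const_mul, integral_add (integrable_const _) hi2,
      integral_sub hi1 (integrable_const _), integral_const_mul, ← hM]
    simp
  rw [e1] at h4
  have h5 := Real.log_le_log (Real.exp_pos _) h4
  rw [Real.log_exp] at h5
  exact h5

end

lemma wt_deriv {a : ℝ} (h0 : 0 < a) (h1 : a < π / 2) :
    HasDerivAt (fun b => log (wt a b)) (-Real.tan a) 0 := by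
  have h1' : HasDerivAt (fun b : ℝ => a + b) 1 0 := by
    simpa using (hasDerivAt_id (0 : ℝ)).const_add a
  have h2 : HasDerivAt (fun b : ℝ => Real.cos (a + b)) (-Real.sin (a + 0) * 1) 0 := h1'.cos
  have h3 : HasDerivAt (wt a) ((-Real.sin (a + 0) * 1) / Real.cos a) 0 := h2.div_const _
  have hw : wt a 0 = 1 := by rw [wt, add_zero, div_self (cos_pos' h0 h1).ne']
  have h4 := h3.log (by rw [hw]; norm_num)
  rw [hw] at h4
  refine h4.congr_deriv ?_
  rw [add_zero, Real.tan_eq_sin_div_cos]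
  ring

lemma quad_deriv (a A : ℝ) : HasDerivAt (fun b : ℝ => -(A * (b ^ 2 + 2 * a * b)))
    (-(A * (2 * a))) 0 := by
  have h1 : HasDerivAt (fun b : ℝ => b ^ 2 + 2 * a * b) (2 * a) 0 := by
    have h2 : HasDerivAt (fun b : ℝ => b ^ 2 + 2 * a * b)
        (((2 : ℕ) : ℝ) * 0 ^ (2 - 1) + 2 * a * 1) 0 :=
      (hasDerivAt_pow 2 (0 : ℝ)).fun_add ((hasDerivAt_id' (0 : ℝ)).const_mul (2 * a))
    exact h2.congr_deriv (by norm_num)
  exact (h1.const_mul A).neg

lemma ratio_lim {a : ℝ} (h0 : 0 < a) (h1 : a < π / 2) (A : ℝ) :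
    Tendsto (fun b : ℝ => -(A * (b ^ 2 + 2 * a * b)) / log (wt a b)) (𝓝[≠] 0)
    (𝓝 (2 * a * A / Real.tan a)) := by
  have ht : 0 < Real.tan a := Real.tan_pos_of_pos_of_lt_pi_div_two h0 h1
  have h1' := (hasDerivAt_iff_tendsto_slope.1 (quad_deriv a A))
  have h2 := (hasDerivAt_iff_tendsto_slope.1 (wt_deriv h0 h1))
  have h3 := h1'.div h2 (by linarith)
  have e : -(A * (2 * a)) / -Real.tan a = 2 * a * A / Real.tan a := by
    rw [neg_div_neg_eq]; ring
  rw [e] at h3
  refine h3.congr' ?_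
  filter_upwards [self_mem_nhdsWithin] with b hb
  have hb' : b ≠ 0 := hb
  have hw : wt a 0 = 1 := by rw [wt, add_zero, div_self (cos_pos' h0 h1).ne']
  simp only [slope_def_field, Pi.div_apply]
  rw [hw, Real.log_one]
  simp only [sub_zero]
  have : -(A * ((0 : ℝ) ^ 2 + 2 * a * 0)) = 0 := by ring
  rw [this, sub_zero]
  field_simp

section
variable {P : Measure Cfg} {a Cm K κ : ℝ} {m : ℝ → ℕ → ℤ × ℤ → ℝ}

/-- Limit of the mean number of loops. -/
theorem lim_mean [IsProbabilityMeasure P] (H : Ctx a P Cm K κ m) :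
    Tendsto (fun x : ℝ × ℕ => (∫ ω, (Ne x ω : ℝ) ∂P) / LL x) FF
      (𝓝 (2 * a * cAa a / Real.tan a)) := by
  have hpi := Real.pi_pos
  have ha0 := H.a0
  have ha2 := H.a2
  have hL := tendsto_LL.eventually_gt_atTop 0
  rw [Metric.tendsto_nhds]
  intro η hη
  have hr := (Metric.tendsto_nhds.1 (ratio_lim ha0 ha2 (cAa a))) (η / 2) (by linarith)
  rw [eventually_nhdsWithin_iff, Metric.eventually_nhds_iff] at hr
  obtain ⟨δ, hδ, hr⟩ := hr
  set β : ℝ := min (δ / 2) (min (a / 2) ((π / 2 - a) / 2)) with hβ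
  have hβ0 : 0 < β := lt_min (by linarith) (lt_min (by linarith) (by linarith))
  have hβ1 : β < δ := lt_of_le_of_lt (min_le_left _ _) (by linarith)
  have hβ2 : β < a := lt_of_le_of_lt ((min_le_right _ _).trans (min_le_left _ _)) (by linarith)
  have hβ3 : β < π / 2 - a :=
    lt_of_le_of_lt ((min_le_right _ _).trans (min_le_right _ _)) (by linarith)
  -- positive charge
  have p1 : 0 < wt a β := wt_pos2 ha0 ha2 (by linarith) hβ3
  have hlogp : log (wt a β) < 0 := Real.log_neg p1 (wt_lt_one ha0 ha2 hβ0 hβ3)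
  have hlogn : 0 < log (wt a (-β)) := Real.log_pos (one_lt_wt ha0 ha2 (by linarith) (by linarith))
  have l1 := (lim_lam H (b := β) (by linarith) hβ3).div_const (log (wt a β))
  have l2 := (lim_lam H (b := -β) (by linarith) (by linarith)).div_const (log (wt a (-β)))
  have r1 := hr (y := β) (by rw [Real.dist_eq, sub_zero, abs_of_pos hβ0]; exact hβ1) hβ0.ne'
  have r2 := hr (y := -β) (by rw [Real.dist_eq, sub_zero, abs_neg, abs_of_pos hβ0]; exact hβ1)
    (by simp; exact hβ0.ne')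
  rw [Real.dist_eq] at r1 r2
  have e1 := (Metric.tendsto_nhds.1 l1) (η / 2) (by linarith)
  have e2 := (Metric.tendsto_nhds.1 l2) (η / 2) (by linarith)
  filter_upwards [e1, e2, hL] with x e1 e2 hl
  rw [Real.dist_eq] at e1 e2 ⊢
  have j1 := mean_le (allExp_Ne H x) (log (wt a β))
  have j2 := mean_le (allExp_Ne H x) (log (wt a (-β)))
  set M : ℝ := ∫ ω, (Ne x ω : ℝ) ∂P with hM
  have k1 : lam P (Ne x) (log (wt a β)) / LL x / log (wt a β) ≤ M / LL x := by
    rw [div_right_comm]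
    refine div_le_div_of_nonneg_right ?_ hl.le
    rw [div_le_iff_of_neg hlogp]
    linarith
  have k2 : M / LL x ≤ lam P (Ne x) (log (wt a (-β))) / LL x / log (wt a (-β)) := by
    rw [div_right_comm]
    refine div_le_div_of_nonneg_right ?_ hl.le
    rw [le_div_iff₀ hlogn]
    linarith
  rw [abs_lt] at e1 e2 r1 r2 ⊢
  constructor <;> linarith

/-- The inputs from the interface statements. -/
theorem exists_ctx {a : ℝ} (ha0 : 0 < a) (ha1 : a ≤ π / 3) (hG : G_gauss a P) (hSm : G_small a P)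
    (hL : G_large P) (hup : G_cls_up a) (hlo : G_cls_lo a) (hi : G_meas) (hr : G_ring P)
    (hm : G_mom P) (h2 : S_two) : ∃ Cm K κ m, Ctx a P Cm K κ m := by
  obtain ⟨Cm, K, m, hCm, hchg, hgauss⟩ := hG
  obtain ⟨κ, h0, h1, hs⟩ := hSm Cm 3 hCm (by norm_num)
  exact ⟨Cm, K, κ, m, ⟨ha0, ha1, h0, h1, hs, hL, hup, hlo, hi, hr, hm, h2, hchg, hgauss⟩⟩

/-- Block F for a general angle. -/
theorem g_F [IsProbabilityMeasure P] {a : ℝ} (ha0 : 0 < a) (ha1 : a ≤ π / 3) (hG : G_gauss a P)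
    (hSm : G_small a P) (hL : G_large P) (hup : G_cls_up a) (hlo : G_cls_lo a) (hi : G_meas)
    (hr : G_ring P) (hm : G_mom P) (h2 : S_two) : G_F1 a P ∧ G_F2 a P ∧ G_F3 a P := by
  obtain ⟨Cm, K, κ, m, H⟩ := exists_ctx ha0 ha1 hG hSm hL hup hlo hi hr hm h2
  have hpi := Real.pi_pos
  have ha2 := H.a2
  refine ⟨?_, ?_, ?_⟩
  · intro η hη
    obtain ⟨ε0, h0, h⟩ := to_eps (lim_zero H) η hη
    refine ⟨ε0, h0, fun ε h1 h2 => ?_⟩
    filter_upwards [h ε h1 h2] with n hn
    rw [sub_neg_eq_add] at hn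
    exact hn
  · intro u hu0 hu1 η hη
    obtain ⟨ε0, h0, h⟩ := to_eps (lim_lam H (b := u - a) (by linarith) (by linarith)) η hη
    refine ⟨ε0, h0, fun ε h1 h2 => ?_⟩
    filter_upwards [h ε h1 h2] with n hn
    have e1 : wt a (u - a) = Real.cos u / Real.cos a := by
      unfold wt; congr 2; ring
    have hc : 0 < Real.cos u / Real.cos a :=
      div_pos (Real.cos_pos_of_mem_Ioo (x := u) ⟨by linarith, hu1⟩) (cos_pos' ha0 ha2)
    have e2 : lam P (Ne (ε, n)) (log (wt a (u - a))) =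
        Real.log (∫ ω, (Real.cos u / Real.cos a) ^ (Nn (ε * n) n ω) ∂P) := by
      unfold lam
      congr 2
      ext ω
      rw [e1, mul_comm, Real.exp_nat_mul, Real.exp_log hc]
      rfl
    have e3 : -(cAa a * ((u - a) ^ 2 + 2 * a * (u - a))) =
        cAa a * (a ^ 2 - u ^ 2) := by ring
    rw [e2, e3] at hn
    exact hn
  · intro η hη
    obtain ⟨ε0, h0, h⟩ := to_eps (lim_mean H) η hη
    refine ⟨ε0, h0, fun ε h1 h2 => ?_⟩
    filter_upwards [h ε h1 h2] with n hn
    exact hn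

end

end Vale.Agent.P167.H562.GQ
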