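import Vale.Agent.P167.H562.GRg

/-!
# P167, general `q`: exponential moments of sums of the local majorants
-/

namespace Vale.Agent.P167.H562.GL

open Finset Filter Topology MeasureTheory Vale.Agent.P167.FK Vale.Agent.P167.FKA
open Vale.Agent.P167.H519 (IsLim loc_cont Bq_mono exists_Bq loop_of_no_arm)
open Vale.Agent.P167.H45 (gp gp_disj)
open Vale.Agent.P167.H166 (bxx mem_bxx)

variable {P : Measure Cfg}

/-- Iteration of the conditional bound. -/
theorem prod_exp [IsProbabilityMeasure P] {ι : Type*} [DecidableEq ι] {k : ℤ} {l C : ℝ}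
    (hC : 0 ≤ C) {x : ι → ℤ × ℤ} {r : ι → ℤ} {Z : ι → Cfg → ℕ}
    (hloc : ∀ i, ∀ ω ω' : Cfg, (∀ v, nm (v - x i) ≤ k * r i → ω v = ω' v) → Z i ω = Z i ω')
    (hE : ∀ i, ∀ (B : Finset (ℤ × ℤ)) (G : Cfg → ℝ), (∀ ω, 0 ≤ G ω) → Loc B G →
      Ind (bxx (x i) (k * r i)) G →
      ∫ ω, G ω * Real.exp (l * (Z i ω : ℝ)) ∂P ≤ C * ∫ ω, G ω ∂P)
    (J : Finset ι) (hd : ∀ i ∈ J, ∀ j ∈ J, i ≠ j →
      Disjoint {v | nm (v - x i) ≤ k * r i} {v | nm (v - x j) ≤ k * r j}) :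
    Loc (J.biUnion fun j => bxx (x j) (k * r j))
      (fun ω => Real.exp (∑ i ∈ J, l * (Z i ω : ℝ))) ∧
    ∫ ω, Real.exp (∑ i ∈ J, l * (Z i ω : ℝ)) ∂P ≤ C ^ J.card := by
  have hL : ∀ J : Finset ι, Loc (J.biUnion fun j => bxx (x j) (k * r j))
      (fun ω => Real.exp (∑ i ∈ J, l * (Z i ω : ℝ))) := by
    intro J ω ω' h
    show Real.exp _ = Real.exp _
    congr 1
    refine Finset.sum_congr rfl fun j hj => ?_
    rw [hloc j ω ω' fun v hv => h v (Finset.mem_biUnion.2 ⟨j, hj, mem_bxx.2 hv⟩)]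
  refine ⟨hL J, ?_⟩
  induction J using Finset.induction_on with
  | empty => simp
  | insert i J hi ih =>
    have h1 := ih fun i hi j hj => hd i (Finset.mem_insert_of_mem hi) j (Finset.mem_insert_of_mem hj)
    have h2 : ∀ ω, Real.exp (∑ j ∈ insert i J, l * (Z j ω : ℝ)) =
        Real.exp (∑ j ∈ J, l * (Z j ω : ℝ)) * Real.exp (l * (Z i ω : ℝ)) := by
      intro ω
      rw [Finset.sum_insert hi, add_comm, Real.exp_add]
    simp only [h2]
    have h3 := hE i _ (fun ω => Real.exp (∑ j ∈ J, l * (Z j ω : ℝ)))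
      (fun ω => (Real.exp_pos _).le) (hL J) (by
        refine Loc.ind ?_ (hL J)
        rw [Finset.disjoint_left]
        intro v hv hv'
        obtain ⟨j, hj, hv⟩ := Finset.mem_biUnion.1 hv
        rw [mem_bxx] at hv hv'
        have hij : i ≠ j := fun h => hi (h ▸ hj)
        exact Set.disjoint_left.1 (hd i (Finset.mem_insert_self _ _) j
          (Finset.mem_insert_of_mem hj) hij) hv' hv)
    rw [Finset.card_insert_of_notMem hi, pow_succ']
    exact h3.trans (mul_le_mul_of_nonneg_left h1 hC)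

/-- Hoelder over colour classes. -/
theorem Em_colP [IsProbabilityMeasure P] {ι κ : Type*} [Fintype κ] [Nonempty κ] [DecidableEq κ]
    (I : Finset ι) (col : ι → κ) {Z : ι → Cfg → ℝ} (hm : ∀ i ∈ I, Measurable (Z i)) {b : ℝ}
    (hb : 0 ≤ b) (hB : ∀ J, J ⊆ I → (∀ i ∈ J, ∀ j ∈ J, col i = col j) →
      Em P (fun ω => ∑ i ∈ J, (Fintype.card κ : ℝ) * Z i ω) ≤
        ENNReal.ofReal (Real.exp (J.card * b))) :
    Em P (fun ω => ∑ i ∈ I, Z i ω) ≤ ENNReal.ofReal (Real.exp (I.card * b)) := by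
  classical
  set c : ℕ := Fintype.card κ with hcdef
  have hc : 0 < c := Fintype.card_pos
  have hc' : (0 : ℝ) < c := by exact_mod_cast hc
  have hc1 : (1 : ℝ) ≤ c := by exact_mod_cast hc
  have h1 := Em_holder (μ := P) (Finset.univ : Finset κ)
    (Y := fun k ω => ∑ i ∈ I with col i = k, Z i ω)
    (fun k _ => Finset.measurable_fun_sum _ fun i hi => hm i (Finset.mem_filter.1 hi).1)
    (θ := fun _ => (1 : ℝ) / c) (B := fun k => ((I.filter (fun i => col i = k)).card : ℝ) * b)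
    (fun _ _ => by positivity) (by
      rw [Finset.sum_const, Finset.card_univ, ← hcdef, nsmul_eq_mul]
      field_simp; rfl) (fun k _ => by
      have e1 : (fun ω => ((1 : ℝ) / c)⁻¹ * ∑ i ∈ I with col i = k, Z i ω) =
          fun ω => ∑ i ∈ I with col i = k, (c : ℝ) * Z i ω := by
        ext ω; rw [one_div, inv_inv, Finset.mul_sum]
      rw [e1]
      exact hB _ (Finset.filter_subset _ _) fun i hi j hj =>
        (Finset.mem_filter.1 hi).2.trans (Finset.mem_filter.1 hj).2.symm)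
  have e3 : (fun ω => ∑ k : κ, ∑ i ∈ I with col i = k, Z i ω) =
      fun ω => ∑ i ∈ I, Z i ω := by
    ext ω
    exact Finset.sum_fiberwise I col (fun i => Z i ω)
  rw [e3] at h1
  refine h1.trans (ENNReal.ofReal_le_ofReal (Real.exp_le_exp.2 ?_))
  rw [← Finset.mul_sum, ← Finset.sum_mul]
  have e4 : ∑ k : κ, ((I.filter (fun i => col i = k)).card : ℝ) = I.card := by
    rw [← Nat.cast_sum]
    congr 1
    exact (Finset.card_eq_sum_card_fiberwise
      (fun i _ => Finset.mem_coe.2 (Finset.mem_univ (col i)))).symm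
  rw [e4]
  have h5 : 0 ≤ (I.card : ℝ) * b := by positivity
  have h6 : (1 : ℝ) / c ≤ 1 := by
    rw [div_le_one hc']; exact hc1
  nlinarith

theorem Em_crossP [IsProbabilityMeasure P] {k : ℤ} (hk : 2 ≤ k) {l C : ℝ} (hl : 0 < l)
    (hC : 0 < C) {Z : ℤ × ℤ → ℤ → Cfg → ℕ}
    (hloc : ∀ x r, 1 ≤ r → ∀ ω ω' : Cfg, (∀ v, nm (v - x) ≤ k * r → ω v = ω' v) →
      Z x r ω = Z x r ω')
    (hE : ∀ x r, 1 ≤ r → ∀ (B : Finset (ℤ × ℤ)) (G : Cfg → ℝ), (∀ ω, 0 ≤ G ω) → Loc B G →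
      Ind (bxx x (k * r)) G →
      ∫ ω, G ω * Real.exp (l * (Z x r ω : ℝ)) ∂P ≤ C * ∫ ω, G ω ∂P) :
    ∃ θ b : ℝ, 0 < θ ∧ 0 ≤ b ∧ ∀ (r : ℕ → ℤ), (∀ j, 1 ≤ r j) → ∀ I : Finset (ℕ × (ℤ × ℤ)),
      (∀ i ∈ I, ∀ i' ∈ I, i.1 ≠ i'.1 → (i.1 : ZMod 3) = i'.1 →
        Disjoint {v | nm (v - gp (r i.1) i.2) ≤ k * r i.1}
          {v | nm (v - gp (r i'.1) i'.2) ≤ k * r i'.1}) →
      Em P (fun ω => θ * ∑ i ∈ I, (Z (gp (r i.1) i.2) (r i.1) ω : ℝ)) ≤
        ENNReal.ofReal (Real.exp (I.card * b)) := by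
  classical
  set m : ℕ := (2 * k + 1).toNat with hm
  have hm' : (m : ℤ) = 2 * k + 1 := by omega
  have : NeZero m := ⟨by omega⟩
  set c : ℕ := Fintype.card (ZMod 3 × ZMod m × ZMod m) with hc
  have hc0 : (0 : ℝ) < c := by exact_mod_cast Fintype.card_pos
  refine ⟨l / c, Real.log (max C 1), by positivity, Real.log_nonneg (le_max_right _ _),
    fun r hr I hI => ?_⟩
  have e : (fun ω => l / c * ∑ i ∈ I, (Z (gp (r i.1) i.2) (r i.1) ω : ℝ)) =
      fun ω => ∑ i ∈ I, l / c * (Z (gp (r i.1) i.2) (r i.1) ω : ℝ) := by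
    ext ω; rw [Finset.mul_sum]
  rw [e]
  refine Em_colP I (fun i => (((i.1 : ZMod 3), ((i.2.1 : ZMod m), (i.2.2 : ZMod m))) :
    ZMod 3 × ZMod m × ZMod m)) (fun i _ => ?_) (Real.log_nonneg (le_max_right _ _)) ?_
  · refine H45.meas_locfun (bxx (gp (r i.1) i.2) (k * r i.1)) fun ω ω' hw => ?_
    show l / c * (Z (gp (r i.1) i.2) (r i.1) ω : ℝ) = l / c * (Z (gp (r i.1) i.2) (r i.1) ω' : ℝ)
    rw [hloc (gp (r i.1) i.2) (r i.1) (hr _) ω ω' fun v hv => hw v (mem_bxx.2 hv)]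
  · intro J hJ hcol
    have e2 : (fun ω => ∑ i ∈ J, (c : ℝ) * (l / c * (Z (gp (r i.1) i.2) (r i.1) ω : ℝ))) =
        fun ω => ∑ i ∈ J, l * (Z (gp (r i.1) i.2) (r i.1) ω : ℝ) := by
      ext ω
      refine Finset.sum_congr rfl fun i _ => ?_
      field_simp
    rw [← hc, e2]
    obtain ⟨h1, h2⟩ := prod_exp (P := P) hC.le (x := fun i : ℕ × (ℤ × ℤ) => gp (r i.1) i.2)
      (r := fun i => r i.1) (Z := fun i => Z (gp (r i.1) i.2) (r i.1))
      (fun i => hloc _ _ (hr _)) (fun i => hE _ _ (hr _)) J (by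
        intro i hi j hj hij
        have hc := hcol i hi j hj
        have h1 := congrArg Prod.fst hc
        have h2 := congrArg (fun p => p.2.1) hc
        have h3 := congrArg (fun p => p.2.2) hc
        dsimp only at h1 h2 h3
        by_cases h : i.1 = j.1
        · rw [← h]
          refine gp_disj (hr _) (by omega) (fun h' => hij (Prod.ext h h')) h2 h3
        · exact hI i (hJ hi) j (hJ hj) h h1)
    rw [Em_eq (loc_integrable h1)]
    refine ENNReal.ofReal_le_ofReal (h2.trans ?_)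
    rw [Real.exp_nat_mul, Real.exp_log (by positivity)]
    exact pow_le_pow_left₀ hC.le (le_max_left _ _) _

end Vale.Agent.P167.H562.GL
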