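import Vale.Agent.P167.H562.MAJ7
import Vale.Agent.P167.LOC.Main

/-!
# P167, SLE_6: (LOC2) and (LOC1)
-/

namespace Vale.Agent.P167.H562.MAJ

/-- **(LOC2)** The moments. -/
theorem s_loc2z : LOC.S_loc2z := by
  intro K hK
  obtain ⟨C, r₀, hr₀, h⟩ := loc2 K hK
  refine ⟨C, r₀, hr₀, ?_⟩
  intro n q D hq hD r R N f g Z hr hR hKR hF hDN hf hg
  exact h n q D hq hD r R N f g Z hr hR hKR hF hDN hf
    { nonneg := hg.nonneg, le := hg.le, sum := hg.sum, econ := hg.conn, supp := hg.site,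
      nbhd := hg.deep }

/-- **(LOC1)**. -/
theorem i_loc1 : LOC.I_loc1 := LOC.i_loc1 s_loc2z

end Vale.Agent.P167.H562.MAJ
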