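import Vale.Agent.P167.H562.MAJ1
import Vale.Agent.P167.H135.Tra

/-!
# P167, SLE_6: majorants of the products over the pieces of a domain (moments)

`Sm f d ω = ∑ f s * (number of the loops of diameter less than d around s)`, `Nb d` the mean number of
these loops around a site, `YN N f d ω = 8 ^ N ω * exp (- √3 * Sm f d ω)`. All moments of the majorant
are bounded by `C * exp (- t * √3 * (∑ f) * Nb d)`.
-/

namespace Vale.Agent.P167.H562.MAJ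

open Finset MeasureTheory Vale.Agent.P167.BR Vale.Agent.P167.H562.SML Vale.Agent.P167.H45
open Vale.Agent.P167.H135 (Cn Cn_loc mean_cn exists_ball)
open Vale.Agent.P167.H562 (Em Em_mono)
open Vale.Agent.P167.H167 (Fd)

/-- The mean number of the small loops around a site. -/
noncomputable def Nb (d : ℝ) : ℝ := ∫ ω, Cn d 0 ω ∂μ

/-- The sum of the masses of the small loops. -/
noncomputable def Sm (f : ℤ × ℤ → ℝ) (d : ℝ) (ω : Cfg) : ℝ := ∑ᶠ s, f s * Cn d s ω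

/-- The majorant. -/
noncomputable def YN (N : Cfg → ℕ) (f : ℤ × ℤ → ℝ) (d : ℝ) (ω : Cfg) : ℝ :=
  8 ^ N ω * Real.exp (-(√3 * Sm f d ω))

theorem YN_pos (N : Cfg → ℕ) (f : ℤ × ℤ → ℝ) (d : ℝ) (ω : Cfg) : 0 < YN N f d ω := by
  unfold YN; positivity

theorem Nb_nonneg (d : ℝ) : 0 ≤ Nb d := integral_nonneg fun ω => by
  unfold Cn; exact Nat.cast_nonneg _

theorem Cn_nonneg (d : ℝ) (z : ℤ × ℤ) (ω : Cfg) : 0 ≤ Cn d z ω := by
  unfold Cn; exact Nat.cast_nonneg _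

theorem Sm_eq {f : ℤ × ℤ → ℝ} {F : Finset (ℤ × ℤ)} (hF : ∀ s, f s ≠ 0 → s ∈ F) (d : ℝ) (ω : Cfg) :
    Sm f d ω = ∑ s ∈ F, f s * Cn d s ω := by
  unfold Sm
  refine finsum_eq_sum_of_support_subset _ fun s hs => ?_
  refine Finset.mem_coe.2 (hF s fun h => ?_)
  rw [Function.mem_support] at hs
  exact hs (by rw [h, zero_mul])

theorem fsum_eq {f : ℤ × ℤ → ℝ} {F : Finset (ℤ × ℤ)} (hF : ∀ s, f s ≠ 0 → s ∈ F) :
    ∑ᶠ s, f s = ∑ s ∈ F, f s :=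
  finsum_eq_sum_of_support_subset _ fun s hs => Finset.mem_coe.2 (hF s hs)

theorem Sm_neg (f : ℤ × ℤ → ℝ) (d : ℝ) (ω : Cfg) : Sm (-f) d ω = - Sm f d ω := by
  unfold Sm
  rw [← finsum_neg_distrib]
  exact finsum_congr fun s => by simp

/-- The sum of the masses over the small loops which visit `A`. -/
theorem sum_G {f : ℤ × ℤ → ℝ} {F A : Finset (ℤ × ℤ)} (hF : ∀ s, f s ≠ 0 → s ∈ F) {d : ℝ}
    (hA : ∀ s, f s ≠ 0 → ∀ v : ℤ × ℤ, (nm (v - s) : ℝ) < d → v ∈ A) (ω : Cfg) :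
    ∑ ℓ ∈ smf A d ω, G f ℓ = Sm f d ω := by
  rw [Sm_eq hF]
  exact H135.sum_G (fun s hs => by_contra fun h => hs (hF s h)) (fun s _ h => hA s h) ω

theorem Sm_fd {f : ℤ × ℤ → ℝ} {F : Finset (ℤ × ℤ)} (hF : ∀ s, f s ≠ 0 → s ∈ F) (d : ℝ) :
    Fd (Sm f d) := by
  have : Sm f d = fun ω => ∑ s ∈ F, f s * Cn d s ω := funext fun ω => Sm_eq hF d ω
  rw [this]
  refine Fd.sum _ fun s _ => ?_
  obtain ⟨A, hA⟩ := exists_ball s d
  have h1 : Fd (Cn d s) := ⟨fat A d, fun ω ω' hw =>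
    Cn_loc (fun v hv => (hA v).2 hv) fun v hv => hw v (Finset.mem_coe.2 hv)⟩
  exact h1.comp (fun x => f s * x)

/-- Locality. -/
theorem Sm_loc {f : ℤ × ℤ → ℝ} {F : Finset (ℤ × ℤ)} (hF : ∀ s, f s ≠ 0 → s ∈ F) {d : ℝ}
    {ω ω' : Cfg} (h : ∀ v : ℤ × ℤ, (∃ s, f s ≠ 0 ∧ (nm (v - s) : ℝ) < d) → ω v = ω' v) :
    Sm f d ω = Sm f d ω' := by
  have key : ∀ s, f s ≠ 0 → H135.CS d s ω = H135.CS d s ω' := by
    have h1 : ∀ (ω ω' : Cfg), (∀ v : ℤ × ℤ, (∃ s, f s ≠ 0 ∧ (nm (v - s) : ℝ) < d) → ω v = ω' v) →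
        ∀ s, f s ≠ 0 → H135.CS d s ω ⊆ H135.CS d s ω' := by
      intro ω ω' h s hs ℓ hℓ
      obtain ⟨h1, h2, h3⟩ := hℓ
      exact ⟨s_loc ω ω' ℓ h1 fun v hv => h v ⟨s, hs, H135.near_ins h1 h2 h3 hv⟩, h2, h3⟩
    intro s hs
    exact Set.Subset.antisymm (h1 ω ω' h s hs) (h1 ω' ω (fun v hv => (h v hv).symm) s hs)
  rw [Sm_eq hF, Sm_eq hF]
  refine sum_congr rfl fun s _ => ?_
  by_cases hs : f s = 0
  · rw [hs, zero_mul, zero_mul]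
  · unfold Cn
    rw [key s hs]

theorem mean_Sm {f : ℤ × ℤ → ℝ} {F : Finset (ℤ × ℤ)} (hF : ∀ s, f s ≠ 0 → s ∈ F) (d : ℝ) :
    ∫ ω, Sm f d ω ∂μ = (∑ᶠ s, f s) * Nb d := by
  simp only [Sm_eq hF, fsum_eq hF, Nb]
  rw [integral_finsetSum _ fun s _ => (H135.Cn_int d s).const_mul _, sum_mul]
  refine sum_congr rfl fun s _ => ?_
  rw [integral_const_mul, mean_cn]

/-- The squares at distance at most `a` of `c`. -/
theorem exists_cball (c : ℤ × ℤ) (a : ℝ) :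
    ∃ A : Finset (ℤ × ℤ), ∀ v : ℤ × ℤ, v ∈ A ↔ (nm (v - c) : ℝ) ≤ a := by
  obtain ⟨F, hF⟩ := H45.box_fin c ⌊a⌋
  refine ⟨F, fun v => ?_⟩
  rw [hF, Int.le_floor]

/-- **Exponential moments of the sum of the masses of the small loops.** -/
theorem Sm_mom (κ R Cm T : ℝ) (hκ : 0 < κ) (hR : 0 ≤ R) (hCm : 0 ≤ Cm) : ∃ C : ℝ, 0 ≤ C ∧
    ∀ ρ : ℝ, 1 ≤ ρ → ∀ (c : ℤ × ℤ) (f : ℤ × ℤ → ℝ), (∀ z, |f z| ≤ Cm / ρ ^ 2) →
    (∀ z, f z ≠ 0 → (nm (z - c) : ℝ) ≤ R * ρ) → ∀ t : ℝ, |t| ≤ T →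
      Em μ (fun ω => t * (Sm f (κ * ρ) ω - (∑ᶠ s, f s) * Nb (κ * ρ))) ≤
        ENNReal.ofReal (Real.exp C) := by
  obtain ⟨C, hC0, hC⟩ := sml_lin (R := R + κ) (κ := κ) (T * Cm) (by linarith) hκ
  refine ⟨C * Cm ^ 2 * T ^ 2, by positivity, fun ρ hρ c f hf hs t ht => ?_⟩
  obtain ⟨F, hF⟩ := exists_cball c (R * ρ)
  obtain ⟨A, hA⟩ := exists_cball c ((R + κ) * ρ)
  have hF' : ∀ s, f s ≠ 0 → s ∈ F := fun s h => (hF s).2 (hs s h)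
  have hA' : ∀ s, f s ≠ 0 → ∀ v : ℤ × ℤ, (nm (v - s) : ℝ) < κ * ρ → v ∈ A := by
    intro s h v hv
    rw [hA]
    have h1 := hs s h
    have h2 := nm_tri v s c
    have h3 : (nm (v - c) : ℝ) ≤ nm (v - s) + nm (s - c) := by exact_mod_cast h2
    nlinarith
  have h1 := hC ρ hρ c A (fun v hv => (hA v).1 hv) (fun ℓ => G f ℓ) Cm hCm (bd_G hρ hCm hf) t
    (mul_le_mul_of_nonneg_right ht hCm)
  have h2 : ∀ ω, ∑ ℓ ∈ smf A (κ * ρ) ω, G f ℓ = Sm f (κ * ρ) ω := fun ω => sum_G hF' hA' ω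
  simp only [h2] at h1
  rw [mean_Sm hF'] at h1
  refine h1.trans (ENNReal.ofReal_le_ofReal (Real.exp_le_exp.2 ?_))
  have h3 : t ^ 2 ≤ T ^ 2 := sq_le_sq' (abs_le.1 ht).1 (abs_le.1 ht).2
  exact mul_le_mul_of_nonneg_left h3 (by positivity)

/-- **Moments of the majorant.** -/
theorem YN_mom (κ R Cm s : ℝ) (m : ℕ) (hκ : 0 < κ) (hR : 0 ≤ R) (hCm : 0 ≤ Cm) (hs : 0 ≤ s) :
    ∃ ε C ρ0 : ℝ, 0 < ε ∧ 0 < C ∧ 1 ≤ ρ0 ∧ ∀ ρ : ℝ, ρ0 ≤ ρ → ∀ (c : ℤ × ℤ) (x : Fin m → ℤ × ℤ),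
    ∃ N : Cfg → ℕ,
      (∀ ω ω' : Cfg, (∀ v, (nm (v - c) : ℝ) ≤ (R + κ) * ρ →
        (∀ i, ε * ρ < (nm (v - x i) : ℝ)) → ω v = ω' v) → N ω = N ω') ∧
      (∀ ω, H945.Maj c (R * ρ) (κ * ρ) ω (N ω)) ∧
      ∀ f : ℤ × ℤ → ℝ, (∀ z, |f z| ≤ Cm / ρ ^ 2) → (∀ z, f z ≠ 0 → (nm (z - c) : ℝ) ≤ R * ρ) →
        Fd (YN N f (κ * ρ)) ∧ ∀ t : ℝ, 0 ≤ t → t ≤ s →
          ∫ ω, YN N f (κ * ρ) ω ^ t ∂μ ≤
            C * Real.exp (-(t * √3 * (∑ᶠ s, f s) * Nb (κ * ρ))) := by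
  have hl8 : 0 < Real.log 8 := Real.log_pos (by norm_num)
  obtain ⟨ε, C1, ρ1, hε, hC1, hρ1, h1⟩ := H945.macroS κ R (2 * s * Real.log 8) m hκ hR
  obtain ⟨C2, hC2, h2⟩ := Sm_mom κ R Cm (2 * s * √3) hκ hR hCm
  refine ⟨ε, Real.exp ((Real.log (max C1 1) + C2) / 2), max ρ1 1, hε, Real.exp_pos _,
    le_max_right _ _, fun ρ hρ c x => ?_⟩
  have hρ' : 1 ≤ ρ := (le_max_right _ _).trans hρ
  obtain ⟨N, hN1, hN2, hN3⟩ := h1 ρ ((le_max_left _ _).trans hρ) c x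
  refine ⟨N, hN1, hN2, fun f hf hfs => ?_⟩
  obtain ⟨F, hF⟩ := exists_cball c (R * ρ)
  have hF' : ∀ s, f s ≠ 0 → s ∈ F := fun s h => (hF s).2 (hfs s h)
  obtain ⟨B, hB⟩ := exists_cball c ((R + κ) * ρ)
  have hNfd : Fd N := ⟨B, fun ω ω' hw => hN1 ω ω' fun v hv _ =>
    hw v (Finset.mem_coe.2 ((hB v).2 hv))⟩
  have hSfd := Sm_fd hF' (κ * ρ)
  have hYfd : Fd (YN N f (κ * ρ)) :=
    hNfd.comp₂ hSfd (fun n x => (8 : ℝ) ^ n * Real.exp (-(√3 * x)))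
  refine ⟨hYfd, fun t ht0 hts => ?_⟩
  set E : ℝ := (∑ᶠ s, f s) * Nb (κ * ρ) with hE
  -- the logarithm
  have hlog : ∀ ω, YN N f (κ * ρ) ω ^ t = Real.exp (-(t * √3 * E) +
      (t * Real.log 8 * (N ω : ℝ) + -(t * √3) * (Sm f (κ * ρ) ω - E))) := by
    intro ω
    rw [← Real.exp_log (YN_pos N f (κ * ρ) ω), ← Real.exp_mul]
    congr 1
    unfold YN
    rw [Real.log_mul (by positivity) (Real.exp_pos _).ne', Real.log_exp, Real.log_pow]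
    ring
  have hA : Em μ (fun ω => 2 * (t * Real.log 8 * (N ω : ℝ))) ≤
      ENNReal.ofReal (Real.exp (Real.log (max C1 1))) := by
    rw [Real.exp_log (by positivity)]
    refine le_trans ?_ (hN3.trans (ENNReal.ofReal_le_ofReal (le_max_left _ _)))
    refine Em_mono fun ω => ?_
    have : (0 : ℝ) ≤ N ω := Nat.cast_nonneg _
    have h3 : t * (Real.log 8 * (N ω : ℝ)) ≤ s * (Real.log 8 * (N ω : ℝ)) :=
      mul_le_mul_of_nonneg_right hts (by positivity)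
    linarith
  have hBm : Em μ (fun ω => 2 * (-(t * √3) * (Sm f (κ * ρ) ω - E))) ≤
      ENNReal.ofReal (Real.exp C2) := by
    have h3 := h2 ρ hρ' c f hf hfs (-(2 * t * √3)) (by
      rw [abs_neg, abs_of_nonneg (by positivity)]
      exact mul_le_mul_of_nonneg_right (by linarith) (Real.sqrt_nonneg _))
    refine le_trans (le_of_eq ?_) h3
    unfold Em
    refine lintegral_congr fun ω => ?_
    congr 2
    ring
  have hM1 : Measurable fun ω => t * Real.log 8 * (N ω : ℝ) :=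
    (hNfd.comp (fun n : ℕ => t * Real.log 8 * (n : ℝ))).meas
  have hM2 : Measurable fun ω => -(t * √3) * (Sm f (κ * ρ) ω - E) :=
    (hSfd.comp (fun x : ℝ => -(t * √3) * (x - E))).meas
  have hAB := Em_add_const (a := -(t * √3 * E)) (Em_add hM1 hM2 hA hBm)
  have hint : Integrable (fun ω => YN N f (κ * ρ) ω ^ t) μ := (hYfd.comp (fun x => x ^ t)).int
  rw [integral_eq_lintegral_of_nonneg_ae
    (Filter.Eventually.of_forall fun ω => Real.rpow_nonneg (YN_pos N f _ ω).le _)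
    hint.aestronglyMeasurable]
  have hle : ∫⁻ ω, ENNReal.ofReal (YN N f (κ * ρ) ω ^ t) ∂μ ≤
      ENNReal.ofReal (Real.exp (-(t * √3 * E)) * Real.exp ((Real.log (max C1 1) + C2) / 2)) := by
    rw [ENNReal.ofReal_mul (Real.exp_pos _).le]
    refine le_trans (le_of_eq ?_) hAB
    unfold Em
    exact lintegral_congr fun ω => by rw [hlog]
  refine (ENNReal.toReal_mono ENNReal.ofReal_ne_top hle).trans ?_
  rw [ENNReal.toReal_ofReal (by positivity), mul_comm, hE]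
  refine le_of_eq ?_
  congr 3
  ring

end Vale.Agent.P167.H562.MAJ
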