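import Vale.Agent.P167.H562.MAJ5

/-!
# P167, SLE_6: the local functional at the base site, and the moments of LOC2
-/

namespace Vale.Agent.P167.H562.MAJ

open Finset MeasureTheory Vale.Agent.P167.BR Vale.Agent.P167.H562.SML Vale.Agent.P167.H45 Relation
open Vale.Agent.P167.E6 (IsPolygon Encloses dir face)
open Vale.Agent.P167.H562 (Em Em_mono)
open Vale.Agent.P167.H167 (Fd tot wl_zero ws_zero)
open Vale.Agent.P167.LOC (XL ZO m6)

variable {ω : Cfg} {D : Finset (ℤ × ℤ)} {p b : ℤ × ℤ} {A : Finset Ed} {K : ℝ} {r R : ℤ}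
  {f : ℤ × ℤ → ℝ} {n : ℕ} {q : ZMod n → ℤ × ℤ}

/-! ### the base charge -/

/-- The charge `- π / 3` at the middle of the top side. -/
noncomputable def tc (b : ℤ × ℤ) (R : ℤ) (z : ℤ × ℤ) : ℝ :=
  -(if z = top b R then Real.pi / 3 else 0)

/-- The square below the middle of the top side. -/
noncomputable def zt (b : ℤ × ℤ) (R : ℤ) : Finset (ℤ × ℤ) :=
  rect b.1 (b.1 + 1) (b.2 + R - 1) (b.2 + R)

theorem bigs_zt (b : ℤ × ℤ) (R : ℤ) (d : ℝ) (ω : Cfg) (D : Finset (ℤ × ℤ)) :
    (bigs D (zt b R) d ω).card ≤ 4 := by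
  classical
  have h1 : ∀ A ∈ bigs D (zt b R) d ω, ∃ e, e ∈ A ∧ e ∈ BR.eds (zt b R) := fun A hA =>
    (mem_filter.1 hA).2.1
  choose! g hg1 hg2 using h1
  have h2 : (bigs D (zt b R) d ω).card ≤ (BR.eds (zt b R)).card := by
    refine card_le_card_of_injOn g (fun A hA => hg2 A hA) ?_
    intro A hA B hB h
    have k1 := hg1 A hA
    have k2 := hg1 B hB
    rw [← h] at k2
    exact eq_of_mem_pcs (mem_filter.1 hA).1 (mem_filter.1 hB).1 k1 k2
  refine h2.trans ?_
  have h3 : zt b R = {(b.1, b.2 + R - 1)} := by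
    ext v
    rw [zt, mem_rect, mem_singleton, Prod.ext_iff]
    omega
  rw [h3]
  unfold BR.eds
  rw [singleton_biUnion]
  exact card_le_four

theorem tot_tc (hR : 1 ≤ R) : tot (hbox b R) (tc b R) = -(Real.pi / 3) := by
  unfold tot tc
  rw [sum_neg_distrib, sum_ite_eq', if_pos]
  rw [mem_sites_hbox hR]
  simp only [top]
  omega

/-- The bump and the top charge in the half box, base site `b`. -/
theorem Sc.xl_bumps (h : Sc K r) (hR : 2 * r ≤ R) {F1 : ℤ × ℤ → ℝ}
    (h1 : ∀ z, |F1 z| ≤ K / (r : ℝ) ^ 2) (h1s : ∀ z, F1 z ≠ 0 → z ∈ sites (core K b r))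
    (h1t : ∃ c : ℤ, tot (hbox b R) F1 = c * (Real.pi / 3)) :
    Bumps (univ : Finset Bool) (hbox b R) b (z2 (core K b r) (zt b R)) (z2 (hbox b r) (zt b R))
      (f2 F1 (tc b R)) (d2 (dl K r) (-1)) (fun _ => True) := by
  have h8 := h.r8
  have hR1 : 1 ≤ R := by omega
  have hcD : core K b r ⊆ hbox b R := h.core_sub.trans (hbox_mono (by omega))
  have hZD : zt b R ⊆ hbox b R := by
    intro v hv
    rw [zt, mem_rect] at hv
    rw [mem_hbox]
    omega
  have hsmall : ∀ (ω : Cfg) (ℓ : Finset Ed), IsLoop ω ℓ → ¬ Small (-1) ℓ := by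
    intro ω ℓ hℓ hs
    obtain ⟨v, hv⟩ := vs_nonempty hℓ
    have := hs v hv v hv
    rw [sub_self] at this
    have h0 : ((nm (0 : ℤ × ℤ) : ℤ) : ℝ) = 0 := by simp [nm]
    rw [h0] at this
    linarith
  have hbase : ∀ (ω : Cfg), ∀ A ∈ pcs ω (hbox b R), IsLp (hbox b R) A → W A b = 0 :=
    fun ω A hA hl => W_below (BR.IsLp.isLoop hA hl) (y := b.2)
      (fun e he => (mem_hbox.1 (hl e he)).2.2.1) le_rfl
  refine
    { sub := ?_, zb := ?_, econ := ?_, supp := ?_, nbhd := ?_, small := ?_, sep := ?_,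
      base := ?_, conn := ?_, loop := ?_, tots := ?_ }
  · rintro (_ | _) _
    · exact hZD
    · exact hcD
  · rintro (_ | _) _
    · exact subset_rfl
    · exact h.core_sub
  · rintro (_ | _) _
    · exact econ_rect (by omega) (by omega)
    · exact h.econ _
  · rintro (_ | _) _
    · intro z hz
      have hz' : z = top b R := by
        by_contra hne
        exact hz (by simp [f2, tc, hne])
      show z ∈ sites (zt b R)
      rw [zt, mem_sites_rect (by omega) (by omega), hz']
      simp only [top]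
      omega
    · exact h1s
  · rintro (_ | _) _ v hv w hw
    · have h0 : (nm (w - v) : ℝ) ≤ 0 := hw.trans (by simp [d2])
      have h2 : nm (w - v) ≤ 0 := by exact_mod_cast h0
      have h3 : w = v := by
        simp only [nm, Prod.fst_sub, Prod.snd_sub, max_le_iff, abs_le] at h2
        exact Prod.ext (by omega) (by omega)
      rw [h3]
      exact hZD hv
    · exact hbox_mono hR (h.near hv (hw.trans (by simp only [d2]; linarith)))
  · rintro (_ | _) _ ω ℓ hℓ hs
    · exact absurd hs (hsmall ω ℓ hℓ)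
    · exact (h.small h1 hℓ hs).trans (by norm_num)
  · have hdl := h.dl_le
    have hfar : ∀ u ∈ core K b r, ∀ v ∈ zt b R, r ≤ nm (u - v) := by
      intro u hu v hv
      have hu' := mem_hbox.1 (h.core_sub hu)
      rw [zt, mem_rect] at hv
      simp only [nm, Prod.fst_sub, Prod.snd_sub, le_max_iff, le_abs]
      omega
    have hr8 : (8 : ℝ) ≤ r := by exact_mod_cast h8
    rintro (_ | _) _ (_ | _) _ hij u hu v hv
    · exact absurd rfl hij
    · have := hfar v hv u hu
      rw [nm_comm'] at this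
      have h2 : (r : ℝ) ≤ nm (u - v) := by exact_mod_cast this
      show (-1 : ℝ) + 2 ≤ nm (u - v)
      linarith
    · have h2 : (r : ℝ) ≤ nm (u - v) := by exact_mod_cast hfar u hu v hv
      show dl K r + 2 ≤ nm (u - v)
      linarith
    · exact absurd rfl hij
  · intro ω A hA _ hl
    exact hbase ω A hA hl
  · have hb : b ∈ sites (hbox b R) := by
      rw [mem_sites_hbox hR1]; omega
    rintro (_ | _) _ z hz
    · exact econ_hbox hR1 z (sites_mono hZD hz) _ hb
    · exact econ_hbox hR1 z (sites_mono hcD hz) _ hb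
  · rintro (_ | _) _ ω A hA _ hl hG
    · exfalso
      obtain ⟨z, hz, hfz⟩ := exists_ins_of_G hG
      have hz' : z = top b R := by
        by_contra hne
        exact hfz (by simp [f2, tc, hne])
      rw [hz'] at hz
      exact hz (W_above (BR.IsLp.isLoop hA hl) (y := b.2 + R)
        (fun e he => (mem_hbox.1 (hl e he)).2.2.2) le_rfl)
    · by_contra hV
      obtain ⟨z, hz, hfz⟩ := exists_ins_of_G hG
      have hr1 : 1 ≤ r := by omega
      have hz' : z ∈ sites (hbox b r) := sites_mono h.core_sub (h1s z hfz)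
      have hb' : b ∈ sites (hbox b r) := by
        rw [mem_sites_hbox hr1]
        omega
      have h3 := W_zone (BR.IsLp.isLoop hA hl) hV (econ_hbox hr1 z hz' _ hb')
      rw [h3] at hz
      exact hz (hbase ω A hA hl)
  · intro s hs
    refine tots_of (J := univ) (t := fun j => tot (hbox b R) (f2 F1 (tc b R) j)) ?_ s hs
    rintro (_ | _) _
    · exact ⟨-1, by show tot (hbox b R) (tc b R) = _; rw [tot_tc hR1]; push_cast; ring⟩
    · exact h1t

theorem bigs_hbox (h : Sc K r) {N : ℕ} (hN : H945.Maj b (2 * r) (dl K r) ω N)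
    (D : Finset (ℤ × ℤ)) : (bigs D (hbox b r) (dl K r) ω).card ≤ N := by
  have h8 : (8 : ℝ) ≤ r := by exact_mod_cast h.r8
  refine bigs_card_le (c := b) (a := 2 * r) ?_ hN
  intro v hv
  rw [mem_hbox] at hv
  have : nm (v - b) ≤ r := by
    simp only [nm, Prod.fst_sub, Prod.snd_sub, max_le_iff, abs_le]
    omega
  have h1 : (nm (v - b) : ℝ) ≤ r := by exact_mod_cast this
  linarith

/-- **The majorant of the local functional at the base site.** -/
theorem Sc.XL_le (h : Sc K r) (hR : 2 * r ≤ R) {F1 : ℤ × ℤ → ℝ}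
    (h1 : ∀ z, |F1 z| ≤ K / (r : ℝ) ^ 2) (h1s : ∀ z, F1 z ≠ 0 → z ∈ sites (core K b r))
    (h1t : ∃ c : ℤ, tot (hbox b R) F1 = c * (Real.pi / 3)) {N : Cfg → ℕ}
    (hN : H945.Maj b (2 * r) (dl K r) ω (N ω)) :
    |XL b r R F1 ω| ≤ 16 * YN N F1 (dl K r) ω := by
  classical
  have hY := YN_pos N F1 (dl K r) ω
  unfold XL
  split_ifs with hI
  · have hB := h.xl_bumps hR h1 h1s h1t
    unfold XZ
    rw [abs_prod]
    have h2 := hB.maj_det (ω := ω) (T := (pcs ω (hbox b R)).filter (Vz (hbox b r)))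
      (filter_subset _ _) (fun _ _ => trivial) (fun A hA hl j _ hs hG => by
        have := hB.loop j (mem_univ _) ω A hA trivial hl hG
        rcases j with _ | _
        · exfalso
          obtain ⟨z, hz, hfz⟩ := exists_ins_of_G hG
          have hz' : z = top b R := by
            by_contra hne
            exact hfz (by simp [f2, tc, hne])
          rw [hz'] at hz
          exact hz (W_above (BR.IsLp.isLoop hA hl) (y := b.2 + R)
            (fun e he => (mem_hbox.1 (hl e he)).2.2.2) le_rfl)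
        · exact mem_filter.2 ⟨hA, this⟩)
    have e1 : (fun z => ∑ j ∈ (univ : Finset Bool), f2 F1 (tc b R) j z) =
        fun z => F1 z - if z = top b R then Real.pi / 3 else 0 := by
      funext z
      rw [Fintype.sum_bool]
      show F1 z + tc b R z = _
      unfold tc
      ring
    rw [e1] at h2
    refine h2.trans ?_
    rw [Fintype.prod_bool]
    have h3 : (2 : ℝ) ^ (bigs (hbox b R) (z2 (hbox b r) (zt b R) true)
        (d2 (dl K r) (-1) true) ω).card *
        Real.exp (-(√3 * ∑ ℓ ∈ smf (nb1 (z2 (core K b r) (zt b R)) (d2 (dl K r) (-1)) true)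
          (d2 (dl K r) (-1) true) ω, G (f2 F1 (tc b R) true) ℓ)) ≤ YN N F1 (dl K r) ω :=
      fac_le_YN (F := f2 F1 (tc b R)) (Zb := z2 (hbox b r) (zt b R))
        (Z := z2 (core K b r) (zt b R)) (d := d2 (dl K r) (-1)) (j := true) (N := N)
        h1s (bigs_hbox h hN _)
    have h4 : (2 : ℝ) ^ (bigs (hbox b R) (z2 (hbox b r) (zt b R) false)
        (d2 (dl K r) (-1) false) ω).card *
        Real.exp (-(√3 * ∑ ℓ ∈ smf (nb1 (z2 (core K b r) (zt b R)) (d2 (dl K r) (-1)) false)
          (d2 (dl K r) (-1) false) ω, G (f2 F1 (tc b R) false) ℓ)) ≤ 16 := by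
      have h5 : smf (nb1 (z2 (core K b r) (zt b R)) (d2 (dl K r) (-1)) false)
          (d2 (dl K r) (-1) false) ω = ∅ := by
        rw [eq_empty_iff_forall_notMem]
        intro ℓ hℓ
        obtain ⟨k1, -, k3⟩ := SML.mem_smf.1 hℓ
        obtain ⟨v, hv⟩ := vs_nonempty k1
        have := k3 v hv v hv
        rw [sub_self] at this
        have h0 : ((nm (0 : ℤ × ℤ) : ℤ) : ℝ) = 0 := by simp [nm]
        rw [h0] at this
        simp only [d2] at this
        linarith
      rw [h5, sum_empty, mul_zero, neg_zero, Real.exp_zero, mul_one]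
      calc (2 : ℝ) ^ (bigs (hbox b R) (z2 (hbox b r) (zt b R) false)
            (d2 (dl K r) (-1) false) ω).card ≤ 2 ^ 4 :=
            pow_le_pow_right₀ (by norm_num) (bigs_zt b R _ ω _)
        _ = 16 := by norm_num
    calc _ ≤ YN N F1 (dl K r) ω * 16 := mul_le_mul h3 h4 (by positivity) hY.le
      _ = _ := by ring
  · rw [abs_zero]
    positivity

end Vale.Agent.P167.H562.MAJ
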